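import Vale.Agent.P151.GB.Final

/-!
P151, part (B): graphs of weak polynomial growth are amenable.
-/

open Filter Topology

namespace Vale.Agent.P151.GB

open Vale.Agent.P151

theorem not_frequently_exp {D : ℕ} {b : ℕ → ℕ} {ε : ℝ} (hε : 0 < ε)
    (h : ∀ n, (1 + ε) ^ n ≤ (b n : ℝ)) (hw : ∃ᶠ n in atTop, b n ≤ n ^ D) : False := by
  have h1 : Tendsto (fun n : ℕ => ((n : ℝ) ^ D) / (1 + ε) ^ (n : ℕ)) atTop (𝓝 0) :=
    tendsto_pow_const_div_const_pow_of_one_lt D (by linarith)
  have h2 := h1.eventually (gt_mem_nhds (show (0 : ℝ) < 1 by norm_num))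
  obtain ⟨n, hn1, hn2⟩ := (hw.and_eventually h2).exists
  have h3 : (0 : ℝ) < (1 + ε) ^ n := by positivity
  rw [div_lt_one h3] at hn2
  have h4 : (b n : ℝ) ≤ (n : ℝ) ^ D := by exact_mod_cast hn1
  have h5 := h n
  linarith

/-- Weak polynomial growth implies amenability. -/
theorem isAmenable_of_weak {V : Type} {G : SimpleGraph V} [G.LocallyFinite]
    (hG : G.Connected) (o : V) {D : ℕ}
    (hw : ∃ᶠ n : ℕ in atTop, {y | G.dist o y ≤ n}.ncard ≤ n ^ D) : IsAmenable G := by
  classical
  intro ε hε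
  by_contra hcon
  push Not at hcon
  refine not_frequently_exp (b := fun n => {y | G.dist o y ≤ n}.ncard) hε (fun n => ?_) hw
  induction n with
  | zero =>
    rw [pow_zero]
    have h1 : 0 < {y | G.dist o y ≤ 0}.ncard := by
      rw [Set.ncard_pos (ball_finite hG o 0)]
      exact ⟨o, by simp⟩
    exact_mod_cast h1
  | succ n ih =>
    have hfin := ball_finite hG o n
    have hfin' := ball_finite hG o (n + 1)
    have h1 := hcon hfin.toFinset ⟨o, by rw [Set.Finite.mem_toFinset]; simp⟩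
    rw [← Set.ncard_eq_toFinset_card _ hfin] at h1
    have h2 : outerBoundary G hfin.toFinset ⊆
        {y | G.dist o y ≤ n + 1} \ {y | G.dist o y ≤ n} := by
      rintro y ⟨hy, x, hx, hxy⟩
      rw [Set.Finite.mem_toFinset] at hy hx
      refine ⟨?_, hy⟩
      have h3 := hG.dist_triangle (u := o) (v := x) (w := y)
      have h4 : G.dist x y = 1 := SimpleGraph.dist_eq_one_iff_adj.2 hxy
      have h5 : G.dist o x ≤ n := hx
      change G.dist o y ≤ n + 1
      omega
    have h3 : (outerBoundary G hfin.toFinset).ncard ≤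
        ({y | G.dist o y ≤ n + 1} \ {y | G.dist o y ≤ n}).ncard :=
      Set.ncard_le_ncard h2 (hfin'.subset Set.sdiff_subset)
    have h4 : {y | G.dist o y ≤ n} ⊆ {y | G.dist o y ≤ n + 1} := fun y hy => by
      have : G.dist o y ≤ n := hy
      change G.dist o y ≤ n + 1
      omega
    have h5 := Set.ncard_sdiff_add_ncard_of_subset h4 hfin'
    have h6 : ((outerBoundary G hfin.toFinset).ncard : ℝ) + ({y | G.dist o y ≤ n}.ncard : ℝ) ≤
        ({y | G.dist o y ≤ n + 1}.ncard : ℝ) := by
      have : (outerBoundary G hfin.toFinset).ncard + {y | G.dist o y ≤ n}.ncard ≤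
        {y | G.dist o y ≤ n + 1}.ncard := by omega
      exact_mod_cast this
    calc (1 + ε) ^ (n + 1) = (1 + ε) ^ n * (1 + ε) := pow_succ _ _
      _ ≤ ({y | G.dist o y ≤ n}.ncard : ℝ) * (1 + ε) :=
          mul_le_mul_of_nonneg_right ih (by linarith)
      _ ≤ ({y | G.dist o y ≤ n + 1}.ncard : ℝ) := by linarith

end Vale.Agent.P151.GB
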