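import Mathlib

/-!
# P151, part (B): groups with a length function, transitive graphs

Basic definitions: length functions on groups and transitive actions with an invariant finite
neighbourhood relation.
-/

universe u v

open Filter Topology

namespace Vale.Agent.P151.GB

/-- A length function on a group: `ℓ g = dist (o, g o)` for an action on a graph. -/
structure Len (Γ : Type u) [Group Γ] where
  ℓ : Γ → ℕ
  one : ℓ 1 = 0
  inv : ∀ g, ℓ g⁻¹ = ℓ g
  mul : ∀ g h, ℓ (g * h) ≤ ℓ g + ℓ h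

namespace Len

variable {Γ : Type u} [Group Γ] (L : Len Γ)

/-- The elements of length `0` (the stabiliser of the base point). -/
def K : Subgroup Γ where
  carrier := {g | L.ℓ g = 0}
  one_mem' := L.one
  mul_mem' := fun {a b} ha hb => by
    have h := L.mul a b
    rw [Set.mem_ofPred_eq] at ha hb ⊢
    omega
  inv_mem' := fun {a} ha => by
    rw [Set.mem_ofPred_eq] at ha ⊢
    rw [L.inv, ha]

theorem mem_K {g : Γ} : g ∈ L.K ↔ L.ℓ g = 0 := Iff.rfl

theorem mul_K {g k : Γ} (hk : k ∈ L.K) : L.ℓ (g * k) = L.ℓ g := by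
  have h1 := L.mul g k
  have h2 := L.mul (g * k) k⁻¹
  rw [mul_inv_cancel_right, L.inv] at h2
  rw [mem_K] at hk
  omega

theorem K_mul {g k : Γ} (hk : k ∈ L.K) : L.ℓ (k * g) = L.ℓ g := by
  rw [← L.inv, mul_inv_rev, L.mul_K (L.K.inv_mem hk), L.inv]

/-- The ball of radius `n` in `Γ ⧸ K`. -/
def ball (n : ℕ) : Set (Γ ⧸ L.K) := (fun g : Γ => (g : Γ ⧸ L.K)) '' {g | L.ℓ g ≤ n}

theorem mem_ball {n : ℕ} {g : Γ} : (g : Γ ⧸ L.K) ∈ L.ball n ↔ L.ℓ g ≤ n := by
  constructor
  · rintro ⟨h, hh, e⟩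
    have h1 : h⁻¹ * g ∈ L.K := QuotientGroup.eq.1 e
    have h2 := L.mul_K (g := h) h1
    rw [mul_inv_cancel_left] at h2
    rw [h2]
    exact hh
  · intro h
    exact ⟨g, h, rfl⟩

/-- The balls are finite. -/
def Proper : Prop := ∀ n, (L.ball n).Finite

/-- Weak polynomial growth: `|B_n| ≤ n ^ D` for infinitely many `n`. -/
def WG (D : ℕ) : Prop := ∃ᶠ n in atTop, (L.ball n).ncard ≤ n ^ D

/-- Coarse connectedness: the group is generated by the elements of length at most `R`. -/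
def CG : Prop := ∃ R, Subgroup.closure {g | L.ℓ g ≤ R} = ⊤

/-- Restriction of the length function to a subgroup. -/
def restrict (H : Subgroup Γ) : Len H where
  ℓ := fun h => L.ℓ h
  one := L.one
  inv := fun g => L.inv g
  mul := fun g h => L.mul g h

@[simp] theorem restrict_ℓ (H : Subgroup Γ) (h : H) : (L.restrict H).ℓ h = L.ℓ h := rfl

theorem restrict_K (H : Subgroup Γ) : (L.restrict H).K = L.K.subgroupOf H := rfl

/-- The map of the coset space of a subgroup. -/
def ιH (H : Subgroup Γ) : H ⧸ (L.restrict H).K → Γ ⧸ L.K :=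
  Quotient.map' (fun h : H => (h : Γ)) (fun a b hab => by
    rw [QuotientGroup.leftRel_apply] at hab ⊢
    exact hab)

theorem ιH_mk (H : Subgroup Γ) (h : H) : L.ιH H (h : H ⧸ (L.restrict H).K) = ((h : Γ) : Γ ⧸ L.K) :=
  rfl

theorem ιH_injective (H : Subgroup Γ) : Function.Injective (L.ιH H) := by
  intro a b
  induction a using QuotientGroup.induction_on with
  | H a =>
    induction b using QuotientGroup.induction_on with
    | H b =>
      intro h
      rw [ιH_mk, ιH_mk, QuotientGroup.eq] at h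
      exact QuotientGroup.eq.2 h

theorem ιH_ball (H : Subgroup Γ) (n : ℕ) : L.ιH H '' (L.restrict H).ball n ⊆ L.ball n := by
  rintro _ ⟨_, ⟨h, hh, rfl⟩, rfl⟩
  exact ⟨h, hh, rfl⟩

theorem Proper.restrict {L : Len Γ} (hL : L.Proper) (H : Subgroup Γ) : (L.restrict H).Proper :=
  fun n => ((hL n).subset (L.ιH_ball H n)).of_finite_image (L.ιH_injective H).injOn

theorem ncard_restrict_le {L : Len Γ} (hL : L.Proper) (H : Subgroup Γ) (n : ℕ) :
    ((L.restrict H).ball n).ncard ≤ (L.ball n).ncard := by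
  rw [← Set.ncard_image_of_injective _ (L.ιH_injective H)]
  exact Set.ncard_le_ncard (L.ιH_ball H n) (hL n)

theorem WG.restrict {L : Len Γ} (hL : L.Proper) {D : ℕ} (h : L.WG D) (H : Subgroup Γ) :
    (L.restrict H).WG D :=
  h.mono fun n hn => (ncard_restrict_le hL H n).trans hn

/-- A power of an element of a conjugate of `K` lies in `K`. -/
theorem exists_pow_mem_K {L : Len Γ} (hL : L.Proper) {g x : Γ} (h : L.ℓ (x⁻¹ * g * x) = 0) :
    ∃ q : ℕ, 0 < q ∧ g ^ q ∈ L.K := by
  have h1 : ∀ n : ℕ, L.ℓ (g ^ n) ≤ 2 * L.ℓ x := by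
    intro n
    have h2 : (x⁻¹ * g * x) ^ n ∈ L.K := L.K.pow_mem h n
    have h3 : g ^ n = x * (x⁻¹ * g * x) ^ n * x⁻¹ := by
      have : (x⁻¹ * g * x) ^ n = x⁻¹ * g ^ n * x := by
        have := (conj_pow (i := n) (a := x⁻¹) (b := g))
        rw [inv_inv] at this
        exact this
      rw [this]; group
    have h4 := L.mul (x * (x⁻¹ * g * x) ^ n) x⁻¹
    rw [← h3, L.mul_K h2, L.inv] at h4
    omega
  have h2 : ∀ n : ℕ, ((g ^ n : Γ) : Γ ⧸ L.K) ∈ L.ball (2 * L.ℓ x) := fun n =>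
    L.mem_ball.2 (h1 n)
  obtain ⟨m, n, hmn, e⟩ := (hL (2 * L.ℓ x)).exists_lt_map_eq_of_forall_mem h2
  refine ⟨n - m, Nat.sub_pos_of_lt hmn, ?_⟩
  have h3 : (g ^ m)⁻¹ * g ^ n ∈ L.K := QuotientGroup.eq.1 e
  have h4 : g ^ n = g ^ m * g ^ (n - m) := by rw [← pow_add, Nat.add_sub_cancel' hmn.le]
  rwa [h4, inv_mul_cancel_left] at h3

/-- A homomorphism to a torsion-free group killing `K` kills the conjugates of `K`. -/
theorem kills_conj {L : Len Γ} (hL : L.Proper) (H : Subgroup Γ) {A : Type v} [Group A]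
    (hA : ∀ (a : A) (n : ℕ), 0 < n → a ^ n = 1 → a = 1) (χ : H →* A)
    (hχ : ∀ g : H, L.ℓ g = 0 → χ g = 1) (g : H) (x : Γ) (h : L.ℓ (x⁻¹ * g * x) = 0) :
    χ g = 1 := by
  obtain ⟨q, hq, h1⟩ := exists_pow_mem_K hL h
  refine hA _ q hq ?_
  rw [← map_pow]
  refine hχ _ ?_
  rw [Subgroup.coe_pow]
  exact h1

end Len

/-- A transitive action on `V` with an invariant, symmetric, reflexive, connected relation with
finite neighbourhoods. -/
structure TG (Γ : Type u) (V : Type v) [Group Γ] [MulAction Γ V] where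
  nb : V → Finset V
  o : V
  self_mem : ∀ x, x ∈ nb x
  symm : ∀ x y, y ∈ nb x → x ∈ nb y
  smul_mem : ∀ (g : Γ) x y, y ∈ nb x → g • y ∈ nb (g • x)
  trans : ∀ x, ∃ g : Γ, g • o = x
  conn : ∀ x, Relation.ReflTransGen (fun y z => z ∈ nb y) o x

namespace TG

variable {Γ : Type u} {V : Type v} [Group Γ] [MulAction Γ V] (T : TG Γ V)

open Classical in
/-- The ball of radius `n` around `x`. -/
noncomputable def ball (x : V) : ℕ → Finset V
  | 0 => {x}
  | n + 1 => (ball x n).biUnion T.nb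

/-- Weak polynomial growth: `|B_n| ≤ n ^ D` for infinitely many `n`. -/
def WG (D : ℕ) : Prop := ∃ᶠ n in atTop, (T.ball T.o n).card ≤ n ^ D

/-- The degree. -/
noncomputable def deg : ℕ := (T.nb T.o).card

/-- The averaging operator. -/
noncomputable def avg (f : V → ℝ) (x : V) : ℝ := (T.deg : ℝ)⁻¹ * ∑ y ∈ T.nb x, f y

/-- Expectation of `f (X_n)` for the random walk started at `o`. -/
noncomputable def E (n : ℕ) (f : V → ℝ) : ℝ := (T.avg^[n] f) T.o

end TG

end Vale.Agent.P151.GB
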