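import Vale.Agent.P151.GB.W2
import Vale.Agent.P151.H982.VRev
import Vale.Agent.P151.H964.Soft

/-!
P151, part (B), (B1): an infinite transitive graph of weak polynomial growth has a finite index group
of automorphisms mapping onto `ℤ`, with the stabiliser of the base point in the kernel.
-/

universe u v

open Filter Topology

namespace Vale.Agent.P151.GB

variable {Γ : Type u} {V : Type v} [Group Γ] [MulAction Γ V] (T : TG Γ V)

/-- (B1) from the cautious walk. -/
theorem TG.virt_hom [Infinite V] {D : ℕ} (hW : T.WG D) (hc : H982.TGCautious T) :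
    ∃ H : Subgroup Γ, H.FiniteIndex ∧ ∃ χ : H →* Multiplicative ℤ, Function.Surjective χ ∧
      ∀ g : H, (g : Γ) • T.o = T.o → χ g = 1 := by
  obtain ⟨E, i1, i2, i3, π, F, hF, hFo, hH, y, hy, hy0⟩ := W2.exists_harmonic T hW
  obtain ⟨W, j1, j2, j3, σ, c, h1, h2, h3, h4⟩ :=
    H982.exists_fd_harmonic_TG T hW hc π F hF hH ⟨y, T.o, by rwa [hFo]⟩
  exact H964.exists_hom T hW h1 h2 h4

end Vale.Agent.P151.GB
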