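import Vale.Agent.P151.GB.Base

/-!
# P151, part (B): weak polynomial growth gives a cautious random walk
-/

universe u v

open Filter Topology

namespace Vale.Agent.P151.GB

/-! ### Finitely supported functions -/

/-- The scalar product of finitely supported functions. -/
noncomputable def w1ip {V : Type v} (f g : V → ℝ) : ℝ := ∑ᶠ x, f x * g x

/-- Finite support, as a predicate with a finset. -/
def w1fs {V : Type v} (f : V → ℝ) : Prop := ∃ F : Finset V, ∀ x, x ∉ F → f x = 0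

theorem w1ip_eq {V : Type v} {f g : V → ℝ} {F : Finset V} (hF : ∀ x, x ∉ F → f x = 0) :
    w1ip f g = ∑ x ∈ F, f x * g x := by
  unfold w1ip
  refine finsum_eq_sum_of_support_subset _ ?_
  intro x hx
  by_contra hxF
  have h0 : f x = 0 := hF x (by simpa using hxF)
  exact hx (by simp [h0])

theorem w1ip_comm {V : Type v} (f g : V → ℝ) : w1ip f g = w1ip g f := by
  unfold w1ip
  simp only [mul_comm]

theorem w1ip_cs {V : Type v} {f g : V → ℝ} (hf : w1fs f) (hg : w1fs g) :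
    w1ip f g ^ 2 ≤ w1ip f f * w1ip g g := by
  classical
  obtain ⟨F, hF⟩ := hf
  obtain ⟨G, hG⟩ := hg
  have hF' : ∀ x, x ∉ F ∪ G → f x = 0 := fun x hx =>
    hF x fun h => hx (Finset.mem_union_left _ h)
  have hG' : ∀ x, x ∉ F ∪ G → g x = 0 := fun x hx =>
    hG x fun h => hx (Finset.mem_union_right _ h)
  rw [w1ip_eq hF', w1ip_eq hF', w1ip_eq hG']
  have h := Finset.sum_mul_sq_le_sq_mul_sq (F ∪ G) f g
  simpa only [sq] using h

theorem w1_seq (N : ℕ → ℝ) (hN : ∀ k, N (k + 1) ^ 2 ≤ N k * N (k + 2)) (h0 : 0 < N 0)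
    (q : ℝ) (hq : 0 < q) (h1 : q * N 0 ≤ N 1) (k : ℕ) : q ^ k * N 0 ≤ N k := by
  have key : ∀ k, 0 < N k ∧ q * N k ≤ N (k + 1) := by
    intro k
    induction k with
    | zero => exact ⟨h0, h1⟩
    | succ k ih =>
      obtain ⟨i1, i2⟩ := ih
      have hp : 0 < N (k + 1) := lt_of_lt_of_le (mul_pos hq i1) i2
      refine ⟨hp, ?_⟩
      have h2 := hN k
      have h3 : q * N (k + 1) * N k ≤ N (k + 2) * N k := by
        calc q * N (k + 1) * N k = (q * N k) * N (k + 1) := by ring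
          _ ≤ N (k + 1) * N (k + 1) := mul_le_mul_of_nonneg_right i2 hp.le
          _ = N (k + 1) ^ 2 := by ring
          _ ≤ N k * N (k + 2) := h2
          _ = N (k + 2) * N k := by ring
      exact le_of_mul_le_mul_right h3 i1
  induction k with
  | zero => simp
  | succ k ih =>
    calc q ^ (k + 1) * N 0 = q * (q ^ k * N 0) := by ring
      _ ≤ q * N k := mul_le_mul_of_nonneg_left ih hq.le
      _ ≤ N (k + 1) := (key k).2

theorem w1_exp {t : ℝ} (h0 : 0 ≤ t) (h1 : t ≤ 1 / 2) : Real.exp (-(2 * t)) ≤ 1 - t := by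
  have h2 : 2 * t + 1 ≤ Real.exp (2 * t) := Real.add_one_le_exp _
  have h3 : 0 < 2 * t + 1 := by linarith
  rw [Real.exp_neg]
  refine (inv_anti₀ h3 h2).trans ?_
  rw [inv_le_iff_one_le_mul₀ h3]
  nlinarith

/-- Doubling at infinitely many scales, from weak polynomial growth. -/
theorem w1_doubling (b : ℕ → ℕ) (hb : ∀ n, 0 < b n) (hmono : Monotone b) {D : ℕ}
    (hC : ∃ᶠ n in atTop, b n ≤ n ^ D) (n0 : ℕ) :
    ∃ r : ℕ, n0 ≤ r ∧ b (2 * r) ≤ 2 ^ (D + 1) * b r := by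
  by_contra hcon
  push Not at hcon
  obtain ⟨m, hm⟩ : ∃ m, m = n0 + 1 := ⟨_, rfl⟩
  have h1 : ∀ j, 2 ^ ((D + 1) * j) * b m ≤ b (2 ^ j * m) := by
    intro j
    induction j with
    | zero => simp
    | succ j ih =>
      have h2 : n0 ≤ 2 ^ j * m := by
        have : 1 * m ≤ 2 ^ j * m := Nat.mul_le_mul_right _ Nat.one_le_two_pow
        omega
      have h3 := (hcon _ h2).le
      have e : 2 ^ (j + 1) * m = 2 * (2 ^ j * m) := by rw [pow_succ]; ring
      rw [e]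
      refine le_trans ?_ h3
      have e2 : 2 ^ ((D + 1) * (j + 1)) * b m = 2 ^ (D + 1) * (2 ^ ((D + 1) * j) * b m) := by
        rw [mul_add, mul_one, pow_add]; ring
      rw [e2]
      exact Nat.mul_le_mul_left _ ih
  obtain ⟨n, hn1, hn2⟩ := (frequently_atTop.1 hC) (2 ^ ((2 * m) ^ D) * m)
  -- the largest `j` with `2 ^ j * m ≤ n`
  have hex : ∃ j, n < 2 ^ (j + 1) * m := by
    refine ⟨n, ?_⟩
    have : n < 2 ^ n := Nat.lt_two_pow_self
    have h2 : 2 ^ n * 1 ≤ 2 ^ (n + 1) * m :=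
      Nat.mul_le_mul (Nat.pow_le_pow_right (by norm_num) (Nat.le_succ n)) (by omega)
    omega
  classical
  obtain ⟨j, hj, hj'⟩ : ∃ j, n < 2 ^ (j + 1) * m ∧ 2 ^ j * m ≤ n := by
    refine ⟨Nat.find hex, Nat.find_spec hex, ?_⟩
    rcases Nat.eq_zero_or_pos (Nat.find hex) with h0 | h0
    · rw [h0, pow_zero, one_mul]
      have : 1 * m ≤ 2 ^ ((2 * m) ^ D) * m := Nat.mul_le_mul_right _ Nat.one_le_two_pow
      omega
    · have h3 := Nat.find_min hex (m := Nat.find hex - 1) (by omega)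
      rw [not_lt, Nat.sub_add_cancel h0] at h3
      exact h3
  have hjD : (2 * m) ^ D ≤ j := by
    by_contra hlt
    rw [not_le] at hlt
    have h4 : 2 ^ (j + 1) * m ≤ 2 ^ ((2 * m) ^ D) * m :=
      Nat.mul_le_mul_right _ (Nat.pow_le_pow_right (by norm_num) hlt)
    omega
  have h5 : 2 ^ ((D + 1) * j) ≤ n ^ D := by
    refine le_trans ?_ ((h1 j).trans ((hmono hj').trans hn2))
    exact Nat.le_mul_of_pos_right _ (hb m)
  have h6 : n ^ D ≤ (2 ^ j * (2 * m)) ^ D := by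
    refine Nat.pow_le_pow_left ?_ D
    have : 2 ^ (j + 1) * m = 2 ^ j * (2 * m) := by rw [pow_succ]; ring
    omega
  have h7 := h5.trans h6
  have e1 : 2 ^ ((D + 1) * j) = 2 ^ j * (2 ^ j) ^ D := by
    rw [← pow_mul, ← pow_add]
    congr 1
    ring
  have e2 : (2 ^ j * (2 * m)) ^ D = (2 * m) ^ D * (2 ^ j) ^ D := by
    rw [mul_pow]; ring
  rw [e1, e2] at h7
  have h8 := Nat.le_of_mul_le_mul_right h7 (by positivity)
  have h9 : j < 2 ^ j := Nat.lt_two_pow_self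
  omega

namespace TG

variable {Γ : Type u} {V : Type v} [Group Γ] [MulAction Γ V] (T : TG Γ V)

/-! ### Basic facts -/

theorem w1_smul_mem_iff (g : Γ) (x y : V) : g • y ∈ T.nb (g • x) ↔ y ∈ T.nb x := by
  constructor
  · intro h
    have := T.smul_mem g⁻¹ _ _ h
    rwa [inv_smul_smul, inv_smul_smul] at this
  · exact T.smul_mem g x y

theorem w1_nb_smul [DecidableEq V] (g : Γ) (x : V) :
    T.nb (g • x) = (T.nb x).image (fun y => g • y) := by
  ext z
  rw [Finset.mem_image]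
  constructor
  · intro h
    refine ⟨g⁻¹ • z, ?_, smul_inv_smul g z⟩
    rw [← T.w1_smul_mem_iff g, smul_inv_smul]
    exact h
  · rintro ⟨y, hy, rfl⟩
    exact T.smul_mem g x y hy

theorem w1_card_nb (x : V) : (T.nb x).card = T.deg := by
  classical
  obtain ⟨g, rfl⟩ := T.trans x
  rw [T.w1_nb_smul, Finset.card_image_of_injective _ (MulAction.injective g)]
  rfl

theorem w1_deg_pos : 0 < T.deg := Finset.card_pos.2 ⟨T.o, T.self_mem _⟩

theorem w1_avg_eq (f : V → ℝ) (x : V) :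
    T.avg f x = ((T.nb x).card : ℝ)⁻¹ * ∑ y ∈ T.nb x, f y := by
  unfold avg
  rw [T.w1_card_nb]

theorem w1_mem_ball_zero {x y : V} : y ∈ T.ball x 0 ↔ y = x := by
  simp [ball]

theorem w1_mem_ball_succ {x y : V} {n : ℕ} :
    y ∈ T.ball x (n + 1) ↔ ∃ z ∈ T.ball x n, y ∈ T.nb z := by
  simp [ball]

theorem w1_ball_subset_succ (x : V) (n : ℕ) : T.ball x n ⊆ T.ball x (n + 1) := fun y hy =>
  T.w1_mem_ball_succ.2 ⟨y, hy, T.self_mem y⟩

theorem w1_ball_mono (x : V) : Monotone (T.ball x) :=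
  monotone_nat_of_le_succ (T.w1_ball_subset_succ x)

theorem w1_self_mem_ball (x : V) (n : ℕ) : x ∈ T.ball x n :=
  T.w1_ball_mono x (Nat.zero_le n) (T.w1_mem_ball_zero.2 rfl)

theorem w1_mem_ball_add {x y z : V} {m n : ℕ} (h : y ∈ T.ball x m) (h' : z ∈ T.ball y n) :
    z ∈ T.ball x (m + n) := by
  induction n generalizing z with
  | zero => rw [T.w1_mem_ball_zero] at h'; rw [h']; exact h
  | succ n ih =>
    obtain ⟨w, hw, hz⟩ := T.w1_mem_ball_succ.1 h'
    exact T.w1_mem_ball_succ.2 ⟨w, ih hw, hz⟩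

theorem w1_mem_ball_one {x y : V} (h : y ∈ T.nb x) : y ∈ T.ball x 1 :=
  T.w1_mem_ball_succ.2 ⟨x, T.w1_mem_ball_zero.2 rfl, h⟩

theorem w1_mem_ball_symm {x y : V} {n : ℕ} (h : y ∈ T.ball x n) : x ∈ T.ball y n := by
  induction n generalizing y with
  | zero => rw [w1_mem_ball_zero] at h ⊢; exact h.symm
  | succ n ih =>
    obtain ⟨w, hw, hy⟩ := T.w1_mem_ball_succ.1 h
    have := T.w1_mem_ball_add (T.w1_mem_ball_one (T.symm _ _ hy)) (ih hw)
    rwa [add_comm] at this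

theorem w1_smul_mem_ball (g : Γ) {x y : V} {n : ℕ} (h : y ∈ T.ball x n) :
    g • y ∈ T.ball (g • x) n := by
  induction n generalizing y with
  | zero => rw [w1_mem_ball_zero] at h ⊢; rw [h]
  | succ n ih =>
    obtain ⟨w, hw, hy⟩ := T.w1_mem_ball_succ.1 h
    exact T.w1_mem_ball_succ.2 ⟨g • w, ih hw, T.smul_mem g w y hy⟩

theorem w1_smul_mem_ball_iff (g : Γ) {x y : V} {n : ℕ} :
    g • y ∈ T.ball (g • x) n ↔ y ∈ T.ball x n := by
  refine ⟨fun h => ?_, T.w1_smul_mem_ball g⟩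
  have := T.w1_smul_mem_ball g⁻¹ h
  rwa [inv_smul_smul, inv_smul_smul] at this

theorem w1_exists_mem_ball (x : V) : ∃ n, x ∈ T.ball T.o n := by
  have h := T.conn x
  induction h with
  | refl => exact ⟨0, T.w1_mem_ball_zero.2 rfl⟩
  | tail _ h ih =>
    obtain ⟨n, hn⟩ := ih
    exact ⟨n + 1, T.w1_mem_ball_succ.2 ⟨_, hn, h⟩⟩

theorem w1_avg_smul (g : Γ) (f : V → ℝ) (x : V) :
    T.avg f (g • x) = T.avg (fun y => f (g • y)) x := by
  classical
  unfold avg
  rw [w1_nb_smul, Finset.sum_image (fun a _ b _ h => MulAction.injective g h)]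

theorem w1_iter_smul (g : Γ) (f : V → ℝ) (n : ℕ) (x : V) :
    (T.avg)^[n] f (g • x) = (T.avg)^[n] (fun y => f (g • y)) x := by
  induction n generalizing x with
  | zero => rfl
  | succ n ih =>
    rw [Function.iterate_succ_apply', Function.iterate_succ_apply', w1_avg_smul]
    congr 1
    funext y
    exact ih y

theorem w1_avg_mono {f g : V → ℝ} (h : ∀ x, f x ≤ g x) (x : V) : T.avg f x ≤ T.avg g x := by
  unfold avg
  exact mul_le_mul_of_nonneg_left (Finset.sum_le_sum fun y _ => h y) (by positivity)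

theorem w1_iter_mono {f g : V → ℝ} (h : ∀ x, f x ≤ g x) (n : ℕ) (x : V) :
    (T.avg)^[n] f x ≤ (T.avg)^[n] g x := by
  induction n generalizing x with
  | zero => exact h x
  | succ n ih =>
    rw [Function.iterate_succ_apply', Function.iterate_succ_apply']
    exact T.w1_avg_mono ih x

theorem w1_avg_zero (x : V) : T.avg (fun _ => 0) x = 0 := by
  simp [avg]

theorem w1_avg_one (x : V) : T.avg (fun _ => 1) x = 1 := by
  have h : (T.deg : ℝ) ≠ 0 := by
    have := T.w1_deg_pos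
    positivity
  unfold avg
  rw [Finset.sum_const, T.w1_card_nb, nsmul_eq_mul, mul_one, inv_mul_cancel₀ h]

theorem w1_iter_nonneg {f : V → ℝ} (h : ∀ x, 0 ≤ f x) (n : ℕ) (x : V) :
    0 ≤ (T.avg)^[n] f x := by
  induction n generalizing x with
  | zero => exact h x
  | succ n ih =>
    rw [Function.iterate_succ_apply', ← T.w1_avg_zero x]
    exact T.w1_avg_mono ih x

/-! ### Symmetry of the averaging operator -/

theorem w1_fs_avg {f : V → ℝ} (hf : w1fs f) : w1fs (T.avg f) := by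
  classical
  obtain ⟨F, hF⟩ := hf
  refine ⟨F.biUnion T.nb, fun x hx => ?_⟩
  unfold avg
  have h0 : ∀ y ∈ T.nb x, f y = 0 := fun y hy =>
    hF y fun h => hx (Finset.mem_biUnion.mpr ⟨y, h, T.symm _ _ hy⟩)
  rw [Finset.sum_eq_zero h0, mul_zero]

theorem w1_fs_iter {f : V → ℝ} (hf : w1fs f) (n : ℕ) : w1fs ((T.avg)^[n] f) := by
  induction n with
  | zero => exact hf
  | succ n ih => rw [Function.iterate_succ_apply']; exact T.w1_fs_avg ih

theorem w1_ip_symm {f : V → ℝ} (hf : w1fs f) (g : V → ℝ) :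
    w1ip (T.avg f) g = w1ip f (T.avg g) := by
  classical
  obtain ⟨F, hF⟩ := hf
  obtain ⟨G, hG⟩ : ∃ G, G = F.biUnion T.nb := ⟨_, rfl⟩
  have hG1 : ∀ x, x ∉ G → T.avg f x = 0 := fun x hx => by
    unfold avg
    have h0 : ∀ y ∈ T.nb x, f y = 0 := fun y hy =>
      hF y fun h => hx (hG ▸ Finset.mem_biUnion.mpr ⟨y, h, T.symm _ _ hy⟩)
    rw [Finset.sum_eq_zero h0, mul_zero]
  have hG2 : ∀ y ∈ F, T.nb y ⊆ G := fun y hy x hx => by
    rw [hG]
    exact Finset.mem_biUnion.mpr ⟨y, hy, hx⟩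
  have h1 : ∀ x, ∑ y ∈ T.nb x, f y = ∑ y ∈ F, if y ∈ T.nb x then f y else 0 := by
    intro x
    rw [← Finset.sum_filter, Finset.filter_mem_eq_inter, Finset.inter_comm]
    refine (Finset.sum_subset Finset.inter_subset_left fun y hy hy' => ?_).symm
    exact hF y fun h => hy' (Finset.mem_inter.2 ⟨hy, h⟩)
  have h2 : ∀ y ∈ F, ∑ x ∈ T.nb y, g x = ∑ x ∈ G, if x ∈ T.nb y then g x else 0 := by
    intro y hy
    rw [← Finset.sum_filter, Finset.filter_mem_eq_inter, Finset.inter_eq_right.2 (hG2 y hy)]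
  rw [w1ip_eq hG1, w1ip_eq hF]
  unfold avg
  calc ∑ x ∈ G, (T.deg : ℝ)⁻¹ * (∑ y ∈ T.nb x, f y) * g x
      = ∑ x ∈ G, ∑ y ∈ F, (T.deg : ℝ)⁻¹ * ((if y ∈ T.nb x then f y else 0) * g x) := by
        refine Finset.sum_congr rfl fun x _ => ?_
        rw [h1 x, mul_assoc, Finset.sum_mul, Finset.mul_sum]
    _ = ∑ y ∈ F, ∑ x ∈ G, (T.deg : ℝ)⁻¹ * ((if y ∈ T.nb x then f y else 0) * g x) :=
        Finset.sum_comm
    _ = ∑ y ∈ F, f y * ((T.deg : ℝ)⁻¹ * ∑ x ∈ T.nb y, g x) := by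
        refine Finset.sum_congr rfl fun y hy => ?_
        rw [h2 y hy, Finset.mul_sum, Finset.mul_sum]
        refine Finset.sum_congr rfl fun x _ => ?_
        by_cases hxy : y ∈ T.nb x
        · rw [if_pos hxy, if_pos (T.symm _ _ hxy)]; ring
        · rw [if_neg hxy, if_neg fun h => hxy (T.symm _ _ h)]; ring

theorem w1_ip_iter (m : ℕ) {f : V → ℝ} (hf : w1fs f) (g : V → ℝ) :
    w1ip ((T.avg)^[m] f) g = w1ip f ((T.avg)^[m] g) := by
  induction m generalizing f with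
  | zero => rfl
  | succ m ih =>
    rw [Function.iterate_succ_apply, ih (T.w1_fs_avg hf), T.w1_ip_symm hf,
      Function.iterate_succ_apply']

/-- Log-convexity of the even return probabilities. -/
theorem w1_logconv {f : V → ℝ} (hf : w1fs f) (k : ℕ) :
    w1ip ((T.avg)^[k + 1] f) ((T.avg)^[k + 1] f) ^ 2 ≤
      w1ip ((T.avg)^[k] f) ((T.avg)^[k] f) *
        w1ip ((T.avg)^[k + 2] f) ((T.avg)^[k + 2] f) := by
  have h := w1ip_cs (T.w1_fs_iter hf k) (T.w1_fs_iter hf (k + 2))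
  have e : w1ip ((T.avg)^[k] f) ((T.avg)^[k + 2] f) =
      w1ip ((T.avg)^[k + 1] f) ((T.avg)^[k + 1] f) := by
    have h1 := T.w1_ip_symm (T.w1_fs_iter hf k) ((T.avg)^[k + 1] f)
    rw [← Function.iterate_succ_apply' (T.avg) k f,
      ← Function.iterate_succ_apply' (T.avg) (k + 1) f] at h1
    exact h1.symm
  rwa [e] at h

/-- The Dirichlet form. -/
theorem w1_energy {f : V → ℝ} {F : Finset V} (hF : ∀ x, x ∉ F → f x = 0) {a : ℝ}
    (ha : ∀ x, ∀ y ∈ T.nb x, (f x - f y) ^ 2 ≤ a) :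
    w1ip f f - w1ip (T.avg f) f ≤ T.deg * a * F.card := by
  classical
  have hf : w1fs f := ⟨F, hF⟩
  have hd : (0 : ℝ) < T.deg := by exact_mod_cast T.w1_deg_pos
  have ha0 : 0 ≤ a := (sq_nonneg _).trans (ha T.o T.o (T.self_mem _))
  obtain ⟨G, hG⟩ : ∃ G, G = F.biUnion T.nb := ⟨_, rfl⟩
  have hFG : F ⊆ G := fun x hx => by
    rw [hG]
    exact Finset.mem_biUnion.2 ⟨x, hx, T.self_mem x⟩
  have hGF : ∀ x, x ∉ G → f x = 0 := fun x hx => hF x fun h => hx (hFG h)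
  have hGc : (G.card : ℝ) ≤ F.card * T.deg := by
    have h1 : G.card ≤ F.card * T.deg := by
      rw [hG]
      exact Finset.card_biUnion_le_card_mul _ _ _ fun x _ => (T.w1_card_nb x).le
    exact_mod_cast h1
  -- the sum of the averages of `f²`
  have hsq : ∑ x ∈ G, T.avg (fun y => f y * f y) x = ∑ x ∈ G, f x * f x := by
    have hf2 : ∀ x, x ∉ F → f x * f x = 0 := fun x hx => by rw [hF x hx, zero_mul]
    have h1 := T.w1_ip_symm (f := fun y => f y * f y) ⟨F, hf2⟩ (fun _ => 1)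
    have h2 : w1ip (T.avg fun y => f y * f y) (fun _ => 1) =
        ∑ x ∈ G, T.avg (fun y => f y * f y) x := by
      rw [w1ip_eq (F := G)]
      · simp
      · intro x hx
        unfold avg
        have h0 : ∀ y ∈ T.nb x, f y * f y = 0 := fun y hy =>
          hf2 y fun h => hx (hG ▸ Finset.mem_biUnion.mpr ⟨y, h, T.symm _ _ hy⟩)
        rw [Finset.sum_eq_zero h0, mul_zero]
    have h3 : w1ip (fun y => f y * f y) (T.avg fun _ => 1) = ∑ x ∈ G, f x * f x := by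
      rw [w1ip_eq (F := G)]
      · refine Finset.sum_congr rfl fun x _ => ?_
        rw [T.w1_avg_one, mul_one]
      · intro x hx
        rw [hGF x hx, zero_mul]
    rw [← h2, h1, h3]
  have hip : w1ip f f = ∑ x ∈ G, f x * f x := w1ip_eq hGF
  have hip2 : w1ip (T.avg f) f = ∑ x ∈ G, f x * T.avg f x := by
    rw [w1ip_comm]
    exact w1ip_eq hGF
  have key : 2 * (w1ip f f - w1ip (T.avg f) f) =
      ∑ x ∈ G, (T.deg : ℝ)⁻¹ * ∑ y ∈ T.nb x, (f x - f y) ^ 2 := by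
    have e : ∀ x, (T.deg : ℝ)⁻¹ * ∑ y ∈ T.nb x, (f x - f y) ^ 2 =
        f x * f x + T.avg (fun y => f y * f y) x - 2 * (f x * T.avg f x) := by
      intro x
      have e1 : ∑ y ∈ T.nb x, (f x - f y) ^ 2 =
          T.deg * (f x * f x) + ∑ y ∈ T.nb x, f y * f y - 2 * (f x * ∑ y ∈ T.nb x, f y) := by
        have : ∀ y ∈ T.nb x, (f x - f y) ^ 2 = f x * f x + f y * f y - 2 * (f x * f y) :=
          fun y _ => by ring
        rw [Finset.sum_congr rfl this, Finset.sum_sub_distrib, Finset.sum_add_distrib,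
          Finset.sum_const, T.w1_card_nb, nsmul_eq_mul, ← Finset.mul_sum, ← Finset.mul_sum]
      rw [e1]
      unfold avg
      field_simp
    rw [Finset.sum_congr rfl fun x _ => e x, Finset.sum_sub_distrib, Finset.sum_add_distrib,
      hsq, ← Finset.mul_sum, hip, hip2]
    ring
  have h5 : ∀ x ∈ G, (T.deg : ℝ)⁻¹ * ∑ y ∈ T.nb x, (f x - f y) ^ 2 ≤ a := by
    intro x _
    have h6 := Finset.sum_le_card_nsmul (T.nb x) (fun y => (f x - f y) ^ 2) a (ha x)
    rw [T.w1_card_nb, nsmul_eq_mul] at h6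
    rw [inv_mul_le_iff₀ hd]
    exact h6
  have h7 := Finset.sum_le_card_nsmul G _ a h5
  rw [nsmul_eq_mul, ← key] at h7
  have h8 : (G.card : ℝ) * a ≤ F.card * T.deg * a := mul_le_mul_of_nonneg_right hGc ha0
  have h9 : 0 ≤ (F.card : ℝ) * T.deg * a := by positivity
  nlinarith

/-- The lower bound for the return probabilities. -/
theorem w1_lower {f : V → ℝ} (hf : w1fs f) (h0 : 0 < w1ip f f)
    {t : ℝ} (ht0 : 0 ≤ t) (ht1 : t ≤ 1 / 2)
    (ht : w1ip f f - w1ip (T.avg f) f ≤ t * w1ip f f) (k : ℕ) :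
    Real.exp (-(4 * t * k)) * w1ip f f ≤ w1ip f ((T.avg)^[2 * k] f) := by
  have h1t : 0 < 1 - t := by linarith
  have e1 : w1ip f ((T.avg)^[2 * k] f) = w1ip ((T.avg)^[k] f) ((T.avg)^[k] f) := by
    rw [T.w1_ip_iter k hf, ← Function.iterate_add_apply, two_mul]
  have h2 : (1 - t) * w1ip f f ≤ w1ip (T.avg f) f := by linarith
  have h3 : w1ip (T.avg f) f ^ 2 ≤ w1ip (T.avg f) (T.avg f) * w1ip f f :=
    w1ip_cs (T.w1_fs_avg hf) hf
  have h4 : ((1 - t) * w1ip f f) ^ 2 ≤ w1ip (T.avg f) f ^ 2 :=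
    pow_le_pow_left₀ (mul_nonneg h1t.le h0.le) h2 2
  have h5 : (1 - t) ^ 2 * w1ip f f ≤ w1ip (T.avg f) (T.avg f) := by
    refine le_of_mul_le_mul_right ?_ h0
    calc (1 - t) ^ 2 * w1ip f f * w1ip f f = ((1 - t) * w1ip f f) ^ 2 := by ring
      _ ≤ _ := h4.trans h3
  have h6 := w1_seq (fun k => w1ip ((T.avg)^[k] f) ((T.avg)^[k] f))
    (fun k => T.w1_logconv hf k) h0 ((1 - t) ^ 2) (by positivity) h5 k
  rw [e1]
  refine le_trans (mul_le_mul_of_nonneg_right ?_ h0.le) h6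
  have h7 : Real.exp (-(4 * t * k)) = (Real.exp (-(2 * t)) ^ 2) ^ k := by
    rw [← pow_mul, ← Real.exp_nat_mul]
    congr 1
    push_cast
    ring
  rw [h7]
  exact pow_le_pow_left₀ (by positivity)
    (pow_le_pow_left₀ (Real.exp_pos _).le (w1_exp ht0 ht1) 2) k

/-- The upper bound for the return probabilities. -/
theorem w1_upper {f : V → ℝ} {F : Finset V} (hF : ∀ x, x ∉ F → f x = 0)
    (h0 : ∀ x, 0 ≤ f x) (h1 : ∀ x, f x ≤ 1) {R : ℕ}
    (hR : ∀ x ∈ F, ∀ y ∈ F, y ∈ T.ball x R) (n : ℕ) :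
    w1ip f ((T.avg)^[n] f) ≤
      F.card * T.E n (Set.indicator {p | p ∈ T.ball T.o R} 1) := by
  rw [w1ip_eq hF]
  have key : ∀ x ∈ F, f x * (T.avg)^[n] f x ≤
      T.E n (Set.indicator {p | p ∈ T.ball T.o R} 1) := by
    intro x hx
    obtain ⟨g, hg⟩ := T.trans x
    have h2 : 0 ≤ (T.avg)^[n] f x := T.w1_iter_nonneg h0 n x
    have h3 : f x * (T.avg)^[n] f x ≤ 1 * (T.avg)^[n] f x :=
      mul_le_mul_of_nonneg_right (h1 x) h2
    rw [one_mul] at h3
    refine h3.trans ?_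
    unfold E
    rw [← hg, T.w1_iter_smul]
    refine T.w1_iter_mono (fun y => ?_) n _
    by_cases hy : y ∈ T.ball T.o R
    · rw [Set.indicator_of_mem (by exact hy)]
      exact h1 _
    · rw [Set.indicator_of_notMem (by exact hy)]
      refine (hF _ fun hxg => hy ?_).le
      have := hR x hx _ hxg
      rwa [← hg, T.w1_smul_mem_ball_iff] at this
  have := Finset.sum_le_card_nsmul F _ _ key
  simpa [nsmul_eq_mul] using this

/-! ### The test function -/

open Classical in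
/-- The distance to the base point. -/
noncomputable def w1d (x : V) : ℕ := Nat.find (T.w1_exists_mem_ball x)

theorem w1d_le_iff {x : V} {n : ℕ} : T.w1d x ≤ n ↔ x ∈ T.ball T.o n := by
  classical
  constructor
  · intro h
    exact T.w1_ball_mono _ h (Nat.find_spec (T.w1_exists_mem_ball x))
  · intro h
    exact Nat.find_min' _ h

theorem w1d_le_add_one {x y : V} (h : y ∈ T.nb x) : T.w1d y ≤ T.w1d x + 1 :=
  T.w1d_le_iff.2 (T.w1_mem_ball_succ.2 ⟨x, T.w1d_le_iff.1 le_rfl, h⟩)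

theorem w1_test {r : ℕ} (hr : 0 < r) :
    ∃ f : V → ℝ, (∀ x, 0 ≤ f x) ∧ (∀ x, f x ≤ 1) ∧ (∀ x ∈ T.ball T.o r, 1 / 2 ≤ f x) ∧
      (∀ x, x ∉ T.ball T.o (2 * r) → f x = 0) ∧
      ∀ x, ∀ y ∈ T.nb x, (f x - f y) ^ 2 ≤ ((r : ℝ) ^ 2)⁻¹ := by
  have hr' : (0 : ℝ) < r := by exact_mod_cast hr
  refine ⟨fun x => max 0 (1 - T.w1d x / (2 * r)), fun x => le_max_left _ _, fun x => ?_,
    fun x hx => ?_, fun x hx => ?_, fun x y hy => ?_⟩
  · refine max_le zero_le_one ?_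
    have : (0 : ℝ) ≤ T.w1d x / (2 * r) := by positivity
    linarith
  · refine le_max_of_le_right ?_
    have h1 : (T.w1d x : ℝ) ≤ r := by exact_mod_cast T.w1d_le_iff.2 hx
    have h2 : (T.w1d x : ℝ) / (2 * r) ≤ 1 / 2 := by
      rw [div_le_div_iff₀ (by positivity) (by norm_num)]
      linarith
    linarith
  · have h1 : 2 * r < T.w1d x := by
      rw [← not_le, T.w1d_le_iff]
      exact hx
    refine max_eq_left ?_
    rw [sub_nonpos, one_le_div (by positivity)]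
    exact_mod_cast h1.le
  · have h3 : (T.w1d y : ℝ) ≤ T.w1d x + 1 := by exact_mod_cast T.w1d_le_add_one hy
    have h4 : (T.w1d x : ℝ) ≤ T.w1d y + 1 := by
      exact_mod_cast T.w1d_le_add_one (T.symm _ _ hy)
    have h5 : |max 0 (1 - (T.w1d x : ℝ) / (2 * r)) - max 0 (1 - (T.w1d y : ℝ) / (2 * r))| ≤
        1 / r := by
      rw [max_comm 0, max_comm 0]
      refine (abs_max_sub_max_le_abs _ _ _).trans ?_
      have e : 1 - (T.w1d x : ℝ) / (2 * r) - (1 - T.w1d y / (2 * r)) =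
          (T.w1d y - T.w1d x) / (2 * r) := by ring
      rw [e, abs_div, abs_of_pos (by positivity : (0 : ℝ) < 2 * r)]
      rw [div_le_div_iff₀ (by positivity) hr']
      have h6 : |(T.w1d y : ℝ) - T.w1d x| ≤ 1 := by
        rw [abs_le]
        constructor <;> linarith
      nlinarith
    have h6 := pow_le_pow_left₀ (abs_nonneg _) h5 2
    rw [sq_abs] at h6
    simpa using h6

/-- One scale. -/
theorem w1_step {Q : ℕ} {r : ℕ} (hr : 0 < r) (hrQ : 8 * T.deg * Q ≤ r)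
    (hdb : (T.ball T.o (2 * r)).card ≤ Q * (T.ball T.o r).card) (k : ℕ) :
    (4 * (Q : ℝ))⁻¹ * Real.exp (-(16 * (T.deg * Q / (r : ℝ) ^ 2) * k)) ≤
      T.E (2 * k) (Set.indicator {p | p ∈ T.ball T.o (4 * r)} 1) := by
  have hr' : (0 : ℝ) < r := by exact_mod_cast hr
  have hr1 : (1 : ℝ) ≤ r := by exact_mod_cast hr
  obtain ⟨f, f0, f1, f2, f3, f4⟩ := T.w1_test hr
  have hf : w1fs f := ⟨_, f3⟩
  have hb : 0 < (T.ball T.o r).card := Finset.card_pos.2 ⟨_, T.w1_self_mem_ball _ _⟩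
  have hb2 : 0 < (T.ball T.o (2 * r)).card := Finset.card_pos.2 ⟨_, T.w1_self_mem_ball _ _⟩
  have hQ : 0 < Q := by
    rcases Nat.eq_zero_or_pos Q with h | h
    · rw [h, zero_mul] at hdb
      omega
    · exact h
  have hQ' : (0 : ℝ) < Q := by exact_mod_cast hQ
  have hd : (0 : ℝ) < T.deg := by exact_mod_cast T.w1_deg_pos
  have hb' : (0 : ℝ) < (T.ball T.o r).card := by exact_mod_cast hb
  have hdb' : ((T.ball T.o (2 * r)).card : ℝ) ≤ Q * (T.ball T.o r).card := by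
    exact_mod_cast hdb
  have hlow : (T.ball T.o r).card / 4 ≤ w1ip f f := by
    rw [w1ip_eq f3]
    calc ((T.ball T.o r).card : ℝ) / 4 = ∑ x ∈ T.ball T.o r, (1 / 4 : ℝ) := by
          rw [Finset.sum_const, nsmul_eq_mul]; ring
      _ ≤ ∑ x ∈ T.ball T.o r, f x * f x := Finset.sum_le_sum fun x hx => by
          have := f2 x hx
          nlinarith
      _ ≤ ∑ x ∈ T.ball T.o (2 * r), f x * f x :=
          Finset.sum_le_sum_of_subset_of_nonneg (T.w1_ball_mono _ (by omega))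
            fun x _ _ => mul_self_nonneg _
  have hpos : 0 < w1ip f f := lt_of_lt_of_le (by positivity) hlow
  have hen := T.w1_energy f3 f4
  have hen2 : w1ip f f - w1ip (T.avg f) f ≤ (4 * (T.deg * Q / (r : ℝ) ^ 2)) * w1ip f f := by
    refine hen.trans ?_
    have h1 : ((T.ball T.o (2 * r)).card : ℝ) ≤ Q * (4 * w1ip f f) := by
      refine hdb'.trans (mul_le_mul_of_nonneg_left ?_ hQ'.le)
      linarith
    calc (T.deg : ℝ) * ((r : ℝ) ^ 2)⁻¹ * (T.ball T.o (2 * r)).card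
        ≤ T.deg * ((r : ℝ) ^ 2)⁻¹ * (Q * (4 * w1ip f f)) :=
          mul_le_mul_of_nonneg_left h1 (by positivity)
      _ = (4 * (T.deg * Q / (r : ℝ) ^ 2)) * w1ip f f := by ring
  have ht1 : 4 * ((T.deg : ℝ) * Q / (r : ℝ) ^ 2) ≤ 1 / 2 := by
    rw [← mul_div_assoc, div_le_div_iff₀ (by positivity) (by norm_num)]
    have h4 : (8 : ℝ) * T.deg * Q ≤ r := by exact_mod_cast hrQ
    nlinarith
  have hL := T.w1_lower hf hpos (by positivity) ht1 hen2 k
  have hU := T.w1_upper (R := 4 * r) f3 f0 f1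
    (fun x hx y hy => by
      have h1 := T.w1_mem_ball_add (T.w1_mem_ball_symm hx) hy
      have e : 2 * r + 2 * r = 4 * r := by ring
      rwa [e] at h1) (2 * k)
  set X := T.E (2 * k) (Set.indicator {p | p ∈ T.ball T.o (4 * r)} 1) with hX
  have hX0 : 0 ≤ X := T.w1_iter_nonneg
    (fun x => Set.indicator_nonneg (fun _ _ => zero_le_one) x) _ _
  have h5 : Real.exp (-(4 * (4 * (T.deg * Q / (r : ℝ) ^ 2)) * k)) *
      ((T.ball T.o r).card / 4) ≤ (T.ball T.o (2 * r)).card * X :=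
    (mul_le_mul_of_nonneg_left hlow (Real.exp_pos _).le).trans (hL.trans hU)
  have h6 : Real.exp (-(4 * (4 * (T.deg * Q / (r : ℝ) ^ 2)) * k)) * (T.ball T.o r).card ≤
      4 * Q * X * (T.ball T.o r).card := by
    have h7 := h5.trans (mul_le_mul_of_nonneg_right hdb' hX0)
    linarith
  have h7 := le_of_mul_le_mul_right h6 hb'
  rw [inv_mul_le_iff₀ (by positivity)]
  refine le_trans (le_of_eq ?_) h7
  congr 1
  ring

/-- **Weak polynomial growth gives a cautious random walk.** -/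
theorem cautious {D : ℕ} (hW : T.WG D) : ∀ c : ℝ, 0 < c → ∃ δ : ℝ, 0 < δ ∧
    ∃ᶠ n : ℕ in atTop, ∃ r : ℕ, (r : ℝ) ≤ c * √(n : ℝ) ∧
      δ ≤ T.E n (Set.indicator {p | p ∈ T.ball T.o r} 1) := by
  intro c hc
  obtain ⟨Q, hQdef⟩ : ∃ Q : ℕ, Q = 2 ^ (D + 1) := ⟨_, rfl⟩
  have hQ0 : 0 < Q := by rw [hQdef]; positivity
  have hQ' : (0 : ℝ) < Q := by exact_mod_cast hQ0
  have hd : (0 : ℝ) < T.deg := by exact_mod_cast T.w1_deg_pos
  obtain ⟨M, hM⟩ : ∃ M : ℝ, M = 16 * (T.deg * Q) * (16 / c ^ 2 + 1) := ⟨_, rfl⟩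
  refine ⟨(4 * (Q : ℝ))⁻¹ * Real.exp (-M), by positivity, ?_⟩
  rw [Filter.frequently_atTop]
  intro n0
  obtain ⟨r₀, hr₀⟩ := exists_nat_ge (c * (n0 + 1))
  obtain ⟨r, hr, hdb⟩ := w1_doubling (fun n => (T.ball T.o n).card)
    (fun n => Finset.card_pos.2 ⟨_, T.w1_self_mem_ball _ _⟩)
    (fun m n h => Finset.card_le_card (T.w1_ball_mono _ h)) hW (r₀ + 8 * T.deg * Q + 1)
  rw [← hQdef] at hdb
  obtain ⟨k, hk⟩ : ∃ k : ℕ, k = ⌈(4 * (r : ℝ) / c) ^ 2⌉₊ := ⟨_, rfl⟩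
  have h4 := T.w1_step (Q := Q) (r := r) (by omega) (by omega) hdb k
  have hr1 : (1 : ℝ) ≤ r := by
    have : 1 ≤ r := by omega
    exact_mod_cast this
  have hrr : c * (n0 + 1) ≤ r := by
    have : (r₀ : ℝ) ≤ r := by
      have : r₀ ≤ r := by omega
      exact_mod_cast this
    linarith
  have hk1 : (4 * (r : ℝ) / c) ^ 2 ≤ k := hk ▸ Nat.le_ceil _
  have hk2 : (k : ℝ) < (4 * (r : ℝ) / c) ^ 2 + 1 := hk ▸ Nat.ceil_lt_add_one (by positivity)
  have h5 : (n0 : ℝ) + 1 ≤ 4 * (r : ℝ) / c := by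
    rw [le_div_iff₀ hc]
    nlinarith
  have h6 : (n0 : ℝ) ≤ k := by
    have : (0 : ℝ) ≤ n0 := Nat.cast_nonneg _
    nlinarith
  have h6' : n0 ≤ k := by exact_mod_cast h6
  refine ⟨2 * k, by omega, 4 * r, ?_, ?_⟩
  · have h12 : 4 * (r : ℝ) / c ≤ √((2 * k : ℕ) : ℝ) := by
      apply Real.le_sqrt_of_sq_le
      push_cast
      have : (0 : ℝ) ≤ k := Nat.cast_nonneg _
      linarith
    rw [div_le_iff₀ hc] at h12
    push_cast at h12 ⊢
    linarith
  · refine le_trans ?_ h4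
    refine mul_le_mul_of_nonneg_left (Real.exp_le_exp.mpr ?_) (by positivity)
    rw [hM, neg_le_neg_iff]
    have h7 : (k : ℝ) ≤ (16 / c ^ 2 + 1) * (r : ℝ) ^ 2 := by
      have h8 : (4 * (r : ℝ) / c) ^ 2 = 16 / c ^ 2 * (r : ℝ) ^ 2 := by ring
      nlinarith
    have h10 : 16 * ((T.deg : ℝ) * Q / (r : ℝ) ^ 2) * k ≤
        16 * ((T.deg : ℝ) * Q / (r : ℝ) ^ 2) * ((16 / c ^ 2 + 1) * (r : ℝ) ^ 2) :=
      mul_le_mul_of_nonneg_left h7 (by positivity)
    refine h10.trans (le_of_eq ?_)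
    field_simp

end TG

end Vale.Agent.P151.GB
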