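import Vale.Agent.P151.GB.B1
import Vale.Agent.P151.GB.W1

/-!
P151, part (B), (B1): unconditional form.
-/

universe u v

open Filter Topology

namespace Vale.Agent.P151.GB

variable {Γ : Type u} {V : Type v} [Group Γ] [MulAction Γ V] (T : TG Γ V)

theorem TG.tgCautious {D : ℕ} (hW : T.WG D) : H982.TGCautious T := by
  intro c hc
  obtain ⟨δ, h1, h2⟩ := T.cautious hW c hc
  refine ⟨δ, h1, h2.mono fun n hn => ?_⟩
  obtain ⟨r, h3, h4⟩ := hn
  refine ⟨r, h3, ?_⟩
  refine h4.trans (le_of_eq ?_)
  congr 1
  funext p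
  by_cases hp : p ∈ T.ball T.o r
  · rw [if_pos hp, Set.indicator_of_mem (by exact hp), Pi.one_apply]
  · rw [if_neg hp, Set.indicator_of_notMem (by exact hp)]

/-- (B1): an infinite transitive graph of weak polynomial growth has a finite index group of
automorphisms mapping onto `ℤ`, with the stabiliser of the base point in the kernel. -/
theorem TG.virt_hom_uncond [Infinite V] {D : ℕ} (hW : T.WG D) :
    ∃ H : Subgroup Γ, H.FiniteIndex ∧ ∃ χ : H →* Multiplicative ℤ, Function.Surjective χ ∧
      ∀ g : H, (g : Γ) • T.o = T.o → χ g = 1 :=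
  T.virt_hom hW (T.tgCautious hW)

end Vale.Agent.P151.GB
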