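import Vale.Agent.P151.GB.B3b

/-!
P151, part (B), piece B2: coarse connectedness of finite index subgroups and (Milnor) of kernels of
homomorphisms to `ℤ` in weak polynomial growth.
-/

set_option autoImplicit false

universe u

open Filter Topology

namespace Vale.Agent.P151.GB

namespace Len

variable {Γ : Type u} [Group Γ] {L : Len Γ}

theorem CG_iff {H : Subgroup Γ} :
    (L.restrict H).CG ↔ ∃ R, H ≤ Subgroup.closure {g | g ∈ H ∧ L.ℓ g ≤ R} := by
  have key : ∀ R, Subgroup.map H.subtype (Subgroup.closure {g : H | (L.restrict H).ℓ g ≤ R}) =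
      Subgroup.closure {g | g ∈ H ∧ L.ℓ g ≤ R} := by
    intro R
    rw [MonoidHom.map_closure]
    congr 1
    ext g
    constructor
    · rintro ⟨x, hx, rfl⟩; exact ⟨x.2, hx⟩
    · rintro ⟨h1, h2⟩; exact ⟨⟨g, h1⟩, h2, rfl⟩
  constructor
  · rintro ⟨R, hR⟩
    refine ⟨R, ?_⟩
    rw [← key R, hR]
    intro g hg
    exact ⟨⟨g, hg⟩, trivial, rfl⟩
  · rintro ⟨R, hR⟩
    refine ⟨R, ?_⟩
    rw [eq_top_iff]
    intro h _
    have h1 := hR h.2
    rw [← key R] at h1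
    obtain ⟨h', hh', e⟩ := h1
    have : h' = h := Subtype.ext e
    rwa [← this]

theorem CG.mono_top (h : L.CG) : ∃ R, (⊤ : Subgroup Γ) ≤ Subgroup.closure {g | L.ℓ g ≤ R} := by
  obtain ⟨R, hR⟩ := h
  exact ⟨R, hR.ge⟩

/-- **Finite index subgroups.** -/
theorem CG.finiteIndex (h : L.CG) (H : Subgroup Γ) [H.FiniteIndex] : (L.restrict H).CG := by
  classical
  obtain ⟨R, hR⟩ := h
  obtain ⟨T, hT, hT1⟩ := H.exists_isComplement_right 1
  have hTfin : T.Finite := hT.finite_right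
  obtain ⟨M, hM⟩ : ∃ M, ∀ x ∈ T, L.ℓ x ≤ M := by
    obtain ⟨M, hM⟩ := (hTfin.image L.ℓ).bddAbove
    exact ⟨M, fun x hx => hM ⟨x, hx, rfl⟩⟩
  rw [CG_iff]
  refine ⟨M + R + M, ?_⟩
  have h1 := Subgroup.closure_mul_image_eq hT hT1 hR
  refine h1.ge.trans (Subgroup.closure_mono ?_)
  rintro _ ⟨_, ⟨x, hx, s, hs, rfl⟩, rfl⟩
  refine ⟨hT.mul_inv_toRightFun_mem _, ?_⟩
  have e1 := hM x hx
  have e2 : L.ℓ s ≤ R := hs
  have e3 := hM _ (hT.toRightFun (x * s)).2
  have e4 := L.mul x s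
  have e5 := L.mul (x * s) (↑(hT.toRightFun (x * s)))⁻¹
  rw [L.inv] at e5
  have e6 : L.ℓ (x * s * (↑(hT.toRightFun (x * s)))⁻¹) ≤ M + R + M := by omega
  exact e6

/-! ### Milnor's lemma -/

theorem pow_le (t : Γ) (n : ℕ) : L.ℓ (t ^ n) ≤ n * L.ℓ t := by
  induction n with
  | zero => simp [L.one]
  | succ n ih =>
    rw [pow_succ]
    have := L.mul (t ^ n) t
    linarith [add_mul n 1 (L.ℓ t)]

theorem zpow_le (t : Γ) (j : ℤ) : L.ℓ (t ^ j) ≤ j.natAbs * L.ℓ t := by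
  obtain ⟨n, rfl | rfl⟩ := j.eq_nat_or_neg
  · rw [zpow_natCast, Int.natAbs_natCast]; exact L.pow_le t n
  · rw [zpow_neg, zpow_natCast, L.inv, Int.natAbs_neg, Int.natAbs_natCast]; exact L.pow_le t n

/-- The words. -/
def mw (u t : Γ) : List Bool → Γ
  | [] => 1
  | b :: l => (if b then u else 1) * t * mw u t l

theorem mw_le (u t : Γ) : ∀ l : List Bool, L.ℓ (mw u t l) ≤ l.length * (L.ℓ u + L.ℓ t)
  | [] => by simp [mw, L.one]
  | b :: l => by
    have h1 := mw_le u t l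
    have h2 : L.ℓ (if b then u else 1) ≤ L.ℓ u := by
      split_ifs
      · exact le_rfl
      · rw [L.one]; omega
    have h3 := L.mul (if b then u else 1) t
    have h4 := L.mul ((if b then u else 1) * t) (mw u t l)
    simp only [mw, List.length_cons]
    have h5 : (l.length + 1) * (L.ℓ u + L.ℓ t) = l.length * (L.ℓ u + L.ℓ t) + (L.ℓ u + L.ℓ t) := by
      ring
    omega

/-- The one-sided group generated by conjugates `t ^ j U t ^ (-j)`, `a ≤ j ≤ m`. -/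
def GG (t : Γ) (U : Set Γ) (a m : ℕ) : Subgroup Γ :=
  Subgroup.closure {g | ∃ j : ℕ, a ≤ j ∧ j ≤ m ∧ ∃ x ∈ U, g = t ^ j * x * (t ^ j)⁻¹}

theorem mem_GG {t : Γ} {U : Set Γ} {a m j : ℕ} (h1 : a ≤ j) (h2 : j ≤ m) {x : Γ} (hx : x ∈ U) :
    t ^ j * x * (t ^ j)⁻¹ ∈ GG t U a m :=
  Subgroup.subset_closure ⟨j, h1, h2, x, hx, rfl⟩

theorem GG_mono (t : Γ) (U : Set Γ) (a : ℕ) {m m' : ℕ} (h : m ≤ m') : GG t U a m ≤ GG t U a m' := by
  apply Subgroup.closure_mono
  rintro g ⟨j, h1, h2, h3⟩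
  exact ⟨j, h1, h2.trans h, h3⟩

theorem GG_mono_left (t : Γ) (U : Set Γ) {a b : ℕ} (h : a ≤ b) (m : ℕ) : GG t U b m ≤ GG t U a m := by
  apply Subgroup.closure_mono
  rintro g ⟨j, h1, h2, h3⟩
  exact ⟨j, h.trans h1, h2, h3⟩

theorem conj_GG {t : Γ} {U : Set Γ} {a m : ℕ} {x : Γ} (h : x ∈ GG t U a m) :
    t * x * t⁻¹ ∈ GG t U (a + 1) (m + 1) := by
  have h1 : GG t U a m ≤ (GG t U (a + 1) (m + 1)).comap (MulAut.conj t).toMonoidHom := by
    rw [GG, Subgroup.closure_le]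
    rintro g ⟨j, h1, h2, x, hx, rfl⟩
    have h3 := mem_GG (t := t) (show a + 1 ≤ j + 1 by omega) (show j + 1 ≤ m + 1 by omega) hx
    have e : t ^ (j + 1) * x * (t ^ (j + 1))⁻¹ = MulAut.conj t (t ^ j * x * (t ^ j)⁻¹) := by
      rw [MulAut.conj_apply, pow_succ']
      group
    rw [e] at h3
    exact h3
  exact h1 h

theorem mw_mem {t u : Γ} {U : Set Γ} (hu : u ∈ U) (h1 : (1 : Γ) ∈ U) {k : Γ} (hk : k ∈ U) :
    ∀ l l' : List Bool, l.length = l'.length →
      mw u t l * k * (mw u t l')⁻¹ ∈ GG t U 0 l.length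
  | [], [], _ => by
    have := mem_GG (t := t) (le_refl 0) (le_refl 0) hk
    simpa [mw] using this
  | [], _ :: _, h => by simp at h
  | _ :: _, [], h => by simp at h
  | b :: l, b' :: l', h => by
    have h2 := conj_GG (mw_mem (t := t) hu h1 hk l l' (by simpa using h))
    have h3 := GG_mono_left t U (Nat.zero_le (0 + 1)) _ h2
    have hb : ∀ b : Bool, (if b then u else 1) ∈ GG t U 0 (l.length + 1) := by
      intro b
      have h5 : (if b then u else 1) ∈ U := by cases b <;> simp [hu, h1]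
      have := mem_GG (t := t) (le_refl 0) (Nat.zero_le (l.length + 1)) h5
      simpa using this
    have e : mw u t (b :: l) * k * (mw u t (b' :: l'))⁻¹ =
        (if b then u else 1) * (t * (mw u t l * k * (mw u t l')⁻¹) * t⁻¹) *
          (if b' then u else 1)⁻¹ := by
      simp only [mw]; group
    rw [e, List.length_cons]
    exact mul_mem (mul_mem (hb b) h3) (inv_mem (hb b'))

theorem mw_inj {t u : Γ} {U : Set Γ} (hu : u ∈ U) (h1 : (1 : Γ) ∈ U)
    (hn : ∀ m, u ∉ GG t U 1 m) {k : Γ} (hk : k ∈ U) :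
    ∀ l l' : List Bool, l.length = l'.length → mw u t l * k = mw u t l' → l = l'
  | [], [], _, _ => rfl
  | [], _ :: _, h, _ => by simp at h
  | _ :: _, [], h, _ => by simp at h
  | b :: l, b' :: l', h, e => by
    have hl : l.length = l'.length := by simpa using h
    have h2 := conj_GG (mw_mem (t := t) hu h1 hk l l' hl)
    simp only [mw] at e
    have e2 : t * (mw u t l * k * (mw u t l')⁻¹) * t⁻¹ =
        (if b then u else 1)⁻¹ * (if b' then u else 1) := by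
      have : (if b then u else 1) * t * mw u t l * k * (mw u t l')⁻¹ * t⁻¹ =
        (if b' then u else 1) := by rw [e]; group
      rw [eq_inv_mul_iff_mul_eq, ← this]; group
    rw [e2] at h2
    cases b <;> cases b'
    · simp only [Bool.false_eq_true, if_false, one_mul] at e
      rw [mul_assoc, mul_right_inj] at e
      rw [mw_inj hu h1 hn hk l l' hl e]
    · simp only [Bool.false_eq_true, if_false, if_true, inv_one, one_mul] at h2
      exact absurd h2 (hn _)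
    · simp only [Bool.false_eq_true, if_false, if_true, mul_one] at h2
      exact absurd (inv_mem_iff.1 h2) (hn _)
    · simp only [if_true] at e
      rw [mul_assoc, mul_right_inj] at e
      rw [mw_inj hu h1 hn hk l l' hl e]

theorem exists_mem_GG {D : ℕ} (hL : L.Proper) (hW : L.WG D) (t : Γ) {U : Set Γ}
    (hKU : ∀ k, L.ℓ k = 0 → k ∈ U) {u : Γ} (hu : u ∈ U) : ∃ m, u ∈ GG t U 1 m := by
  by_contra hn
  push Not at hn
  set C := L.ℓ u + L.ℓ t + 1 with hC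
  have h1 := hW.and_eventually (eventually_pow_lt D C (by omega))
  obtain ⟨R, h2, h3⟩ := h1.exists
  have h4 : (2 : ℕ) ^ (R / C) ≤ (L.ball R).ncard := by
    let f : (Fin (R / C) → Bool) → Γ ⧸ L.K := fun b => ((mw u t (List.ofFn b) : Γ) : Γ ⧸ L.K)
    have hf : Function.Injective f := by
      intro b b' hb
      have e1 : (mw u t (List.ofFn b))⁻¹ * mw u t (List.ofFn b') ∈ L.K := QuotientGroup.eq.1 hb
      have e2 := mw_inj hu (hKU 1 L.one) hn (hKU _ e1) (List.ofFn b) (List.ofFn b')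
        (by simp) (by rw [mul_inv_cancel_left])
      exact List.ofFn_injective e2
    have h5 : Set.range f ⊆ L.ball R := by
      rintro _ ⟨b, rfl⟩
      rw [L.mem_ball]
      refine (mw_le u t _).trans ?_
      rw [List.length_ofFn]
      calc R / C * (L.ℓ u + L.ℓ t) ≤ R / C * C := Nat.mul_le_mul_left _ (by omega)
        _ ≤ R := Nat.div_mul_le_self R C
    have h6 := Set.ncard_le_ncard h5 (hL R)
    rw [← Set.image_univ, Set.ncard_image_of_injective _ hf, Set.ncard_univ, Nat.card_eq_fintype_card,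
      Fintype.card_fun, Fintype.card_bool, Fintype.card_fin] at h6
    exact h6
  omega

theorem exists_le_GG {D : ℕ} (hL : L.Proper) (hW : L.WG D) (t : Γ) {U : Set Γ} {B : ℕ}
    (hB : ∀ u ∈ U, L.ℓ u ≤ B)
    (hKU : ∀ k, L.ℓ k = 0 → k ∈ U) : ∃ m, ∀ m', m ≤ m' → ∀ u ∈ U, u ∈ GG t U 1 m' := by
  classical
  let S : Set (Γ ⧸ L.K) := (fun g : Γ => ((g * t : Γ) : Γ ⧸ L.K)) '' U
  have hS : S.Finite := by
    refine (hL (B + L.ℓ t)).subset ?_
    rintro _ ⟨u, hu, rfl⟩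
    rw [L.mem_ball]
    have := L.mul u t
    have := hB u hu
    omega
  have h1 : ∀ q : Γ ⧸ L.K, ∃ m, q ∈ S → ∃ g ∈ U, ((g * t : Γ) : Γ ⧸ L.K) = q ∧ g ∈ GG t U 1 m := by
    intro q
    by_cases hq : q ∈ S
    · obtain ⟨g, hg, e⟩ := hq
      obtain ⟨m, hm⟩ := exists_mem_GG hL hW t hKU hg
      exact ⟨m, fun _ => ⟨g, hg, e, hm⟩⟩
    · exact ⟨0, fun h => absurd h hq⟩
  choose m hm using h1
  obtain ⟨M, hM⟩ := (hS.image m).bddAbove
  refine ⟨M + 1, fun m' hm' u hu => ?_⟩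
  have hq : ((u * t : Γ) : Γ ⧸ L.K) ∈ S := ⟨u, hu, rfl⟩
  obtain ⟨g, hg, e, hgm⟩ := hm _ hq
  have h2 : m ((u * t : Γ) : Γ ⧸ L.K) ≤ M := hM ⟨_, hq, rfl⟩
  have h3 : (g * t)⁻¹ * (u * t) ∈ L.K := QuotientGroup.eq.1 e
  have h4 := mem_GG (t := t) (a := 1) (m := m') (le_refl 1) (by omega) (hKU _ h3)
  have h5 := mul_mem (GG_mono t U 1 (show m ((u * t : Γ) : Γ ⧸ L.K) ≤ m' by omega) hgm) h4
  have e2 : g * (t ^ 1 * ((g * t)⁻¹ * (u * t)) * (t ^ 1)⁻¹) = u := by group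
  rwa [e2] at h5

/-- The two-sided group. -/
def NN (t : Γ) (U : Set Γ) (M : ℕ) : Subgroup Γ :=
  Subgroup.closure {g | ∃ j : ℤ, -(M : ℤ) ≤ j ∧ j ≤ M ∧ ∃ x ∈ U, g = t ^ j * x * (t ^ j)⁻¹}

theorem mem_NN {t : Γ} {U : Set Γ} {M : ℕ} {j : ℤ} (h1 : -(M : ℤ) ≤ j) (h2 : j ≤ M) {x : Γ}
    (hx : x ∈ U) : t ^ j * x * (t ^ j)⁻¹ ∈ NN t U M :=
  Subgroup.subset_closure ⟨j, h1, h2, x, hx, rfl⟩

theorem NN_inv (t : Γ) (U : Set Γ) (M : ℕ) : NN t⁻¹ U M = NN t U M := by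
  unfold NN
  congr 1
  ext g
  constructor
  · rintro ⟨j, h1, h2, x, hx, rfl⟩
    exact ⟨-j, by omega, by omega, x, hx, by rw [inv_zpow']⟩
  · rintro ⟨j, h1, h2, x, hx, rfl⟩
    exact ⟨-j, by omega, by omega, x, hx, by rw [inv_zpow', neg_neg]⟩

theorem conj_NN {t : Γ} {U : Set Γ} {M : ℕ} (h : ∀ u ∈ U, u ∈ GG t⁻¹ U 1 M) {x : Γ}
    (hx : x ∈ NN t U M) : t * x * t⁻¹ ∈ NN t U M := by
  have h1 : NN t U M ≤ (NN t U M).comap (MulAut.conj t).toMonoidHom := by
    conv_lhs => rw [NN]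
    rw [Subgroup.closure_le]
    rintro g ⟨j, h1, h2, x, hx, rfl⟩
    show MulAut.conj t (t ^ j * x * (t ^ j)⁻¹) ∈ NN t U M
    have e : MulAut.conj t (t ^ j * x * (t ^ j)⁻¹) = t ^ (j + 1) * x * (t ^ (j + 1))⁻¹ := by
      rw [MulAut.conj_apply]; group
    rw [e]
    by_cases hj : j + 1 ≤ M
    · exact mem_NN (by omega) hj hx
    · have hj' : j = M := by omega
      have h3 : GG t⁻¹ U 1 M ≤ (NN t U M).comap (MulAut.conj (t ^ (j + 1))).toMonoidHom := by
        rw [GG, Subgroup.closure_le]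
        rintro g ⟨i, hi1, hi2, y, hy, rfl⟩
        show MulAut.conj (t ^ (j + 1)) (t⁻¹ ^ i * y * (t⁻¹ ^ i)⁻¹) ∈ NN t U M
        have e2 : MulAut.conj (t ^ (j + 1)) (t⁻¹ ^ i * y * (t⁻¹ ^ i)⁻¹) =
            t ^ (j + 1 - i) * y * (t ^ (j + 1 - i))⁻¹ := by
          rw [MulAut.conj_apply]
          have : t ^ (j + 1 - i) = t ^ (j + 1) * t⁻¹ ^ i := by
            rw [zpow_sub, zpow_natCast, inv_pow]
          rw [this, mul_inv_rev]
          simp only [mul_assoc]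
        rw [e2]
        exact mem_NN (by omega) (by omega) hy
      exact h3 (h x hx)
  exact h1 hx

/-- **Milnor's lemma**: the kernel of a homomorphism onto `ℤ` is coarsely connected. -/
theorem ker_CG {D : ℕ} (hL : L.Proper) (hW : L.WG D) (hC : L.CG) (χ : Γ →* Multiplicative ℤ)
    (hχ : Function.Surjective χ) (hK : ∀ g, L.ℓ g = 0 → χ g = 1) :
    (L.restrict χ.ker).CG := by
  classical
  obtain ⟨R, hR⟩ := hC
  obtain ⟨t, ht⟩ := hχ (Multiplicative.ofAdd 1)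
  let τ : Γ → ℤ := fun g => Multiplicative.toAdd (χ g)
  have hτmul : ∀ g h, τ (g * h) = τ g + τ h := fun g h => by simp [τ, toAdd_mul]
  have hτt : τ t = 1 := by simp [τ, ht]
  have hτz : ∀ j : ℤ, τ (t ^ j) = j := fun j => by simp [τ, ht]
  have hτinv : ∀ g, τ g⁻¹ = - τ g := fun g => by simp [τ]
  have hτker : ∀ g, g ∈ χ.ker ↔ τ g = 0 := fun g => by
    rw [MonoidHom.mem_ker]; exact Iff.rfl
  have hτK : ∀ g, L.ℓ g = 0 → τ g = 0 := fun g hg => by simp [τ, hK g hg]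
  -- bound of the values on the generators
  obtain ⟨T, hT⟩ : ∃ T : ℕ, ∀ g, L.ℓ g ≤ R → (τ g).natAbs ≤ T := by
    obtain ⟨T, hT⟩ := ((hL R).image (fun q => (τ q.out).natAbs)).bddAbove
    refine ⟨T, fun g hg => ?_⟩
    have h1 : (g : Γ ⧸ L.K) ∈ L.ball R := L.mem_ball.2 hg
    have h2 := hT ⟨_, h1, rfl⟩
    have h3 : τ ((g : Γ ⧸ L.K)).out = τ g := by
      have h4 : ((g : Γ ⧸ L.K)).out⁻¹ * g ∈ L.K := QuotientGroup.eq.1 (QuotientGroup.out_eq' _)
      have h5 := hτK _ h4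
      rw [hτmul, hτinv] at h5
      omega
    simp only [h3] at h2
    exact h2
  set B := R + T * L.ℓ t with hBdef
  let U : Set Γ := {g | τ g = 0 ∧ L.ℓ g ≤ B}
  have hKU : ∀ k, L.ℓ k = 0 → k ∈ U := fun k hk => ⟨hτK k hk, by omega⟩
  have hUB : ∀ u ∈ U, L.ℓ u ≤ B := fun u hu => hu.2
  obtain ⟨m1, hm1⟩ := exists_le_GG hL hW t hUB hKU
  obtain ⟨m2, hm2⟩ := exists_le_GG hL hW t⁻¹ hUB hKU
  set M := max m1 m2 with hM
  have hM1 := hm1 M (le_max_left _ _)
  have hM2 := hm2 M (le_max_right _ _)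
  -- normality
  have hc1 : ∀ x ∈ NN t U M, t * x * t⁻¹ ∈ NN t U M := fun x hx => conj_NN hM2 hx
  have hc2 : ∀ x ∈ NN t U M, t⁻¹ * x * t ∈ NN t U M := fun x hx => by
    rw [← NN_inv] at hx ⊢
    have := conj_NN (t := t⁻¹) (by rwa [inv_inv]) hx
    rwa [inv_inv] at this
  have hc3 : ∀ (j : ℤ), ∀ x ∈ NN t U M, t ^ j * x * (t ^ j)⁻¹ ∈ NN t U M := by
    intro j
    induction j with
    | zero => intro x hx; simpa using hx
    | succ n ih =>
      intro x hx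
      have := hc1 _ (ih x hx)
      have e : t ^ ((n : ℤ) + 1) * x * (t ^ ((n : ℤ) + 1))⁻¹ =
        t * (t ^ (n : ℤ) * x * (t ^ (n : ℤ))⁻¹) * t⁻¹ := by group
      rwa [e]
    | pred n ih =>
      intro x hx
      have := hc2 _ (ih x hx)
      have e : t ^ (-(n : ℤ) - 1) * x * (t ^ (-(n : ℤ) - 1))⁻¹ =
        t⁻¹ * (t ^ (-(n : ℤ)) * x * (t ^ (-(n : ℤ)))⁻¹) * t := by group
      rwa [e]
  -- the group generated by `t` and `NN`
  let S : Subgroup Γ :=
    { carrier := {g | g * (t ^ (τ g))⁻¹ ∈ NN t U M}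
      one_mem' := by
        have : τ 1 = 0 := by simp [τ]
        simp [this, one_mem]
      mul_mem' := by
        intro a b ha hb
        simp only [Set.mem_ofPred_eq] at ha hb ⊢
        have h1 := hc3 (τ a) _ hb
        have e : a * b * (t ^ (τ (a * b)))⁻¹ =
            (a * (t ^ (τ a))⁻¹) * (t ^ (τ a) * (b * (t ^ (τ b))⁻¹) * (t ^ (τ a))⁻¹) := by
          rw [hτmul, zpow_add, mul_inv_rev]
          simp only [mul_assoc, inv_mul_cancel_left]
        rw [e]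
        exact mul_mem ha h1
      inv_mem' := by
        intro a ha
        simp only [Set.mem_ofPred_eq] at ha ⊢
        have h1 := hc3 (-τ a) _ (inv_mem ha)
        have e : a⁻¹ * (t ^ (τ a⁻¹))⁻¹ = t ^ (-τ a) * (a * (t ^ (τ a))⁻¹)⁻¹ * (t ^ (-τ a))⁻¹ := by
          rw [hτinv]; group
        rw [e]
        exact h1 }
  have hS : ∀ g, g ∈ S := by
    have h1 : Subgroup.closure {g | L.ℓ g ≤ R} ≤ S := by
      rw [Subgroup.closure_le]
      intro g hg
      show g * (t ^ (τ g))⁻¹ ∈ NN t U M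
      have h2 : g * (t ^ (τ g))⁻¹ ∈ U := by
        refine ⟨by rw [hτmul, hτinv, hτz]; omega, ?_⟩
        have h3 := L.mul g (t ^ (τ g))⁻¹
        rw [L.inv] at h3
        have h4 := L.zpow_le t (τ g)
        have h5 := Nat.mul_le_mul_right (L.ℓ t) (hT g hg)
        have h6 : L.ℓ g ≤ R := hg
        omega
      have h3 := mem_NN (t := t) (M := M) (j := 0) (by omega) (by omega) h2
      simpa using h3
    rw [hR] at h1
    exact fun g => h1 trivial
  rw [CG_iff]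
  refine ⟨2 * (M * L.ℓ t) + B, ?_⟩
  intro g hg
  have h1 : g ∈ NN t U M := by
    have := hS g
    change g * (t ^ (τ g))⁻¹ ∈ NN t U M at this
    rwa [(hτker g).1 hg, zpow_zero, inv_one, mul_one] at this
  refine Subgroup.closure_mono ?_ h1
  rintro _ ⟨j, hj1, hj2, x, hx, rfl⟩
  refine ⟨(hτker _).2 (by rw [hτmul, hτmul, hτinv, hx.1]; omega), ?_⟩
  have h2 := L.mul (t ^ j * x) (t ^ j)⁻¹
  have h3 := L.mul (t ^ j) x
  have h4 := L.zpow_le t j
  rw [L.inv] at h2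
  have h5 : j.natAbs * L.ℓ t ≤ M * L.ℓ t := Nat.mul_le_mul_right _ (by omega)
  have h6 := hx.2
  omega

end Len

end Vale.Agent.P151.GB
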