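import Vale.Agent.P151.GB.Base
import Vale.Agent.P151.H854.Kron

/-!
P151, part (B), piece B3b: in weak polynomial growth an automorphism of a coarsely connected
subgroup with a nonzero homomorphism to `ℤ` has a power fixing a nonzero homomorphism to `ℤ`.
-/

set_option autoImplicit false

universe u

open Filter Topology Matrix

namespace Vale.Agent.P151.GB

/-! ### Numerical lemmas -/

theorem eventually_pow_lt (D C : ℕ) (hC : 0 < C) : ∀ᶠ R : ℕ in atTop, R ^ D < 2 ^ (R / C) := by
  have hC' : (0 : ℝ) < C := by exact_mod_cast hC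
  set r : ℝ := (2 : ℝ) ^ ((1 : ℝ) / C) with hr
  have hr1 : 1 < r := Real.one_lt_rpow one_lt_two (by positivity)
  have h := isLittleO_pow_const_const_pow_of_one_lt (R := ℝ) D hr1
  have h2 := h.bound (c := 1 / 4) (by norm_num)
  filter_upwards [h2] with R hR
  rw [Real.norm_of_nonneg (by positivity), Real.norm_of_nonneg (by positivity)] at hR
  have h3 : r ^ R ≤ 2 * 2 ^ (R / C) := by
    have e1 : r ^ R = (2 : ℝ) ^ ((R : ℝ) / C) := by
      rw [hr, ← Real.rpow_natCast, ← Real.rpow_mul (by norm_num)]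
      congr 1; ring
    have e2 : (2 : ℝ) * 2 ^ (R / C) = (2 : ℝ) ^ (((R / C : ℕ) : ℝ) + 1) := by
      rw [Real.rpow_add (by norm_num), Real.rpow_natCast, Real.rpow_one]; ring
    rw [e1, e2]
    apply Real.rpow_le_rpow_of_exponent_le (by norm_num)
    rw [div_le_iff₀ hC']
    have h4 : R < (R / C + 1) * C := by
      have := Nat.lt_div_mul_add (a := R) hC
      nlinarith
    exact_mod_cast h4.le
  have h5 : (0 : ℝ) < 2 ^ (R / C) := by positivity
  have h6 : ((R ^ D : ℕ) : ℝ) < ((2 ^ (R / C) : ℕ) : ℝ) := by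
    push_cast
    linarith
  exact_mod_cast h6

/-- The values of the words. -/
noncomputable def pval (μ : ℂ) : List Bool → ℂ
  | [] => 0
  | b :: l => (if b then 1 else 0) + μ * pval μ l

theorem pval_sep {μ : ℂ} (hμ : 2 ≤ ‖μ‖) : ∀ l l' : List Bool, l.length = l'.length → l ≠ l' →
    1 ≤ ‖pval μ l - pval μ l'‖
  | [], [], _, h => absurd rfl h
  | [], _ :: _, h, _ => by simp at h
  | _ :: _, [], h, _ => by simp at h
  | b :: l, b' :: l', h, hne => by
    by_cases hl : l = l'
    · subst hl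
      have hb : b ≠ b' := fun hb => hne (by rw [hb])
      simp only [pval]
      cases b <;> cases b' <;> simp at hb ⊢
    · have h1 := pval_sep hμ l l' (by simpa using h) hl
      simp only [pval]
      have e : (if b then (1 : ℂ) else 0) + μ * pval μ l - ((if b' then 1 else 0) + μ * pval μ l') =
          μ * (pval μ l - pval μ l') - ((if b' then 1 else 0) - (if b then 1 else 0)) := by ring
      rw [e]
      have h2 : ‖μ * (pval μ l - pval μ l')‖ ≥ 2 := by
        rw [norm_mul]; nlinarith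
      have h3 : ‖((if b' then (1 : ℂ) else 0) - (if b then 1 else 0))‖ ≤ 1 := by
        cases b <;> cases b' <;> simp
      have h4 := norm_sub_norm_le (μ * (pval μ l - pval μ l'))
        ((if b' then (1 : ℂ) else 0) - (if b then 1 else 0))
      linarith

namespace Len

variable {Γ : Type u} [Group Γ] {L : Len Γ}

section words

variable {N : Subgroup Γ} (c : N → N) (x : N)

/-- The words. -/
def word : List Bool → N
  | [] => 1
  | b :: l => (if b then x else 1) * c (word l)

end words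

/-- **No exponential eigenvalue.** -/
theorem norm_le_one {D : ℕ} (hL : L.Proper) (hW : L.WG D) {N : Subgroup Γ} {c : N →* N} {B : ℕ}
    (hc : ∀ g : N, L.ℓ (c g) ≤ L.ℓ g + B) {φ : N → ℂ} (hφ : ∀ g h, φ (g * h) = φ g + φ h)
    (hφK : ∀ g : N, L.ℓ g = 0 → φ g = 0) {μ : ℂ} (hμ : ∀ g, φ (c g) = μ * φ g) {x : N}
    (hx : φ x ≠ 0) : ‖μ‖ ≤ 1 := by
  by_contra hcon
  push Not at hcon
  obtain ⟨j, hj⟩ := pow_unbounded_of_one_lt 2 hcon
  -- the iterate
  have hcj : ∀ (i : ℕ) (g : N), L.ℓ (c^[i] g) ≤ L.ℓ g + i * B := by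
    intro i
    induction i with
    | zero => intro g; simp
    | succ i ih =>
      intro g
      rw [Function.iterate_succ_apply']
      have h1 := hc (c^[i] g)
      have h2 := ih g
      have : (i + 1) * B = i * B + B := by ring
      omega
  have hφj : ∀ (i : ℕ) (g : N), φ (c^[i] g) = μ ^ i * φ g := by
    intro i
    induction i with
    | zero => intro g; simp
    | succ i ih => intro g; rw [Function.iterate_succ_apply', hμ, ih, pow_succ]; ring
  have hφ1 : φ 1 = 0 := by
    have := hφ 1 1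
    rw [mul_one] at this
    exact left_eq_add.1 this
  have hφi : ∀ g, φ g⁻¹ = - φ g := by
    intro g
    have := hφ g⁻¹ g
    rw [inv_mul_cancel, hφ1] at this
    exact eq_neg_of_add_eq_zero_left this.symm
  set u : List Bool → N := word (fun g => c^[j] g) x with hu
  have hval : ∀ l, φ (u l) = φ x * pval (μ ^ j) l := by
    intro l
    induction l with
    | nil => simp [hu, word, pval, hφ1]
    | cons b l ih =>
      have : u (b :: l) = (if b then x else 1) * c^[j] (u l) := rfl
      rw [this, hφ, hφj, ih, pval]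
      cases b
      · simp [hφ1]; ring
      · simp; ring
  set C : ℕ := L.ℓ x + j * B + 1 with hC
  have hlen : ∀ l, L.ℓ (u l) ≤ l.length * C := by
    intro l
    induction l with
    | nil => simp [hu, word, L.one]
    | cons b l ih =>
      have e : u (b :: l) = (if b then x else 1) * c^[j] (u l) := rfl
      have h1 : L.ℓ ((if b then x else 1 : N) : Γ) ≤ L.ℓ x := by
        cases b
        · simp [L.one]
        · simp
      have h2 := L.mul ((if b then x else 1 : N) : Γ) ((c^[j] (u l) : N) : Γ)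
      have h3 := hcj j (u l)
      rw [e, List.length_cons, Subgroup.coe_mul]
      have : (l.length + 1) * C = l.length * C + C := by ring
      omega
  have hμj : 2 ≤ ‖μ ^ j‖ := by rw [norm_pow]; exact hj.le
  -- the words of length `n` give distinct cosets
  have hcard : ∀ n : ℕ, 2 ^ n ≤ (L.ball (n * C)).ncard := by
    intro n
    let f : (Fin n → Bool) → Γ ⧸ L.K := fun v => ((u (List.ofFn v) : N) : Γ)
    have hf : Function.Injective f := by
      intro v v' h
      by_contra hne
      have h1 : ((u (List.ofFn v) : N) : Γ)⁻¹ * ((u (List.ofFn v') : N) : Γ) ∈ L.K :=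
        QuotientGroup.eq.1 h
      have h2 : φ ((u (List.ofFn v))⁻¹ * u (List.ofFn v')) = 0 := hφK _ h1
      rw [hφ, hφi, hval, hval] at h2
      have h3 : φ x * (pval (μ ^ j) (List.ofFn v') - pval (μ ^ j) (List.ofFn v)) = 0 := by
        linear_combination h2
      have h4 := (mul_eq_zero.1 h3).resolve_left hx
      have h5 := pval_sep hμj (List.ofFn v') (List.ofFn v) (by simp)
        (fun h => hne (List.ofFn_injective h).symm)
      rw [h4, norm_zero] at h5
      norm_num at h5
    have hsub : Set.range f ⊆ L.ball (n * C) := by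
      rintro _ ⟨v, rfl⟩
      refine L.mem_ball.2 ?_
      have := hlen (List.ofFn v)
      rwa [List.length_ofFn] at this
    calc 2 ^ n = (Set.range f).ncard := by
          rw [← Set.image_univ, Set.ncard_image_of_injective _ hf, Set.ncard_univ]
          simp
      _ ≤ (L.ball (n * C)).ncard := Set.ncard_le_ncard hsub (hL _)
  have hCpos : 0 < C := by omega
  obtain ⟨R, hR1, hR2⟩ := (hW.and_eventually (eventually_pow_lt D C hCpos)).exists
  have h7 : (L.ball (R / C * C)).ncard ≤ (L.ball R).ncard := by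
    refine Set.ncard_le_ncard ?_ (hL R)
    rintro _ ⟨g, hg, rfl⟩
    exact ⟨g, le_trans hg (Nat.div_mul_le_self R C), rfl⟩
  have h8 := hcard (R / C)
  omega

section hom

variable (L) in
/-- Homomorphisms `N → ℤ` killing the elements of length `0`. -/
def KHom (N : Subgroup Γ) : Type u :=
  {ψ : N →* Multiplicative ℤ // ∀ g : N, L.ℓ g = 0 → ψ g = 1}

variable {N : Subgroup Γ}

/-- Evaluation. -/
def ev (x : N) : KHom L N → ℤ := fun ψ => (ψ.1 x).toAdd

theorem ev_mul (x y : N) : (ev (x * y) : KHom L N → ℤ) = ev x + ev y := by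
  funext ψ; simp [ev]

/-- Evaluation as a homomorphism. -/
def evHom (L : Len Γ) (N : Subgroup Γ) : Additive N →+ (KHom L N → ℤ) :=
  AddMonoidHom.mk' (fun x => ev x.toMul) (fun x y => ev_mul _ _)

/-- The image of the evaluation. -/
def EE (L : Len Γ) (N : Subgroup Γ) : Submodule ℤ (KHom L N → ℤ) :=
  AddSubgroup.toIntSubmodule (evHom L N).range

theorem mem_EE {e : KHom L N → ℤ} : e ∈ EE L N ↔ ∃ x : N, ev x = e := by
  constructor
  · rintro ⟨x, hx⟩; exact ⟨x.toMul, hx⟩
  · rintro ⟨x, hx⟩; exact ⟨Additive.ofMul x, hx⟩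

theorem ev_mem (x : N) : (ev x : KHom L N → ℤ) ∈ EE L N := mem_EE.2 ⟨x, rfl⟩

theorem ev_one : (ev (1 : N) : KHom L N → ℤ) = 0 := by
  funext ψ; simp [ev]

theorem ev_inv (x : N) : (ev x⁻¹ : KHom L N → ℤ) = - ev x := by
  funext ψ; simp [ev]

theorem EE_finite (hL : L.Proper) (hCG : (L.restrict N).CG) : Module.Finite ℤ (EE L N) := by
  obtain ⟨R, hR⟩ := hCG
  -- the image of the generators is finite
  have hfin : ((fun g : N => (ev g : KHom L N → ℤ)) '' {g | (L.restrict N).ℓ g ≤ R}).Finite := by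
    let F : N ⧸ (L.restrict N).K → (KHom L N → ℤ) :=
      Quotient.lift (fun g : N => (ev g : KHom L N → ℤ)) (fun a b hab => by
        have h1 : a⁻¹ * b ∈ (L.restrict N).K := QuotientGroup.leftRel_apply.1 hab
        funext ψ
        have h2 : ψ.1 (a⁻¹ * b) = 1 := ψ.2 _ h1
        rw [map_mul, map_inv, inv_mul_eq_one] at h2
        simp [ev, h2])
    have h1 : ((fun g : N => (ev g : KHom L N → ℤ)) '' {g | (L.restrict N).ℓ g ≤ R}) ⊆
        F '' ((L.restrict N).ball R) := by
      rintro _ ⟨g, hg, rfl⟩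
      exact ⟨(g : N ⧸ (L.restrict N).K), ⟨g, hg, rfl⟩, rfl⟩
    exact ((hL.restrict N R).image F).subset h1
  have hspan : EE L N = Submodule.span ℤ
      ((fun g : N => (ev g : KHom L N → ℤ)) '' {g | (L.restrict N).ℓ g ≤ R}) := by
    apply le_antisymm
    · intro e he
      obtain ⟨x, rfl⟩ := mem_EE.1 he
      have hx : x ∈ Subgroup.closure {g : N | (L.restrict N).ℓ g ≤ R} := by rw [hR]; trivial
      induction hx using Subgroup.closure_induction with
      | mem x hx => exact Submodule.subset_span ⟨x, hx, rfl⟩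
      | one => rw [ev_one]; exact Submodule.zero_mem _
      | mul x y _ _ hx hy =>
        rw [ev_mul]; exact Submodule.add_mem _ (hx (ev_mem x)) (hy (ev_mem y))
      | inv x _ hx => rw [ev_inv]; exact Submodule.neg_mem _ (hx (ev_mem x))
    · rw [Submodule.span_le]
      rintro _ ⟨g, _, rfl⟩
      exact ev_mem g
  rw [Module.Finite.iff_fg, hspan]
  exact Submodule.fg_span hfin

/-- conjugation by `t` -/
def conjN (t : Γ) (hN : ∀ g, g ∈ N ↔ t * g * t⁻¹ ∈ N) : N →* N where
  toFun g := ⟨t * g * t⁻¹, (hN g).1 g.2⟩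
  map_one' := by ext; simp
  map_mul' a b := by ext; simp

theorem conjN_coe (t : Γ) (hN : ∀ g, g ∈ N ↔ t * g * t⁻¹ ∈ N) (g : N) :
    ((conjN t hN g : N) : Γ) = t * g * t⁻¹ := rfl

theorem conjN_kills (hL : L.Proper) (t : Γ) (hN : ∀ g, g ∈ N ↔ t * g * t⁻¹ ∈ N)
    (ψ : KHom L N) : ∀ g : N, L.ℓ g = 0 → (ψ.1.comp (conjN t hN)) g = 1 := by
  intro g hg
  rw [MonoidHom.comp_apply]
  refine kills_conj hL N (fun a n hn ha => ?_) ψ.1 ψ.2 _ t ?_
  · have h1 : n • a.toAdd = 0 := by
      rw [← toAdd_pow, ha]; rfl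
    have h2 : a.toAdd = 0 := by
      rcases smul_eq_zero.1 h1 with h | h
      · omega
      · exact h
    exact h2
  · rw [conjN_coe]
    have : t⁻¹ * (t * (g : Γ) * t⁻¹) * t = g := by group
    rw [this]; exact hg

/-- The action on the homomorphisms. -/
def actHom (hL : L.Proper) (t : Γ) (hN : ∀ g, g ∈ N ↔ t * g * t⁻¹ ∈ N) (ψ : KHom L N) :
    KHom L N := ⟨ψ.1.comp (conjN t hN), conjN_kills hL t hN ψ⟩

theorem hN_inv {t : Γ} (hN : ∀ g, g ∈ N ↔ t * g * t⁻¹ ∈ N) :
    ∀ g, g ∈ N ↔ t⁻¹ * g * t⁻¹⁻¹ ∈ N := by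
  intro g
  rw [hN (t⁻¹ * g * t⁻¹⁻¹)]
  have : t * (t⁻¹ * g * t⁻¹⁻¹) * t⁻¹ = g := by group
  rw [this]

theorem actHom_surjective (hL : L.Proper) (t : Γ) (hN : ∀ g, g ∈ N ↔ t * g * t⁻¹ ∈ N) :
    Function.Surjective (actHom hL t hN) := by
  intro ψ
  refine ⟨actHom hL t⁻¹ (hN_inv hN) ψ, ?_⟩
  apply Subtype.ext
  ext g
  simp only [actHom, MonoidHom.comp_apply]
  congr 2
  ext
  rw [conjN_coe, conjN_coe]
  group

/-- The action on the functions. -/
def Φ (hL : L.Proper) (t : Γ) (hN : ∀ g, g ∈ N ↔ t * g * t⁻¹ ∈ N) :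
    (KHom L N → ℤ) →ₗ[ℤ] (KHom L N → ℤ) :=
  LinearMap.funLeft ℤ ℤ (actHom hL t hN)

theorem Φ_ev (hL : L.Proper) (t : Γ) (hN : ∀ g, g ∈ N ↔ t * g * t⁻¹ ∈ N) (x : N) :
    Φ hL t hN (ev x) = ev (conjN t hN x) := rfl

theorem Φ_injective (hL : L.Proper) (t : Γ) (hN : ∀ g, g ∈ N ↔ t * g * t⁻¹ ∈ N) :
    Function.Injective (Φ hL t hN) :=
  LinearMap.funLeft_injective_of_surjective _ _ _ (actHom_surjective hL t hN)

theorem Φ_mem (hL : L.Proper) (t : Γ) (hN : ∀ g, g ∈ N ↔ t * g * t⁻¹ ∈ N) :
    ∀ e ∈ EE L N, Φ hL t hN e ∈ EE L N := by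
  intro e he
  obtain ⟨x, rfl⟩ := mem_EE.1 he
  rw [Φ_ev]
  exact ev_mem _

end hom

/-- **B3b.** In weak polynomial growth, if `t` normalises the coarsely connected subgroup `N`,
which has a nonzero homomorphism to `ℤ` killing the elements of length `0`, then some power of `t`
fixes such a homomorphism. -/
theorem exists_fixed_hom {D : ℕ} (hL : L.Proper) (hW : L.WG D) (t : Γ) (N : Subgroup Γ)
    (hN : ∀ g, g ∈ N ↔ t * g * t⁻¹ ∈ N) (hCG : (L.restrict N).CG)
    (χ : N →* Multiplicative ℤ) (hχ : χ ≠ 1) (hχK : ∀ g : N, L.ℓ g = 0 → χ g = 1) :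
    ∃ m : ℕ, 0 < m ∧ ∃ ψ : N →* Multiplicative ℤ, ψ ≠ 1 ∧ (∀ g : N, L.ℓ g = 0 → ψ g = 1) ∧
      ∀ g h : N, (h : Γ) = t ^ m * g * (t ^ m)⁻¹ → ψ h = ψ g := by
  classical
  haveI := EE_finite (N := N) hL hCG
  haveI : Module.IsTorsionFree ℤ (EE L N) := inferInstance
  haveI : Module.Free ℤ (EE L N) := Module.free_of_finite_type_torsion_free'
  set k := Module.finrank ℤ (EE L N) with hk
  let b : Module.Basis (Fin k) ℤ (EE L N) := Module.finBasis ℤ (EE L N)
  let T : EE L N →ₗ[ℤ] EE L N := (Φ hL t hN).restrict (Φ_mem hL t hN)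
  let A : Matrix (Fin k) (Fin k) ℤ := LinearMap.toMatrix b b T
  let co : N → (Fin k → ℤ) := fun x => b.repr ⟨ev x, ev_mem x⟩
  have hcomul : ∀ x y, co (x * y) = co x + co y := by
    intro x y
    have : (⟨ev (x * y), ev_mem (x * y)⟩ : EE L N) = ⟨ev x, ev_mem x⟩ + ⟨ev y, ev_mem y⟩ :=
      Subtype.ext (ev_mul x y)
    simp only [co, this, map_add, Finsupp.coe_add]
  have hcoc : ∀ x, co (conjN t hN x) = A *ᵥ co x := by
    intro x
    have h1 := LinearMap.toMatrix_mulVec_repr b b T ⟨ev x, ev_mem x⟩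
    have h2 : T ⟨ev x, ev_mem x⟩ = ⟨ev (conjN t hN x), ev_mem _⟩ := rfl
    rw [h2] at h1
    exact h1.symm
  have hcoK : ∀ x : N, L.ℓ x = 0 → co x = 0 := by
    intro x hx
    have : (⟨ev x, ev_mem x⟩ : EE L N) = 0 := by
      apply Subtype.ext
      funext ψ
      have := ψ.2 x hx
      simp [ev, this]
    simp only [co, this, map_zero, Finsupp.coe_zero]
  have hbas : ∀ i : Fin k, ∃ x : N, co x = Pi.single i 1 := by
    intro i
    obtain ⟨x, hx⟩ := mem_EE.1 (b i).2
    refine ⟨x, ?_⟩
    have : (⟨ev x, ev_mem x⟩ : EE L N) = b i := Subtype.ext hx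
    simp only [co, this, Module.Basis.repr_self]
    funext j
    rw [Finsupp.single_apply, Pi.single_apply]
    simp [eq_comm]
  have hkpos : 0 < k := by
    by_contra h0
    have h0 : k = 0 := by omega
    apply hχ
    ext x
    have h1 : (⟨ev x, ev_mem x⟩ : EE L N) = 0 := by
      haveI : IsEmpty (Fin k) := by rw [h0]; infer_instance
      haveI : Subsingleton (EE L N) := b.repr.toEquiv.subsingleton
      exact Subsingleton.elim _ _
    have h2 := congrFun (congrArg Subtype.val h1) ⟨χ, hχK⟩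
    have h3 : (χ x).toAdd = 0 := h2
    rw [MonoidHom.one_apply]
    exact h3
  have hdet : A.det ≠ 0 := by
    intro h
    obtain ⟨v, hv, hv2⟩ := Matrix.exists_mulVec_eq_zero_iff.2 h
    set e : EE L N := b.equivFun.symm v with he
    have h1 : b.repr e = v := by
      have := b.equivFun.apply_symm_apply v
      rw [← he] at this
      exact this
    have h2 := LinearMap.toMatrix_mulVec_repr b b T e
    rw [h1] at h2
    have h3 : b.repr (T e) = 0 := by
      apply DFunLike.coe_injective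
      rw [← h2]
      exact hv2
    have h4 : T e = 0 := b.repr.map_eq_zero_iff.1 h3
    have h5 : Φ hL t hN e = 0 := congrArg Subtype.val h4
    have h6 : (e : KHom L N → ℤ) = 0 := Φ_injective hL t hN (by rw [h5, map_zero])
    have h7 : e = 0 := Subtype.ext h6
    apply hv
    rw [← h1, h7]; simp
  have hlen : ∀ g : N, L.ℓ (conjN t hN g) ≤ L.ℓ g + 2 * L.ℓ t := by
    intro g
    rw [conjN_coe]
    have h1 := L.mul (t * g) t⁻¹
    have h2 := L.mul t g
    rw [L.inv] at h1
    omega
  obtain ⟨m, hm, w, hw, hw2⟩ := H854.exists_pow_fixed hkpos A hdet (by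
    intro μ v hv hv2
    obtain ⟨i, hi⟩ := Function.ne_iff.1 hv
    obtain ⟨x, hx⟩ := hbas i
    let φ : N → ℂ := fun g => v ⬝ᵥ (fun j => ((co g j : ℤ) : ℂ))
    refine norm_le_one (φ := φ) (x := x) hL hW hlen ?_ ?_ ?_ ?_
    · intro g h
      simp only [φ, hcomul, Pi.add_apply, Int.cast_add]
      exact dotProduct_add _ _ _
    · intro g hg
      simp only [φ, hcoK g hg, Pi.zero_apply, Int.cast_zero]
      exact dotProduct_zero _
    · intro g
      have h1 : (fun j => ((co (conjN t hN g) j : ℤ) : ℂ)) =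
          (A.map (Int.castRingHom ℂ)) *ᵥ (fun j => ((co g j : ℤ) : ℂ)) := by
        funext j
        rw [hcoc]
        simp [Matrix.mulVec, dotProduct]
      simp only [φ]
      rw [h1, Matrix.dotProduct_mulVec, hv2, smul_dotProduct, smul_eq_mul]
    · simp only [φ, hx]
      have : (fun j => (((Pi.single i 1 : Fin k → ℤ) j : ℤ) : ℂ)) = Pi.single i 1 := by
        funext j
        by_cases hj : j = i
        · subst hj; simp
        · simp [hj]
      rw [this, dotProduct_single, mul_one]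
      exact hi)
  refine ⟨m, hm, ?_⟩
  have hadd : ∀ g h : N, w ⬝ᵥ co (g * h) = w ⬝ᵥ co g + w ⬝ᵥ co h := by
    intro g h; rw [hcomul, dotProduct_add]
  let ψ : N →* Multiplicative ℤ :=
    MonoidHom.mk' (fun g => Multiplicative.ofAdd (w ⬝ᵥ co g)) (fun g h => by
      rw [hadd, ofAdd_add])
  refine ⟨ψ, ?_, ?_, ?_⟩
  · obtain ⟨i, hi⟩ := Function.ne_iff.1 hw
    obtain ⟨x, hx⟩ := hbas i
    intro h
    have h1 : ψ x = 1 := by rw [h]; rfl
    have h2 : w ⬝ᵥ co x = 0 := h1
    rw [hx, dotProduct_single, mul_one] at h2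
    exact hi h2
  · intro g hg
    have : w ⬝ᵥ co g = 0 := by rw [hcoK g hg, dotProduct_zero]
    exact this
  · have hit : ∀ (n : ℕ) (g : N), co ((conjN t hN)^[n] g) = (A ^ n) *ᵥ co g := by
      intro n
      induction n with
      | zero => intro g; simp
      | succ n ih =>
        intro g
        rw [Function.iterate_succ_apply', hcoc, ih, Matrix.mulVec_mulVec, ← pow_succ']
    have hcoe : ∀ (n : ℕ) (g : N), (((conjN t hN)^[n] g : N) : Γ) = t ^ n * g * (t ^ n)⁻¹ := by
      intro n
      induction n with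
      | zero => intro g; simp
      | succ n ih =>
        intro g
        rw [Function.iterate_succ_apply', conjN_coe, ih, pow_succ']
        group
    intro g h hgh
    have e : h = (conjN t hN)^[m] g := Subtype.ext (by rw [hcoe, hgh])
    have h1 : w ⬝ᵥ co h = w ⬝ᵥ co g := by
      rw [e, hit, Matrix.dotProduct_mulVec, hw2]
    exact h1

end Len

end Vale.Agent.P151.GB
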