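import Vale.Agent.P151.GB.Base

/-!
# P151, part (B): coarse connectedness of finite index subgroups and of kernels (Milnor's lemma)
-/

universe u v

open Filter Topology

namespace Vale.Agent.P151.GB

namespace Len

variable {Γ : Type u} [Group Γ] {L : Len Γ}

theorem restrict_cg_iff (H : Subgroup Γ) :
    (L.restrict H).CG ↔ ∃ R, Subgroup.closure {g | g ∈ H ∧ L.ℓ g ≤ R} = H := by
  have key : ∀ R, (Subgroup.closure {g : H | (L.restrict H).ℓ g ≤ R}).map H.subtype =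
      Subgroup.closure {g | g ∈ H ∧ L.ℓ g ≤ R} := by
    intro R
    rw [MonoidHom.map_closure]
    congr 1
    ext g
    constructor
    · rintro ⟨h, hh, rfl⟩
      exact ⟨h.2, hh⟩
    · rintro ⟨h1, h2⟩
      exact ⟨⟨g, h1⟩, h2, rfl⟩
  constructor
  · rintro ⟨R, hR⟩
    refine ⟨R, ?_⟩
    rw [← key, hR, ← MonoidHom.range_eq_map, Subgroup.range_subtype]
  · rintro ⟨R, hR⟩
    refine ⟨R, ?_⟩
    have h := (key R).trans hR
    refine Subgroup.map_injective H.subtype_injective ?_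
    rw [h, ← MonoidHom.range_eq_map, Subgroup.range_subtype]

/-- A finite index subgroup is coarsely connected. -/
theorem CG.restrict (hc : L.CG) (H : Subgroup Γ) [hH : H.FiniteIndex] : (L.restrict H).CG := by
  classical
  obtain ⟨R, hR⟩ := hc
  obtain ⟨T, hT, hT1⟩ := H.exists_isComplement_right 1
  have hfin : T.Finite := hT.finite_right_iff.2 hH
  obtain ⟨M, hM⟩ : ∃ M, ∀ t ∈ T, L.ℓ t ≤ M := by
    obtain ⟨M, hM⟩ := (hfin.image L.ℓ).bddAbove
    exact ⟨M, fun t ht => hM ⟨t, ht, rfl⟩⟩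
  rw [restrict_cg_iff]
  refine ⟨M + R + M, le_antisymm ((Subgroup.closure_le _).2 fun g hg => hg.1) ?_⟩
  have h := Subgroup.closure_mul_image_eq hT hT1 hR
  nth_rw 1 [← h]
  refine Subgroup.closure_mono ?_
  rintro _ ⟨g, ⟨a, ha, b, hb, rfl⟩, rfl⟩
  have hmem : (a * b) * ((hT.toRightFun (a * b) : Γ))⁻¹ ∈ H := hT.mul_inv_toRightFun_mem (a * b)
  refine ⟨hmem, ?_⟩
  have h1 := L.mul (a * b) ((hT.toRightFun (a * b) : Γ))⁻¹
  rw [L.inv] at h1
  have h2 := L.mul a b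
  have h3 := hM a ha
  have h4 := hM _ (hT.toRightFun (a * b)).2
  have h5 : L.ℓ b ≤ R := hb
  show L.ℓ ((a * b) * ((hT.toRightFun (a * b) : Γ))⁻¹) ≤ _
  omega

/-- Weak polynomial growth excludes `2 ^ m ≤ |B_{C m}|` for all `m`. -/
theorem not_exp {D : ℕ} (hp : L.Proper) (hw : L.WG D) (C : ℕ)
    (h : ∀ m : ℕ, 2 ^ m ≤ (L.ball (C * m)).ncard) : False := by
  have hC : 0 < C + 1 := Nat.succ_pos _
  have h1 : Tendsto (fun n : ℕ => ((n : ℝ) ^ D) / (2 : ℝ) ^ (n : ℕ)) atTop (𝓝 0) := by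
    have := tendsto_pow_const_div_const_pow_of_one_lt D (one_lt_two (α := ℝ))
    exact this
  -- for large `m`, `((C+1) (m+1)) ^ D < 2 ^ m`
  have h2 : ∀ᶠ m : ℕ in atTop, ((C + 1) * (m + 1)) ^ D < 2 ^ m := by
    have h3 : Tendsto (fun m : ℕ => (2 * (C + 1) : ℝ) ^ D * (((m + 1 : ℕ) : ℝ) ^ D /
        (2 : ℝ) ^ (m + 1 : ℕ))) atTop (𝓝 ((2 * (C + 1) : ℝ) ^ D * 0)) :=
      (h1.comp (tendsto_add_atTop_nat 1)).const_mul _
    rw [mul_zero] at h3
    have h4 := h3.eventually (gt_mem_nhds (show (0 : ℝ) < 1 / 2 by norm_num))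
    filter_upwards [h4] with m hm
    have h5 : (((C + 1) * (m + 1)) ^ D : ℝ) < 2 ^ m := by
      have hpos : (0 : ℝ) < 2 ^ (m + 1) := by positivity
      have h6 : (2 * (C + 1) : ℝ) ^ D * ((m + 1 : ℕ) : ℝ) ^ D < 1 / 2 * 2 ^ (m + 1) := by
        rw [← mul_div_assoc, div_lt_iff₀ hpos] at hm
        exact hm
      have h7 : (1 / 2 : ℝ) * 2 ^ (m + 1) = 2 ^ m := by rw [pow_succ]; ring
      rw [h7] at h6
      refine lt_of_le_of_lt ?_ h6
      rw [mul_pow]
      push_cast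
      refine mul_le_mul_of_nonneg_right ?_ (by positivity)
      refine pow_le_pow_left₀ (by positivity) ?_ D
      have : (0 : ℝ) ≤ C := Nat.cast_nonneg C
      linarith
    exact_mod_cast h5
  obtain ⟨m0, hm0⟩ := eventually_atTop.1 h2
  obtain ⟨n, hn1, hn2⟩ := (hw.and_eventually (eventually_ge_atTop ((C + 1) * (m0 + 1)))).exists
  obtain ⟨m, hm⟩ : ∃ m, m = n / (C + 1) := ⟨_, rfl⟩
  have h3 : (C + 1) * m ≤ n := by rw [hm]; exact Nat.mul_div_le n (C + 1)
  have h4 : n < (C + 1) * (m + 1) := by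
    rw [hm]
    exact Nat.lt_mul_div_succ n hC
  have h5 : m0 ≤ m := by
    by_contra hcon
    have : (C + 1) * (m + 1) ≤ (C + 1) * (m0 + 1) := Nat.mul_le_mul_left _ (by omega)
    omega
  have h6 := hm0 m h5
  have h7 := h m
  have h8 : (L.ball (C * m)).ncard ≤ (L.ball n).ncard := by
    refine Set.ncard_le_ncard ?_ (hp n)
    rintro _ ⟨g, hg, rfl⟩
    refine ⟨g, ?_, rfl⟩
    have h9 : L.ℓ g ≤ C * m := hg
    have h10 : C * m ≤ (C + 1) * m := Nat.mul_le_mul_right _ (Nat.le_succ C)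
    show L.ℓ g ≤ n
    omega
  have h9 : n ^ D ≤ ((C + 1) * (m + 1)) ^ D := Nat.pow_le_pow_left h4.le D
  omega

/-- words for Milnor's lemma -/
def mw (t : Γ) (u : ℕ → Γ) (ε : ℕ → Bool) : ℕ → Γ
  | 0 => 1
  | m + 1 => (if ε m then t ^ (m + 1) * u m * (t ^ (m + 1))⁻¹ else 1) * mw t u ε m

/-- the groups generated by the conjugates -/
def mP (t : Γ) (U : Set Γ) (j : ℕ) : Subgroup Γ :=
  Subgroup.closure {x | ∃ i ≤ j, ∃ u ∈ U, x = t ^ i * u * (t ^ i)⁻¹}

theorem mP_mono (t : Γ) (U : Set Γ) {i j : ℕ} (h : i ≤ j) : mP t U i ≤ mP t U j :=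
  Subgroup.closure_mono fun _ ⟨k, hk, u, hu, e⟩ => ⟨k, hk.trans h, u, hu, e⟩

theorem mem_mP {t : Γ} {U : Set Γ} {i j : ℕ} (h : i ≤ j) {u : Γ} (hu : u ∈ U) :
    t ^ i * u * (t ^ i)⁻¹ ∈ mP t U j :=
  Subgroup.subset_closure ⟨i, h, u, hu, rfl⟩

theorem mem_mP_zero {t : Γ} {U : Set Γ} {j : ℕ} {u : Γ} (hu : u ∈ U) : u ∈ mP t U j := by
  have := mem_mP (t := t) (Nat.zero_le j) hu
  simpa using this

theorem mw_mem {t : Γ} {U : Set Γ} {u : ℕ → Γ} (hu : ∀ j, u j ∈ U) (ε : ℕ → Bool) (m : ℕ) :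
    mw t u ε m ∈ mP t U m := by
  induction m with
  | zero => exact one_mem _
  | succ m ih =>
    rw [mw]
    refine mul_mem ?_ (mP_mono t U (Nat.le_succ m) ih)
    split_ifs
    · exact mem_mP le_rfl (hu m)
    · exact one_mem _

theorem mw_len {t : Γ} {u : ℕ → Γ} {R : ℕ} (hu : ∀ j, L.ℓ (u j) ≤ R) (ε : ℕ → Bool) (m : ℕ) :
    L.ℓ ((t ^ m)⁻¹ * mw t u ε m) ≤ (R + L.ℓ t) * m := by
  induction m with
  | zero => simp [mw, L.one]
  | succ m ih =>
    rw [mw]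
    have h1 : ∀ x : Γ, L.ℓ x ≤ R → L.ℓ ((t ^ (m + 1))⁻¹ *
        ((t ^ (m + 1) * x * (t ^ (m + 1))⁻¹) * mw t u ε m)) ≤ (R + L.ℓ t) * (m + 1) := by
      intro x hx
      have e : (t ^ (m + 1))⁻¹ * ((t ^ (m + 1) * x * (t ^ (m + 1))⁻¹) * mw t u ε m) =
          x * (t⁻¹ * ((t ^ m)⁻¹ * mw t u ε m)) := by
        rw [pow_succ]; group
      rw [e]
      have h2 := L.mul x (t⁻¹ * ((t ^ m)⁻¹ * mw t u ε m))
      have h3 := L.mul t⁻¹ ((t ^ m)⁻¹ * mw t u ε m)
      rw [L.inv] at h3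
      have h4 : (R + L.ℓ t) * (m + 1) = (R + L.ℓ t) * m + (R + L.ℓ t) := by ring
      omega
    split_ifs
    · exact h1 _ (hu m)
    · have h5 := h1 1 (by rw [L.one]; exact Nat.zero_le _)
      simpa using h5

theorem pow_len (t : Γ) (m : ℕ) : L.ℓ (t ^ m) ≤ L.ℓ t * m := by
  induction m with
  | zero => simp [L.one]
  | succ m ih =>
    have h := L.mul (t ^ m) t
    rw [← pow_succ] at h
    have h4 : L.ℓ t * (m + 1) = L.ℓ t * m + L.ℓ t := by ring
    omega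

theorem zpow_len (t : Γ) (m : ℤ) : L.ℓ (t ^ m) ≤ L.ℓ t * m.natAbs := by
  obtain ⟨n, rfl | rfl⟩ := m.eq_nat_or_neg
  · rw [zpow_natCast, Int.natAbs_natCast]
    exact pow_len t n
  · rw [zpow_neg, zpow_natCast, L.inv, Int.natAbs_neg, Int.natAbs_natCast]
    exact pow_len t n

/-- **Milnor's lemma**, with stabilisers. -/
theorem milnor {D : ℕ} (hp : L.Proper) (hw : L.WG D) (t : Γ) (U : Set Γ) (R : ℕ)
    (hU : ∀ u ∈ U, L.ℓ u ≤ R) (hK : ∀ g, L.ℓ g = 0 → g ∈ U) :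
    ∃ j, ∀ u ∈ U, t ^ (j + 1) * u * (t ^ (j + 1))⁻¹ ∈ mP t U j := by
  classical
  by_contra hcon
  push Not at hcon
  choose u hu hu' using hcon
  -- distinct words
  have key : ∀ m : ℕ, ∀ ε ε' : ℕ → Bool, ((mw t u ε m : Γ) : Γ ⧸ L.K) = (mw t u ε' m : Γ) →
      ∀ i < m, ε i = ε' i := by
    intro m
    induction m with
    | zero => intro ε ε' _ i hi; omega
    | succ m ih =>
      intro ε ε' h i hi
      have hsub : ∀ ε ε' : ℕ → Bool, ε m = true → ε' m = false →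
          ((mw t u ε (m + 1) : Γ) : Γ ⧸ L.K) ≠ (mw t u ε' (m + 1) : Γ) := by
        intro ε ε' h1 h2 h
        rw [mw, mw, h1, h2, if_pos rfl, if_neg Bool.false_ne_true, one_mul,
          QuotientGroup.eq] at h
        refine hu' m ?_
        have h3 : mw t u ε m ∈ mP t U m := mw_mem hu ε m
        have h4 : mw t u ε' m ∈ mP t U m := mw_mem hu ε' m
        have h5 : (t ^ (m + 1) * u m * (t ^ (m + 1))⁻¹ * mw t u ε m)⁻¹ * mw t u ε' m ∈
            mP t U m := mem_mP_zero (hK _ h)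
        have e : t ^ (m + 1) * u m * (t ^ (m + 1))⁻¹ = mw t u ε' m *
            ((t ^ (m + 1) * u m * (t ^ (m + 1))⁻¹ * mw t u ε m)⁻¹ * mw t u ε' m)⁻¹ *
            (mw t u ε m)⁻¹ := by group
        rw [e]
        exact mul_mem (mul_mem h4 (inv_mem h5)) (inv_mem h3)
      have hm : ε m = ε' m := by
        rcases Bool.eq_false_or_eq_true (ε m) with h1 | h1 <;>
          rcases Bool.eq_false_or_eq_true (ε' m) with h2 | h2
        · rw [h1, h2]
        · exact absurd h (hsub ε ε' h1 h2)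
        · exact absurd h.symm (hsub ε' ε h2 h1)
        · rw [h1, h2]
      rcases Nat.lt_succ_iff_lt_or_eq.1 hi with h1 | h1
      · refine ih ε ε' ?_ i h1
        rw [mw, mw, hm, QuotientGroup.eq] at h
        rw [QuotientGroup.eq]
        convert h using 1
        group
      · rw [h1]; exact hm
  -- counting
  refine not_exp hp hw (R + 2 * L.ℓ t) fun m => ?_
  let f : (Fin m → Bool) → Γ ⧸ L.K := fun ε =>
    ((mw t u (fun i => if h : i < m then ε ⟨i, h⟩ else false) m : Γ) : Γ ⧸ L.K)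
  have hf : Function.Injective f := by
    intro ε ε' h
    funext i
    have := key m _ _ h i i.2
    simpa using this
  have h1 : Set.range f ⊆ L.ball ((R + 2 * L.ℓ t) * m) := by
    rintro _ ⟨ε, rfl⟩
    rw [mem_ball]
    have h2 := mw_len (L := L) (t := t) (u := u) (fun j => hU _ (hu j))
      (fun i => if h : i < m then ε ⟨i, h⟩ else false) m
    have h3 := L.mul (t ^ m) ((t ^ m)⁻¹ * mw t u (fun i => if h : i < m then ε ⟨i, h⟩ else false) m)
    rw [mul_inv_cancel_left] at h3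
    have h4 := pow_len (L := L) t m
    have h5 : (R + 2 * L.ℓ t) * m = (R + L.ℓ t) * m + L.ℓ t * m := by ring
    omega
  have h2 := Set.ncard_le_ncard h1 (hp _)
  have h3 : (Set.range f).ncard = 2 ^ m := by
    rw [← Set.image_univ, Set.ncard_image_of_injective _ hf, Set.ncard_univ]
    simp
  omega

/-- all the conjugates by positive powers -/
theorem milnor_all {D : ℕ} (hp : L.Proper) (hw : L.WG D) (t : Γ) (U : Set Γ) (R : ℕ)
    (hU : ∀ u ∈ U, L.ℓ u ≤ R) (hK : ∀ g, L.ℓ g = 0 → g ∈ U) :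
    ∃ j, ∀ (i : ℕ), ∀ u ∈ U, t ^ i * u * (t ^ i)⁻¹ ∈ mP t U j := by
  obtain ⟨j, hj⟩ := milnor hp hw t U R hU hK
  refine ⟨j, fun i => ?_⟩
  have hconj : ∀ x ∈ mP t U j, t * x * t⁻¹ ∈ mP t U j := by
    intro x hx
    rw [mP] at hx
    induction hx using Subgroup.closure_induction with
    | mem x hx =>
      obtain ⟨k, hk, u, hu, rfl⟩ := hx
      have e : t * (t ^ k * u * (t ^ k)⁻¹) * t⁻¹ = t ^ (k + 1) * u * (t ^ (k + 1))⁻¹ := by
        rw [pow_succ']; group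
      rw [e]
      rcases Nat.lt_or_ge k j with h | h
      · exact mem_mP h hu
      · have : k = j := le_antisymm hk h
        rw [this]
        exact hj u hu
    | one => simp [one_mem]
    | mul x y _ _ hx hy =>
      have e : t * (x * y) * t⁻¹ = (t * x * t⁻¹) * (t * y * t⁻¹) := by group
      rw [e]
      exact mul_mem hx hy
    | inv x _ hx =>
      have e : t * x⁻¹ * t⁻¹ = (t * x * t⁻¹)⁻¹ := by group
      rw [e]
      exact inv_mem hx
  induction i with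
  | zero => intro u hu; simpa using mem_mP_zero hu
  | succ i ih =>
    intro u hu
    have h1 := hconj _ (ih u hu)
    have e : t * (t ^ i * u * (t ^ i)⁻¹) * t⁻¹ = t ^ (i + 1) * u * (t ^ (i + 1))⁻¹ := by
      rw [pow_succ']; group
    rwa [e] at h1

/-- **The kernel of a homomorphism onto `ℤ` is coarsely connected.** -/
theorem cg_ker {D : ℕ} (hp : L.Proper) (hw : L.WG D) (hc : L.CG) (χ : Γ →* Multiplicative ℤ)
    (hs : Function.Surjective χ) (hk : ∀ g, L.ℓ g = 0 → χ g = 1) : (L.restrict χ.ker).CG := by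
  classical
  obtain ⟨R, hR⟩ := hc
  obtain ⟨t, ht⟩ := hs (Multiplicative.ofAdd 1)
  have htz : ∀ k : ℤ, χ (t ^ k) = Multiplicative.ofAdd k := fun k => by
    rw [map_zpow, ht, ← ofAdd_zsmul, smul_eq_mul, mul_one]
  -- the exponent is bounded on the generators
  obtain ⟨M, hM⟩ : ∃ M : ℕ, ∀ g, L.ℓ g ≤ R → (Multiplicative.toAdd (χ g)).natAbs ≤ M := by
    let F : Γ ⧸ L.K → Multiplicative ℤ := Quotient.lift χ (by
      intro a b hab
      have h1 : a⁻¹ * b ∈ L.K := QuotientGroup.leftRel_apply.1 hab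
      have h2 := hk _ h1
      rw [map_mul, map_inv] at h2
      exact (inv_mul_eq_one.1 h2))
    obtain ⟨M, hM⟩ := ((hp R).image fun x => (Multiplicative.toAdd (F x)).natAbs).bddAbove
    exact ⟨M, fun g hg => hM ⟨(g : Γ ⧸ L.K), L.mem_ball.2 hg, rfl⟩⟩
  obtain ⟨R0, hR0⟩ : ∃ R0, R0 = R + L.ℓ t * M := ⟨_, rfl⟩
  obtain ⟨U, hU⟩ : ∃ U : Set Γ, U = {g | g ∈ χ.ker ∧ L.ℓ g ≤ R0} := ⟨_, rfl⟩
  have hU1 : ∀ u ∈ U, L.ℓ u ≤ R0 := fun u hu => by rw [hU] at hu; exact hu.2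
  have hU2 : ∀ g, L.ℓ g = 0 → g ∈ U := fun g hg => by
    rw [hU]; exact ⟨hk g hg, by rw [hg]; exact Nat.zero_le _⟩
  obtain ⟨j, hj⟩ := milnor_all hp hw t U R0 hU1 hU2
  obtain ⟨j', hj'⟩ := milnor_all hp hw t⁻¹ U R0 hU1 hU2
  obtain ⟨J, hJ⟩ : ∃ J, J = j + j' := ⟨_, rfl⟩
  obtain ⟨Q, hQ⟩ : ∃ Q : Subgroup Γ, Q = Subgroup.closure
      {g | g ∈ χ.ker ∧ L.ℓ g ≤ R0 + 2 * (L.ℓ t * J)} := ⟨_, rfl⟩
  have hgen : ∀ (k : ℤ), k.natAbs ≤ J → ∀ u ∈ U, t ^ k * u * (t ^ k)⁻¹ ∈ Q := by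
    intro k hk' u hu
    rw [hQ]
    refine Subgroup.subset_closure ⟨?_, ?_⟩
    · refine χ.normal_ker.conj_mem u ?_ _
      rw [hU] at hu
      exact hu.1
    · have h1 := L.mul (t ^ k * u) (t ^ k)⁻¹
      have h2 := L.mul (t ^ k) u
      rw [L.inv] at h1
      have h3 := zpow_len (L := L) t k
      have h4 := hU1 u hu
      have h5 : L.ℓ t * k.natAbs ≤ L.ℓ t * J := Nat.mul_le_mul_left _ hk'
      show L.ℓ (t ^ k * u * (t ^ k)⁻¹) ≤ _
      omega
  have hPQ : mP t U j ≤ Q := by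
    rw [mP, Subgroup.closure_le]
    rintro _ ⟨i, hi, u, hu, rfl⟩
    have := hgen i (by rw [Int.natAbs_natCast]; omega) u hu
    rwa [zpow_natCast] at this
  have hPQ' : mP t⁻¹ U j' ≤ Q := by
    rw [mP, Subgroup.closure_le]
    rintro _ ⟨i, hi, u, hu, rfl⟩
    have := hgen (-i) (by rw [Int.natAbs_neg, Int.natAbs_natCast]; omega) u hu
    rwa [zpow_neg, zpow_natCast, ← inv_pow] at this
  have hall : ∀ (k : ℤ), ∀ u ∈ U, t ^ k * u * (t ^ k)⁻¹ ∈ Q := by
    intro k u hu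
    obtain ⟨n, rfl | rfl⟩ := k.eq_nat_or_neg
    · rw [zpow_natCast]
      exact hPQ (hj n u hu)
    · rw [zpow_neg, zpow_natCast, ← inv_pow]
      exact hPQ' (hj' n u hu)
  have hUQ : ∀ u ∈ U, u ∈ Q := fun u hu => by
    have := hall 0 u hu
    simpa using this
  -- `Q` is also generated by the conjugates of `U`
  have hQk : Q ≤ χ.ker := by
    rw [hQ, Subgroup.closure_le]
    exact fun g hg => hg.1
  obtain ⟨P, hP⟩ : ∃ P : Subgroup Γ, P = Subgroup.closure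
      {x | ∃ k : ℤ, ∃ u ∈ U, x = t ^ k * u * (t ^ k)⁻¹} := ⟨_, rfl⟩
  have hPU : P ≤ Q := by
    rw [hP, Subgroup.closure_le]
    rintro _ ⟨k, u, hu, rfl⟩
    exact hall k u hu
  have hPconj : ∀ (k : ℤ), ∀ x ∈ P, t ^ k * x * (t ^ k)⁻¹ ∈ P := by
    intro k x hx
    rw [hP] at hx
    induction hx using Subgroup.closure_induction with
    | mem x hx =>
      obtain ⟨l, u, hu, rfl⟩ := hx
      rw [hP]
      refine Subgroup.subset_closure ⟨k + l, u, hu, ?_⟩
      rw [zpow_add]; group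
    | one => simp [one_mem]
    | mul x y _ _ hx hy =>
      have e : t ^ k * (x * y) * (t ^ k)⁻¹ = (t ^ k * x * (t ^ k)⁻¹) * (t ^ k * y * (t ^ k)⁻¹) := by
        group
      rw [e]
      exact mul_mem hx hy
    | inv x _ hx =>
      have e : t ^ k * x⁻¹ * (t ^ k)⁻¹ = (t ^ k * x * (t ^ k)⁻¹)⁻¹ := by group
      rw [e]
      exact inv_mem hx
  have hdec : ∀ g : Γ, g * (t ^ (Multiplicative.toAdd (χ g)))⁻¹ ∈ P := by
    intro g
    have hg : g ∈ Subgroup.closure {g | L.ℓ g ≤ R} := by rw [hR]; trivial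
    induction hg using Subgroup.closure_induction with
    | mem s hs =>
      have h1 : s * (t ^ (Multiplicative.toAdd (χ s)))⁻¹ ∈ U := by
        rw [hU]
        refine ⟨?_, ?_⟩
        · rw [MonoidHom.mem_ker, map_mul, map_inv, htz]
          simp
        · have h2 := L.mul s (t ^ (Multiplicative.toAdd (χ s)))⁻¹
          rw [L.inv] at h2
          have h3 := zpow_len (L := L) t (Multiplicative.toAdd (χ s))
          have h4 : L.ℓ t * (Multiplicative.toAdd (χ s)).natAbs ≤ L.ℓ t * M :=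
            Nat.mul_le_mul_left _ (hM s hs)
          have h5 : L.ℓ s ≤ R := hs
          show L.ℓ (s * (t ^ (Multiplicative.toAdd (χ s)))⁻¹) ≤ _
          omega
      rw [hP]
      refine Subgroup.subset_closure ⟨0, _, h1, ?_⟩
      simp
    | one => simp [one_mem]
    | mul x y _ _ hx hy =>
      have h1 := hPconj (Multiplicative.toAdd (χ x)) _ hy
      have e : x * y * (t ^ (Multiplicative.toAdd (χ (x * y))))⁻¹ =
          (x * (t ^ (Multiplicative.toAdd (χ x)))⁻¹) *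
          (t ^ (Multiplicative.toAdd (χ x)) * (y * (t ^ (Multiplicative.toAdd (χ y)))⁻¹) *
            (t ^ (Multiplicative.toAdd (χ x)))⁻¹) := by
        rw [map_mul, toAdd_mul, zpow_add]; group
      rw [e]
      exact mul_mem hx h1
    | inv x _ hx =>
      have h1 := hPconj (-Multiplicative.toAdd (χ x)) _ (inv_mem hx)
      have e : x⁻¹ * (t ^ (Multiplicative.toAdd (χ x⁻¹)))⁻¹ =
          t ^ (-Multiplicative.toAdd (χ x)) * (x * (t ^ (Multiplicative.toAdd (χ x)))⁻¹)⁻¹ *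
            (t ^ (-Multiplicative.toAdd (χ x)))⁻¹ := by
        rw [map_inv, toAdd_inv, zpow_neg]; group
      rw [e]
      exact h1
  rw [restrict_cg_iff]
  refine ⟨R0 + 2 * (L.ℓ t * J), ?_⟩
  rw [← hQ]
  refine le_antisymm hQk fun g hg => hPU ?_
  have h1 := hdec g
  rw [MonoidHom.mem_ker] at hg
  rw [hg] at h1
  simpa using h1

end Len

end Vale.Agent.P151.GB
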