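import Vale.Agent.P151.GB.Glue

/-!
P151, part (B), final statement: a connected, locally finite, quasi-transitive, infinite graph of weak
polynomial growth has a planar projection or a nilpotent symmetry.
-/

open Filter Topology

namespace Vale.Agent.P151.GB

open Vale.Agent.P151 Vale.Agent.P151.H648

/-- **Structure of quasi-transitive graphs of weak polynomial growth.** -/
theorem weak_class {V : Type} {G : SimpleGraph V} [G.LocallyFinite] [Infinite V]
    (hG : G.Connected) (hqt : IsQuasiTransitive G) (o : V) {D : ℕ}
    (hw : ∃ᶠ n : ℕ in atTop, {y | G.dist o y ≤ n}.ncard ≤ n ^ D) :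
    HasPlanarProjection G ∨ HasNilpotentSymmetry G :=
  graph_structure homThm invThm hG hqt o hw

end Vale.Agent.P151.GB
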