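import Vale.Agent.P151.GB.Rank2
import Vale.Agent.P151.H648.Defs

/-!
# P151, part (B): quasi-transitive graphs of weak polynomial growth
-/

universe u v

open Filter Topology

namespace Vale.Agent.P151.GB

open Vale.Agent.P151 Vale.Agent.P151.H648

/-- bounded powers -/
theorem Len.exists_pow_mem_K' {Γ : Type u} [Group Γ] {L : Len Γ} (hL : L.Proper) {g : Γ} {C : ℕ}
    (h : ∀ n : ℕ, L.ℓ (g ^ n) ≤ C) : ∃ q : ℕ, 0 < q ∧ g ^ q ∈ L.K := by
  have h2 : ∀ n : ℕ, ((g ^ n : Γ) : Γ ⧸ L.K) ∈ L.ball C := fun n => L.mem_ball.2 (h n)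
  obtain ⟨m, n, hmn, e⟩ := (hL C).exists_lt_map_eq_of_forall_mem h2
  refine ⟨n - m, Nat.sub_pos_of_lt hmn, ?_⟩
  have h3 : (g ^ m)⁻¹ * g ^ n ∈ L.K := QuotientGroup.eq.1 e
  have h4 : g ^ n = g ^ m * g ^ (n - m) := by rw [← pow_add, Nat.add_sub_cancel' hmn.le]
  rwa [h4, inv_mul_cancel_left] at h3

section Gr

variable {V : Type u} {G : SimpleGraph V}

theorem dist_map_le (hG : G.Connected) (φ : G ≃g G) (u v : V) :
    G.dist (φ u) (φ v) ≤ G.dist u v := by
  obtain ⟨w, hw⟩ := (hG u v).exists_walk_length_eq_dist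
  have := SimpleGraph.dist_le (w.map φ.toHom)
  rw [SimpleGraph.Walk.length_map, hw] at this
  exact this

theorem dist_map (hG : G.Connected) (φ : G ≃g G) (u v : V) : G.dist (φ u) (φ v) = G.dist u v := by
  refine le_antisymm (dist_map_le hG φ u v) ?_
  have := dist_map_le hG φ.symm (φ u) (φ v)
  simpa using this

/-- The length function of the automorphism group. -/
noncomputable def grLen (hG : G.Connected) (o : V) : Len (G ≃g G) where
  ℓ := fun φ => G.dist o (φ o)
  one := by
    show G.dist o o = 0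
    exact SimpleGraph.dist_self
  inv := fun φ => by
    have h := dist_map hG φ (φ⁻¹ o) o
    have e : φ (φ⁻¹ o) = o := φ.apply_symm_apply o
    rw [e] at h
    rw [h, SimpleGraph.dist_comm]
  mul := fun φ ψ => by
    have h := hG.dist_triangle (u := o) (v := φ o) (w := φ (ψ o))
    rw [dist_map hG φ o (ψ o)] at h
    exact h

theorem grLen_ℓ (hG : G.Connected) (o : V) (φ : G ≃g G) : (grLen hG o).ℓ φ = G.dist o (φ o) := rfl

theorem mem_grLen_K (hG : G.Connected) (o : V) (φ : G ≃g G) :
    φ ∈ (grLen hG o).K ↔ φ o = o := by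
  rw [Len.mem_K, grLen_ℓ, hG.dist_eq_zero_iff]
  exact eq_comm

/-- the orbit map -/
noncomputable def orbMap (hG : G.Connected) (o : V) : (G ≃g G) ⧸ (grLen hG o).K → V :=
  Quotient.lift (fun φ : G ≃g G => φ o) (by
    intro a b hab
    have h1 : a⁻¹ * b ∈ (grLen hG o).K := QuotientGroup.leftRel_apply.1 hab
    rw [mem_grLen_K] at h1
    have h2 : a ((a⁻¹ * b) o) = a o := by rw [h1]
    have h3 : a ((a⁻¹ * b) o) = b o := a.apply_symm_apply (b o)
    exact h2.symm.trans h3)

theorem orbMap_mk (hG : G.Connected) (o : V) (φ : G ≃g G) :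
    orbMap hG o (φ : (G ≃g G) ⧸ (grLen hG o).K) = φ o := rfl

theorem orbMap_injective (hG : G.Connected) (o : V) : Function.Injective (orbMap hG o) := by
  intro a b
  induction a using QuotientGroup.induction_on with
  | H a =>
    induction b using QuotientGroup.induction_on with
    | H b =>
      intro h
      rw [orbMap_mk, orbMap_mk] at h
      rw [QuotientGroup.eq, mem_grLen_K]
      show a⁻¹ (b o) = o
      rw [← h]
      exact a.symm_apply_apply o

theorem orbMap_ball (hG : G.Connected) (o : V) (n : ℕ) :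
    orbMap hG o '' (grLen hG o).ball n ⊆ {y | G.dist o y ≤ n} := by
  rintro _ ⟨_, ⟨φ, hφ, rfl⟩, rfl⟩
  exact hφ

variable [G.LocallyFinite]

theorem ball_finite (hG : G.Connected) (o : V) (n : ℕ) : {y | G.dist o y ≤ n}.Finite := by
  induction n with
  | zero =>
    refine (Set.finite_singleton o).subset fun y hy => ?_
    have h : G.dist o y = 0 := Nat.le_zero.1 hy
    exact ((hG.dist_eq_zero_iff).1 h).symm
  | succ n ih =>
    refine ((ih.biUnion (t := fun x => G.neighborSet x) fun x _ => Set.toFinite _).union ih).subset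
      fun y hy => ?_
    rcases Nat.lt_or_ge n (G.dist o y) with h | h
    · left
      have hd : G.dist o y = n + 1 := le_antisymm hy h
      obtain ⟨w, hw⟩ := (hG y o).exists_walk_length_eq_dist
      rw [SimpleGraph.dist_comm, hd] at hw
      cases w with
      | nil => simp at hw
      | cons hadj p =>
        rename_i z
        rw [Set.mem_iUnion₂]
        refine ⟨z, ?_, hadj.symm⟩
        have h1 := SimpleGraph.dist_le p
        rw [SimpleGraph.Walk.length_cons] at hw
        show G.dist o z ≤ n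
        rw [SimpleGraph.dist_comm]
        omega
    · exact Or.inr h

theorem grLen_proper (hG : G.Connected) (o : V) : (grLen hG o).Proper := fun n =>
  ((ball_finite hG o n).subset (orbMap_ball hG o n)).of_finite_image (orbMap_injective hG o).injOn

theorem grLen_wg (hG : G.Connected) (o : V) {D : ℕ}
    (hw : ∃ᶠ n : ℕ in atTop, {y | G.dist o y ≤ n}.ncard ≤ n ^ D) : (grLen hG o).WG D := by
  refine hw.mono fun n hn => le_trans ?_ hn
  rw [← Set.ncard_image_of_injective _ (orbMap_injective hG o)]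
  exact Set.ncard_le_ncard (orbMap_ball hG o n) (ball_finite hG o n)

omit [G.LocallyFinite] in
/-- every vertex is close to the orbit of `o` -/
theorem exists_close (hG : G.Connected) (hqt : IsQuasiTransitive G) (o : V) :
    ∃ R, ∀ x : V, ∃ φ : G ≃g G, G.dist x (φ o) ≤ R := by
  obtain ⟨S, hS⟩ := hqt
  obtain ⟨R, hR⟩ : ∃ R, ∀ y ∈ S, G.dist y o ≤ R := by
    refine ⟨S.sup fun y => G.dist y o, fun y hy => ?_⟩
    exact Finset.le_sup (f := fun y => G.dist y o) hy
  refine ⟨R, fun x => ?_⟩
  obtain ⟨y, hy, φ, rfl⟩ := hS x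
  exact ⟨φ, by rw [dist_map hG]; exact hR y hy⟩

omit [G.LocallyFinite] in
theorem grLen_cg (hG : G.Connected) (hqt : IsQuasiTransitive G) (o : V) : (grLen hG o).CG := by
  obtain ⟨R, hR⟩ := exists_close hG hqt o
  refine ⟨2 * R + 1, ?_⟩
  rw [eq_top_iff]
  have key : ∀ (n : ℕ) (x : V) (w : G.Walk x o), w.length = n → ∀ φ : G ≃g G, G.dist x (φ o) ≤ R →
      φ ∈ Subgroup.closure {g : G ≃g G | (grLen hG o).ℓ g ≤ 2 * R + 1} := by
    intro n
    induction n with
    | zero =>
      intro x w hw φ hφ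
      have hx : x = o := SimpleGraph.Walk.eq_of_length_eq_zero hw
      refine Subgroup.subset_closure ?_
      show G.dist o (φ o) ≤ 2 * R + 1
      rw [hx] at hφ
      omega
    | succ n ih =>
      intro x w hw φ hφ
      obtain ⟨z, w', hadj, hw'⟩ : ∃ z, ∃ w' : G.Walk z o, G.Adj z x ∧ w'.length = n := by
        cases w with
        | nil => simp at hw
        | cons h p =>
          rename_i z
          exact ⟨z, p, h.symm, by simpa using hw⟩
      obtain ⟨ψ, hψ⟩ := hR z
      have h1 := ih z w' hw' ψ hψ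
      have h2 : ψ⁻¹ * φ ∈ Subgroup.closure {g : G ≃g G | (grLen hG o).ℓ g ≤ 2 * R + 1} := by
        refine Subgroup.subset_closure ?_
        show G.dist o (ψ⁻¹ (φ o)) ≤ 2 * R + 1
        have h3 := dist_map hG ψ o (ψ⁻¹ (φ o))
        have e : ψ (ψ⁻¹ (φ o)) = φ o := ψ.apply_symm_apply _
        rw [e] at h3
        rw [← h3]
        have h4 := hG.dist_triangle (u := ψ o) (v := z) (w := φ o)
        have h5 := hG.dist_triangle (u := z) (v := x) (w := φ o)
        have h6 : G.dist z x ≤ 1 := by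
          have := SimpleGraph.dist_le hadj.toWalk
          simpa using this
        rw [SimpleGraph.dist_comm] at hψ
        omega
      have h3 := mul_mem h1 h2
      rwa [mul_inv_cancel_left] at h3
  intro φ _
  obtain ⟨w⟩ := hG (φ o) o
  exact key _ _ w rfl φ (by rw [SimpleGraph.dist_self]; exact Nat.zero_le _)

omit [G.LocallyFinite] in
/-- finite index subgroups act with finitely many orbits -/
theorem qt_finiteIndex (hqt : IsQuasiTransitive G) (H : Subgroup (G ≃g G)) (hH : H.FiniteIndex) :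
    ∃ S : Finset V, ∀ x : V, ∃ y ∈ S, ∃ φ ∈ H, φ y = x := by
  classical
  obtain ⟨S, hS⟩ := hqt
  obtain ⟨T, hT, -⟩ := H.exists_isComplement_right 1
  have hfin : T.Finite := hT.finite_right_iff.2 hH
  refine ⟨hfin.toFinset.biUnion fun t => S.image fun y => t y, fun x => ?_⟩
  obtain ⟨y, hy, φ, rfl⟩ := hS x
  obtain ⟨⟨h, t⟩, ht, -⟩ := Subgroup.isComplement_iff_existsUnique.1 hT φ
  refine ⟨(t : G ≃g G) y, ?_, h, h.2, ?_⟩
  · rw [Finset.mem_biUnion]
    exact ⟨t, hfin.mem_toFinset.2 t.2, Finset.mem_image.2 ⟨y, hy, rfl⟩⟩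
  · rw [← ht]
    rfl

/-- elements with a fixed vertex are killed -/
theorem kills_fixed (hG : G.Connected) (o : V) (H : Subgroup (G ≃g G))
    (χ : H →* Multiplicative ℤ) (hχ : ∀ g : H, (grLen hG o).ℓ g = 0 → χ g = 1) (g : H) (v : V)
    (hv : (g : G ≃g G) v = v) : χ g = 1 := by
  have h1 : ∀ n : ℕ, ((g : G ≃g G) ^ n) v = v := by
    intro n
    induction n with
    | zero => rfl
    | succ n ih =>
      rw [pow_succ]
      show ((g : G ≃g G) ^ n) ((g : G ≃g G) v) = v
      rw [hv, ih]
  have h2 : ∀ n : ℕ, (grLen hG o).ℓ ((g : G ≃g G) ^ n) ≤ G.dist o v + G.dist v o := by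
    intro n
    rw [grLen_ℓ]
    refine hG.dist_triangle.trans (Nat.add_le_add_left ?_ _)
    have := dist_map hG ((g : G ≃g G) ^ n) v o
    rw [h1] at this
    exact this.le
  obtain ⟨q, hq, h3⟩ := Len.exists_pow_mem_K' (grLen_proper hG o) h2
  have h4 : χ (g ^ q) = 1 := hχ _ (by rw [Subgroup.coe_pow]; exact h3)
  rw [map_pow] at h4
  have h5 : (q : ℤ) * Multiplicative.toAdd (χ g) = 0 := by
    have := congrArg Multiplicative.toAdd h4
    rw [toAdd_pow, toAdd_one, nsmul_eq_mul] at this
    exact this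
  rcases mul_eq_zero.1 h5 with h | h
  · exact absurd h (by exact_mod_cast hq.ne')
  · exact h

end Gr

/-- **Structure theorem (B).** A connected, locally finite, quasi-transitive infinite graph with
`|B_n| ≤ n ^ D` for infinitely many `n` has a planar projection or nilpotent symmetry. -/
theorem graph_structure (hB1 : HomThm.{0}) (hInv : InvThm.{0}) {V : Type} {G : SimpleGraph V}
    [G.LocallyFinite] [Infinite V] (hG : G.Connected) (hqt : IsQuasiTransitive G) (o : V) {D : ℕ}
    (hw : ∃ᶠ n : ℕ in atTop, {y | G.dist o y ≤ n}.ncard ≤ n ^ D) :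
    HasPlanarProjection G ∨ HasNilpotentSymmetry G := by
  classical
  have hp := grLen_proper hG o
  have hinf : Infinite ((G ≃g G) ⧸ (grLen hG o).K) := by
    by_contra hfin
    rw [not_infinite_iff_finite] at hfin
    obtain ⟨R, hR⟩ := exists_close hG hqt o
    have h1 : (Set.range (orbMap hG o)).Finite := Set.finite_range _
    have h2 : (Set.univ : Set V).Finite := by
      refine (h1.biUnion (t := fun y => {x | G.dist y x ≤ R}) fun y _ => ball_finite hG y R).subset
        fun x _ => ?_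
      obtain ⟨φ, hφ⟩ := hR x
      rw [Set.mem_iUnion₂]
      exact ⟨φ o, ⟨(φ : (G ≃g G) ⧸ (grLen hG o).K), rfl⟩, by
        show G.dist (φ o) x ≤ R
        rw [SimpleGraph.dist_comm]; exact hφ⟩
    exact Set.infinite_univ h2
  rcases Len.rank2 hB1 hInv hp (grLen_wg hG o hw) (grLen_cg hG hqt o) hinf with
    ⟨H, χ, hH, hs, hk, hfin⟩ | ⟨H, χ, ψ, hH, hkχ, hkψ, a, b, hab⟩
  · right
    refine ⟨H, Multiplicative ℤ, inferInstance, χ, qt_finiteIndex hqt H hH, inferInstance,
      ⟨⊤, inferInstance, inferInstance⟩, hs, fun v => ?_, fun v => ?_⟩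
    · refine (Set.finite_singleton (1 : Multiplicative ℤ)).subset ?_
      rintro _ ⟨φ, hφ, rfl⟩
      exact kills_fixed hG o H χ hk φ v hφ
    · have h1 := hfin.image (orbMap hG o)
      refine (h1.biUnion (t := fun y => {x | G.dist y x ≤ G.dist o v}) fun y _ =>
        ball_finite hG y _).subset ?_
      rintro x ⟨φ, hφ, rfl⟩
      rw [Set.mem_iUnion₂]
      refine ⟨(φ : G ≃g G) o, ⟨((φ : G ≃g G) : (G ≃g G) ⧸ (grLen hG o).K), ⟨φ, hφ, rfl⟩, rfl⟩, ?_⟩
      exact (dist_map hG (φ : G ≃g G) o v).le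
  · left
    -- representatives of the orbits
    let r : V → V := fun x => (Quotient.mk (MulAction.orbitRel H V) x).out
    have hr : ∀ x, ∃ φ : H, (φ : G ≃g G) (r x) = x := by
      intro x
      have h1 : (MulAction.orbitRel H V).r x (r x) := by
        have : Quotient.mk (MulAction.orbitRel H V) (r x) = Quotient.mk _ x := Quotient.out_eq _
        exact Quotient.exact this.symm
      obtain ⟨φ, hφ⟩ := h1
      exact ⟨φ, hφ⟩
    choose φ hφ using hr
    have hrr : ∀ (g : H) (x : V), r ((g : G ≃g G) x) = r x := by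
      intro g x
      have : Quotient.mk (MulAction.orbitRel H V) ((g : G ≃g G) x) = Quotient.mk _ x :=
        Quotient.sound ⟨g, rfl⟩
      show (Quotient.mk (MulAction.orbitRel H V) ((g : G ≃g G) x)).out = _
      rw [this]
    have hmul : ∀ (η : H →* Multiplicative ℤ) (_ : ∀ g : H, (grLen hG o).ℓ g = 0 → η g = 1)
        (g : H) (x : V), η (φ ((g : G ≃g G) x)) = η g * η (φ x) := by
      intro η hη g x
      have h1 : (((g * φ x)⁻¹ * φ ((g : G ≃g G) x) : H) : G ≃g G) (r x) = r x := by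
        have h2 : ((φ ((g : G ≃g G) x) : H) : G ≃g G) (r x) = (g : G ≃g G) x := by
          conv_lhs => rw [← hrr g x]
          exact hφ _
        have h3 : ((g * φ x : H) : G ≃g G) (r x) = (g : G ≃g G) x := by
          show (g : G ≃g G) ((φ x : G ≃g G) (r x)) = _
          rw [hφ]
        show ((g * φ x : H) : G ≃g G)⁻¹ (((φ ((g : G ≃g G) x) : H) : G ≃g G) (r x)) = r x
        rw [h2, ← h3]
        exact ((g * φ x : H) : G ≃g G).symm_apply_apply (r x)
      have h2 := kills_fixed hG o H η hη _ _ h1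
      rw [map_mul, map_inv, map_mul, inv_mul_eq_one] at h2
      exact h2.symm
    refine ⟨H, fun x => (((Multiplicative.toAdd (χ (φ x)) : ℤ) : ℝ),
      ((Multiplicative.toAdd (ψ (φ x)) : ℤ) : ℝ)), qt_finiteIndex hqt H hH, ?_, ?_⟩
    · intro g hg
      refine ⟨(((Multiplicative.toAdd (χ ⟨g, hg⟩) : ℤ) : ℝ),
        ((Multiplicative.toAdd (ψ ⟨g, hg⟩) : ℤ) : ℝ)), fun v => ?_⟩
      have h1 := hmul χ hkχ ⟨g, hg⟩ v
      have h2 := hmul ψ hkψ ⟨g, hg⟩ v
      simp only at h1 h2
      show (((Multiplicative.toAdd (χ (φ (g v))) : ℤ) : ℝ),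
        ((Multiplicative.toAdd (ψ (φ (g v))) : ℤ) : ℝ)) = _
      rw [h1, h2, toAdd_mul, toAdd_mul, Int.cast_add, Int.cast_add]
      exact Prod.ext (add_comm _ _) (add_comm _ _)
    · refine ⟨a, a.2, b, b.2, o, ?_⟩
      have e : ∀ g : H, ((((Multiplicative.toAdd (χ (φ ((g : G ≃g G) o))) : ℤ) : ℝ),
          ((Multiplicative.toAdd (ψ (φ ((g : G ≃g G) o))) : ℤ) : ℝ)) : ℝ × ℝ) -
          (((Multiplicative.toAdd (χ (φ o)) : ℤ) : ℝ),
          ((Multiplicative.toAdd (ψ (φ o)) : ℤ) : ℝ)) =
          (((Multiplicative.toAdd (χ g) : ℤ) : ℝ), ((Multiplicative.toAdd (ψ g) : ℤ) : ℝ)) := by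
        intro g
        rw [hmul χ hkχ, hmul ψ hkψ, toAdd_mul, toAdd_mul, Int.cast_add, Int.cast_add]
        exact Prod.ext (by simp) (by simp)
      simp only
      rw [e a, e b, LinearIndependent.pair_iff]
      intro s t hst
      have h1 := congrArg Prod.fst hst
      have h2 := congrArg Prod.snd hst
      simp only [Prod.smul_mk, Prod.mk_add_mk, smul_eq_mul, Prod.fst_zero, Prod.snd_zero] at h1 h2
      have hab' : ((Multiplicative.toAdd (χ a) : ℤ) : ℝ) * ((Multiplicative.toAdd (ψ b) : ℤ) : ℝ) -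
          ((Multiplicative.toAdd (χ b) : ℤ) : ℝ) * ((Multiplicative.toAdd (ψ a) : ℤ) : ℝ) ≠ 0 := by
        exact_mod_cast hab
      constructor
      · have h3 : s * (((Multiplicative.toAdd (χ a) : ℤ) : ℝ) *
          ((Multiplicative.toAdd (ψ b) : ℤ) : ℝ) - ((Multiplicative.toAdd (χ b) : ℤ) : ℝ) *
          ((Multiplicative.toAdd (ψ a) : ℤ) : ℝ)) = 0 := by
          linear_combination ((Multiplicative.toAdd (ψ b) : ℤ) : ℝ) * h1 -
            ((Multiplicative.toAdd (χ b) : ℤ) : ℝ) * h2
        rcases mul_eq_zero.1 h3 with h | h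
        · exact h
        · exact absurd h hab'
      · have h3 : t * (((Multiplicative.toAdd (χ a) : ℤ) : ℝ) *
          ((Multiplicative.toAdd (ψ b) : ℤ) : ℝ) - ((Multiplicative.toAdd (χ b) : ℤ) : ℝ) *
          ((Multiplicative.toAdd (ψ a) : ℤ) : ℝ)) = 0 := by
          linear_combination ((Multiplicative.toAdd (χ a) : ℤ) : ℝ) * h2 -
            ((Multiplicative.toAdd (ψ a) : ℤ) : ℝ) * h1
        rcases mul_eq_zero.1 h3 with h | h
        · exact h
        · exact absurd h hab'

end Vale.Agent.P151.GB
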