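import Vale.Agent.P151.GB.B1u
import Vale.Agent.P151.GB.B3b
import Vale.Agent.P151.GB.Graph

/-!
P151, part (B): the transitive graph of a group with a length function, and the proofs of the two
statements `HomThm` and `InvThm` used by the rank two alternative.
-/

universe u v

open Filter Topology

namespace Vale.Agent.P151.GB

theorem frequently_scale {b : ℕ → ℕ} (hm : Monotone b) {D : ℕ}
    (h : ∃ᶠ n in atTop, b n ≤ n ^ D) {R : ℕ} (hR : 0 < R) :
    ∃ᶠ n in atTop, b (R * n) ≤ n ^ (D + 1) := by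
  rw [Filter.frequently_atTop] at h ⊢
  intro a
  obtain ⟨n, hn, hb⟩ := h (R * (a + (2 * R) ^ D + 1))
  have h1 : a + (2 * R) ^ D + 1 ≤ n / R := by
    rw [Nat.le_div_iff_mul_le hR, mul_comm]
    exact hn
  refine ⟨n / R, by omega, ?_⟩
  have h2 : n < R * (n / R + 1) := by
    have := Nat.lt_mul_div_succ n hR
    simpa using this
  have h3 : n ≤ 2 * R * (n / R) := by
    have h4 : R * 1 ≤ R * (n / R) := Nat.mul_le_mul_left R (by omega)
    have h5 : 2 * R * (n / R) = R * (n / R) + R * (n / R) := by ring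
    rw [Nat.mul_add] at h2
    omega
  calc b (R * (n / R)) ≤ b n := hm (Nat.mul_div_le n R)
    _ ≤ n ^ D := hb
    _ ≤ (2 * R * (n / R)) ^ D := Nat.pow_le_pow_left h3 D
    _ = (2 * R) ^ D * (n / R) ^ D := by rw [mul_pow]
    _ ≤ (n / R) * (n / R) ^ D := Nat.mul_le_mul_right _ (by omega)
    _ = (n / R) ^ (D + 1) := by rw [pow_succ, mul_comm]

namespace Len

variable {Γ : Type u} [Group Γ] (L : Len Γ)

/-- The points at distance at most `R` of a coset. -/
def nbS (R : ℕ) (x : Γ ⧸ L.K) : Set (Γ ⧸ L.K) :=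
  {y | ∃ g h : Γ, (g : Γ ⧸ L.K) = x ∧ (h : Γ ⧸ L.K) = y ∧ L.ℓ (g⁻¹ * h) ≤ R}

theorem mem_nbS {R : ℕ} {g h : Γ} :
    (h : Γ ⧸ L.K) ∈ L.nbS R (g : Γ ⧸ L.K) ↔ L.ℓ (g⁻¹ * h) ≤ R := by
  constructor
  · rintro ⟨g', h', e1, e2, hR⟩
    have h1 : g'⁻¹ * g ∈ L.K := QuotientGroup.eq.1 e1
    have h2 : h'⁻¹ * h ∈ L.K := QuotientGroup.eq.1 e2
    have h3 : g⁻¹ * h = (g'⁻¹ * g)⁻¹ * (g'⁻¹ * h') * (h'⁻¹ * h) := by group
    rw [h3, L.mul_K h2, L.K_mul (L.K.inv_mem h1)]
    exact hR
  · intro h1
    exact ⟨g, h, rfl, rfl, h1⟩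

variable {L}

theorem nbS_finite (hL : L.Proper) (R : ℕ) (x : Γ ⧸ L.K) : (L.nbS R x).Finite := by
  induction x using QuotientGroup.induction_on with
  | H g =>
    refine ((hL R).image (fun y => g • y)).subset ?_
    intro y hy
    induction y using QuotientGroup.induction_on with
    | H h =>
      rw [mem_nbS] at hy
      refine ⟨((g⁻¹ * h : Γ) : Γ ⧸ L.K), L.mem_ball.2 hy, ?_⟩
      change ((g * (g⁻¹ * h) : Γ) : Γ ⧸ L.K) = _
      rw [mul_inv_cancel_left]

/-- The transitive graph of a group with a length function. -/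
noncomputable def tg (hL : L.Proper) {R : ℕ} (hR : Subgroup.closure {g | L.ℓ g ≤ R} = ⊤) :
    TG Γ (Γ ⧸ L.K) where
  nb := fun x => (nbS_finite hL R x).toFinset
  o := ((1 : Γ) : Γ ⧸ L.K)
  self_mem := fun x => by
    rw [Set.Finite.mem_toFinset]
    induction x using QuotientGroup.induction_on with
    | H g => rw [mem_nbS, inv_mul_cancel, L.one]; exact Nat.zero_le R
  symm := fun x y h => by
    rw [Set.Finite.mem_toFinset] at h ⊢
    induction x using QuotientGroup.induction_on with
    | H g =>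
      induction y using QuotientGroup.induction_on with
      | H g' =>
        rw [mem_nbS] at h ⊢
        rwa [← L.inv, mul_inv_rev, inv_inv]
  smul_mem := fun a x y h => by
    rw [Set.Finite.mem_toFinset] at h ⊢
    induction x using QuotientGroup.induction_on with
    | H g =>
      induction y using QuotientGroup.induction_on with
      | H g' =>
        rw [mem_nbS] at h
        have h1 : ((a * g' : Γ) : Γ ⧸ L.K) ∈ L.nbS R ((a * g : Γ) : Γ ⧸ L.K) := by
          rw [mem_nbS]
          have e : (a * g)⁻¹ * (a * g') = g⁻¹ * g' := by group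
          rwa [e]
        exact h1
  trans := fun x => by
    induction x using QuotientGroup.induction_on with
    | H g =>
      refine ⟨g, ?_⟩
      change ((g * 1 : Γ) : Γ ⧸ L.K) = _
      rw [mul_one]
  conn := fun x => by
    induction x using QuotientGroup.induction_on with
    | H g =>
      have hg : g ∈ Subgroup.closure {g | L.ℓ g ≤ R} := by rw [hR]; trivial
      induction hg using Subgroup.closure_induction_right with
      | one => exact Relation.ReflTransGen.refl
      | mul_right x hx y hy ih =>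
        refine ih.tail ?_
        rw [Set.Finite.mem_toFinset, mem_nbS, inv_mul_cancel_left]
        exact hy
      | mul_inv_cancel x hx y hy ih =>
        refine ih.tail ?_
        rw [Set.Finite.mem_toFinset, mem_nbS, inv_mul_cancel_left, L.inv]
        exact hy

theorem tg_ball (hL : L.Proper) {R : ℕ} (hR : Subgroup.closure {g | L.ℓ g ≤ R} = ⊤) (n : ℕ) :
    ((tg hL hR).ball (tg hL hR).o n : Set (Γ ⧸ L.K)) ⊆ L.ball (R * n) := by
  induction n with
  | zero =>
    intro x hx
    have h1 : x = ((1 : Γ) : Γ ⧸ L.K) := by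
      have : x ∈ ((tg hL hR).ball (tg hL hR).o 0) := hx
      rw [TG.ball, Finset.mem_singleton] at this
      exact this
    rw [h1, L.mem_ball, L.one]
    exact Nat.zero_le _
  | succ n ih =>
    classical
    intro x hx
    have h1 : x ∈ ((tg hL hR).ball (tg hL hR).o (n + 1)) := hx
    simp only [TG.ball, Finset.mem_biUnion] at h1
    obtain ⟨y, hy, hxy⟩ := h1
    have h2 : y ∈ L.ball (R * n) := ih hy
    have h3 : x ∈ L.nbS R y := (Set.Finite.mem_toFinset _).1 hxy
    induction x using QuotientGroup.induction_on with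
    | H g =>
      induction y using QuotientGroup.induction_on with
      | H g' =>
        rw [mem_nbS] at h3
        rw [L.mem_ball] at h2 ⊢
        have h4 := L.mul g' (g'⁻¹ * g)
        rw [mul_inv_cancel_left] at h4
        rw [mul_add, mul_one]
        omega

theorem ball_mono (L : Len Γ) {m n : ℕ} (h : m ≤ n) : L.ball m ⊆ L.ball n := by
  rintro _ ⟨g, hg, rfl⟩
  exact ⟨g, le_trans hg h, rfl⟩

theorem tg_WG (hL : L.Proper) {R : ℕ} (hR : Subgroup.closure {g | L.ℓ g ≤ R} = ⊤) (hR0 : 0 < R)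
    {D : ℕ} (hW : L.WG D) : (tg hL hR).WG (D + 1) := by
  have hm : Monotone (fun n => (L.ball n).ncard) := fun m n h =>
    Set.ncard_le_ncard (L.ball_mono h) (hL n)
  refine (frequently_scale hm hW hR0).mono fun n hn => ?_
  refine le_trans ?_ hn
  rw [← Set.ncard_coe_finset]
  exact Set.ncard_le_ncard (tg_ball hL hR n) (hL _)

end Len

/-- **(B1)** for groups with a length function. -/
theorem homThm : HomThm.{u} := by
  intro Γ _ L D hL hW hCG hinf
  obtain ⟨R, hR⟩ := hCG
  have hR' : Subgroup.closure {g | L.ℓ g ≤ R + 1} = ⊤ := by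
    rw [eq_top_iff, ← hR]
    exact Subgroup.closure_mono fun g hg => le_trans hg (Nat.le_succ R)
  have h1 : (Len.tg hL hR').WG (D + 1) := Len.tg_WG hL hR' (Nat.succ_pos R) hW
  obtain ⟨H, hH, χ, hχ, hk⟩ := (Len.tg hL hR').virt_hom_uncond h1
  refine ⟨H, χ, hH, hχ, fun g hg => hk g ?_⟩
  change (((g : Γ) * 1 : Γ) : Γ ⧸ L.K) = ((1 : Γ) : Γ ⧸ L.K)
  rw [mul_one]
  symm
  rw [QuotientGroup.eq, inv_one, one_mul]
  exact hg

/-- **(B3b)** invariant homomorphisms. -/
theorem invThm : InvThm.{u} := by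
  intro Γ _ L D hL hW t N h1 h2 hCG χ hχ hk
  have hN : ∀ g, g ∈ N ↔ t * g * t⁻¹ ∈ N := by
    intro g
    refine ⟨h1 g, fun h => ?_⟩
    have h3 := h2 _ h
    have e : t⁻¹ * (t * g * t⁻¹) * t = g := by group
    rwa [e] at h3
  obtain ⟨m, hm, ψ, h3, h4, h5⟩ := Len.exists_fixed_hom hL hW t N hN hCG χ hχ hk
  exact ⟨m, hm, ψ, h3, h4, fun g g' h => h5 g g' h⟩

end Vale.Agent.P151.GB
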