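import Vale.Agent.P151.GB.Base

/-!
# P151, part (B): virtual homomorphisms

The finite-dimensional space of virtual homomorphisms of a group with a length function of weak
polynomial growth, and an invariant finite index subgroup on which all of them are homomorphisms.
-/

universe u v

open Filter Topology

namespace Vale.Agent.P151.GB

namespace Len

variable {Γ : Type u} [Group Γ] (L : Len Γ)

/-- Virtual homomorphisms to `ℝ` which vanish on `K`, as homogeneous functions. -/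
def VH : Submodule ℝ (Γ → ℝ) where
  carrier := {f | (∃ M : Subgroup Γ, M.FiniteIndex ∧ ∀ a ∈ M, ∀ b ∈ M, f (a * b) = f a + f b) ∧
    (∀ (g : Γ) (n : ℕ), f (g ^ n) = n * f g) ∧ ∀ g, L.ℓ g = 0 → f g = 0}
  add_mem' := by
    rintro f f' ⟨⟨M, hM, h1⟩, h2, h3⟩ ⟨⟨M', hM', h1'⟩, h2', h3'⟩
    refine ⟨⟨M ⊓ M', inferInstance, fun a ha b hb => ?_⟩, fun g n => ?_, fun g hg => ?_⟩
    · simp only [Pi.add_apply]
      rw [h1 a ha.1 b hb.1, h1' a ha.2 b hb.2]
      ring
    · simp only [Pi.add_apply]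
      rw [h2, h2']
      ring
    · simp only [Pi.add_apply]
      rw [h3 g hg, h3' g hg, add_zero]
  zero_mem' := ⟨⟨⊤, inferInstance, fun a _ b _ => by simp⟩, fun g n => by simp, fun g _ => rfl⟩
  smul_mem' := by
    rintro c f ⟨⟨M, hM, h1⟩, h2, h3⟩
    refine ⟨⟨M, hM, fun a ha b hb => ?_⟩, fun g n => ?_, fun g hg => ?_⟩
    · simp only [Pi.smul_apply, smul_eq_mul]
      rw [h1 a ha b hb]
      ring
    · simp only [Pi.smul_apply, smul_eq_mul]
      rw [h2]
      ring
    · simp only [Pi.smul_apply, smul_eq_mul]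
      rw [h3 g hg, mul_zero]

variable {L}

theorem VH_one {f : Γ → ℝ} (hf : f ∈ L.VH) : f 1 = 0 := by
  have := hf.2.1 1 0
  simpa using this

theorem exists_pow_mem (M : Subgroup Γ) (hM : M.FiniteIndex) (g : Γ) :
    ∃ q : ℕ, 0 < q ∧ g ^ q ∈ M := by
  obtain ⟨q, hq, -, h⟩ := Subgroup.exists_pow_mem_of_index_ne_zero hM.index_ne_zero g
  exact ⟨q, hq, h⟩

theorem VH_inv {f : Γ → ℝ} (hf : f ∈ L.VH) (g : Γ) : f g⁻¹ = - f g := by
  obtain ⟨⟨M, hM, h1⟩, h2, h3⟩ := hf
  obtain ⟨q, hq, hg⟩ := exists_pow_mem M hM g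
  have h4 := h1 _ hg _ (inv_mem hg)
  have h0 : f 1 = 0 := by
    have := h2 1 0
    simpa using this
  rw [mul_inv_cancel, h0, ← inv_pow, h2, h2, ← mul_add] at h4
  have hq' : (q : ℝ) ≠ 0 := by exact_mod_cast hq.ne'
  have h5 : f g + f g⁻¹ = 0 := by
    rcases mul_eq_zero.1 h4.symm with h | h
    · exact absurd h hq'
    · exact h
  linarith

/-- A virtual homomorphism is invariant under conjugation by a finite index subgroup. -/
theorem VH_conj {f : Γ → ℝ} (hf : f ∈ L.VH) {M : Subgroup Γ} (hM : M.FiniteIndex)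
    (h1 : ∀ a ∈ M, ∀ b ∈ M, f (a * b) = f a + f b) {m : Γ} (hm : m ∈ M) (g : Γ) :
    f (m * g * m⁻¹) = f g := by
  obtain ⟨q, hq, hg⟩ := exists_pow_mem M hM g
  have hq' : (q : ℝ) ≠ 0 := by exact_mod_cast hq.ne'
  have h2 := hf.2.1
  have h3 : (m * g * m⁻¹) ^ q = m * g ^ q * m⁻¹ := conj_pow
  have h4 : (q : ℝ) * f (m * g * m⁻¹) = q * f g := by
    rw [← h2, h3, h1 _ (mul_mem hm hg) _ (inv_mem hm), h1 _ hm _ hg, VH_inv hf, ← h2]
    ring
  exact mul_left_cancel₀ hq' h4

/-- Two virtual homomorphisms which agree on a finite index subgroup are equal. -/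
theorem VH_eq_zero {f : Γ → ℝ} (hf : f ∈ L.VH) {M : Subgroup Γ} (hM : M.FiniteIndex)
    (h : ∀ m ∈ M, f m = 0) : f = 0 := by
  funext g
  obtain ⟨q, hq, hg⟩ := exists_pow_mem M hM g
  have hq' : (q : ℝ) ≠ 0 := by exact_mod_cast hq.ne'
  have h2 := hf.2.1 g q
  rw [h _ hg] at h2
  rcases mul_eq_zero.1 h2.symm with h | h
  · exact absurd h hq'
  · exact h

/-- a polynomial lower bound contradicting weak growth -/
theorem le_of_growth {D k : ℕ} (hp : L.Proper) (hw : L.WG D) (C : ℕ)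
    (h : ∀ n : ℕ, (n + 1) ^ k ≤ (L.ball (C * n)).ncard) : k ≤ D := by
  by_contra hcon
  push Not at hcon
  -- `|B_n| ≥ (n / (C + 1) + 1) ^ (D + 1) ≥ (n / (C + 1)) ^ (D + 1)`
  have h1 : Tendsto (fun n : ℕ => (n : ℝ)) atTop atTop := tendsto_natCast_atTop_atTop
  obtain ⟨n0, hn0⟩ : ∃ n0 : ℕ, n0 = (C + 1) ^ (D + 1) + 1 := ⟨_, rfl⟩
  obtain ⟨n, hn1, hn2⟩ := (hw.and_eventually (eventually_ge_atTop n0)).exists
  obtain ⟨m, hm⟩ : ∃ m, m = n / (C + 1) := ⟨_, rfl⟩
  have h3 : (C + 1) * m ≤ n := by rw [hm]; exact Nat.mul_div_le n (C + 1)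
  have h4 : n < (C + 1) * (m + 1) := by
    rw [hm]
    exact Nat.lt_mul_div_succ n (Nat.succ_pos C)
  have h5 : (L.ball (C * m)).ncard ≤ (L.ball n).ncard := by
    refine Set.ncard_le_ncard ?_ (hp n)
    rintro _ ⟨g, hg, rfl⟩
    refine ⟨g, ?_, rfl⟩
    have h9 : L.ℓ g ≤ C * m := hg
    have h10 : C * m ≤ (C + 1) * m := Nat.mul_le_mul_right _ (Nat.le_succ C)
    show L.ℓ g ≤ n
    omega
  have h6 : (m + 1) ^ (D + 1) ≤ n ^ D :=
    (Nat.pow_le_pow_right (Nat.succ_pos m) hcon).trans ((h m).trans (h5.trans hn1))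
  have h7 : n ^ (D + 1) ≤ (C + 1) ^ (D + 1) * n ^ D := by
    calc n ^ (D + 1) ≤ ((C + 1) * (m + 1)) ^ (D + 1) := Nat.pow_le_pow_left h4.le _
      _ = (C + 1) ^ (D + 1) * (m + 1) ^ (D + 1) := mul_pow _ _ _
      _ ≤ _ := Nat.mul_le_mul_left _ h6
  have hn : 0 < n := by omega
  have h8 : n ≤ (C + 1) ^ (D + 1) := by
    rw [pow_succ, mul_comm (n ^ D) n] at h7
    exact Nat.le_of_mul_le_mul_right h7 (pow_pos hn D)
  omega

/-- products of powers of finitely many elements -/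
def pw (k : ℕ) (x : Fin k → Γ) (a : Fin k → ℕ) : Γ := (List.ofFn fun i => x i ^ a i).prod

theorem pw_len (k : ℕ) (x : Fin k → Γ) (a : Fin k → ℕ) :
    L.ℓ (pw k x a) ≤ ∑ i, L.ℓ (x i) * a i := by
  have hpow : ∀ (t : Γ) (m : ℕ), L.ℓ (t ^ m) ≤ L.ℓ t * m := by
    intro t m
    induction m with
    | zero => simp [L.one]
    | succ m ih =>
      have h := L.mul (t ^ m) t
      rw [← pow_succ] at h
      have h4 : L.ℓ t * (m + 1) = L.ℓ t * m + L.ℓ t := by ring
      omega
  induction k with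
  | zero => simp [pw, L.one]
  | succ k ih =>
    unfold pw
    rw [List.ofFn_succ, List.prod_cons, Fin.sum_univ_succ]
    have h1 := L.mul (x 0 ^ a 0) (List.ofFn fun i : Fin k => x i.succ ^ a i.succ).prod
    have h2 : L.ℓ (List.ofFn fun i : Fin k => x i.succ ^ a i.succ).prod ≤
        ∑ i : Fin k, L.ℓ (x i.succ) * a i.succ := ih (fun i => x i.succ) (fun i => a i.succ)
    have h3 := hpow (x 0) (a 0)
    omega

theorem pw_mem {M : Subgroup Γ} {k : ℕ} {x : Fin k → Γ} (hx : ∀ i, x i ∈ M) (a : Fin k → ℕ) :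
    pw k x a ∈ M := by
  unfold pw
  refine Subgroup.list_prod_mem _ fun y hy => ?_
  rw [List.mem_ofFn] at hy
  obtain ⟨i, rfl⟩ := hy
  exact pow_mem (hx i) _

theorem pw_val {f : Γ → ℝ} (hf : f ∈ L.VH) {M : Subgroup Γ}
    (h1 : ∀ a ∈ M, ∀ b ∈ M, f (a * b) = f a + f b) {k : ℕ} {x : Fin k → Γ} (hx : ∀ i, x i ∈ M)
    (a : Fin k → ℕ) : f (pw k x a) = ∑ i, (a i : ℝ) * f (x i) := by
  induction k with
  | zero => simp [pw, VH_one hf]
  | succ k ih =>
    have h2 := ih (fun i => hx i.succ) (fun i => a i.succ)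
    have h3 := pw_mem (fun i => hx i.succ) (fun i => a i.succ)
    unfold pw at h2 h3 ⊢
    rw [List.ofFn_succ, List.prod_cons, Fin.sum_univ_succ, h1 _ (pow_mem (hx 0) _) _ h3, h2,
      hf.2.1]

/-- Linearly independent virtual homomorphisms give growth. -/
theorem card_le_of_linearIndependent {D : ℕ} (hp : L.Proper) (hw : L.WG D) {k : ℕ}
    (F : Fin k → L.VH) (hF : LinearIndependent ℝ F) : k ≤ D := by
  classical
  choose M hM h1 using fun i => (F i).2.1
  obtain ⟨N, hN⟩ : ∃ N : Subgroup Γ, N = ⨅ i, M i := ⟨_, rfl⟩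
  have hNf : N.FiniteIndex := by
    rw [hN]
    exact Subgroup.finiteIndex_iInf hM
  have hNM : ∀ i, ∀ x ∈ N, x ∈ M i := fun i x hx => by
    rw [hN, Subgroup.mem_iInf] at hx
    exact hx i
  have hadd : ∀ i, ∀ a ∈ N, ∀ b ∈ N, (F i : Γ → ℝ) (a * b) = (F i : Γ → ℝ) a + (F i : Γ → ℝ) b :=
    fun i a ha b hb => h1 i a (hNM i a ha) b (hNM i b hb)
  -- the evaluation vectors
  obtain ⟨S, hS⟩ : ∃ S : Set (Fin k → ℝ), S = (fun x : Γ => fun i => (F i : Γ → ℝ) x) '' N :=
    ⟨_, rfl⟩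
  have hspan : Submodule.span ℝ S = ⊤ := by
    by_contra hne
    obtain ⟨φ, hφ, hφS⟩ := Submodule.exists_le_ker_of_lt_top _ (lt_top_iff_ne_top.2 hne)
    have h2 : ∀ v, φ v = ∑ i, v i * φ (Pi.single i 1) := by
      intro v
      conv_lhs => rw [show v = ∑ i, v i • (Pi.single i (1 : ℝ) : Fin k → ℝ) by
        funext j; simp [Finset.sum_apply, Pi.single_apply]]
      rw [map_sum]
      simp
    have h3 : ∑ i, φ (Pi.single i 1) • F i = 0 := by
      refine Subtype.ext ?_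
      refine VH_eq_zero (L := L) (Subtype.prop _) hNf fun m hm => ?_
      have h4 : φ (fun i => (F i : Γ → ℝ) m) = 0 := by
        have : (fun i => (F i : Γ → ℝ) m) ∈ Submodule.span ℝ S := by
          refine Submodule.subset_span ?_
          rw [hS]
          exact ⟨m, hm, rfl⟩
        exact hφS this
      rw [h2] at h4
      rw [Submodule.coe_sum, Finset.sum_apply, ← h4]
      refine Finset.sum_congr rfl fun i _ => ?_
      simp [mul_comm]
    have h4 := Fintype.linearIndependent_iff.1 hF _ h3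
    refine hφ (LinearMap.ext fun v => ?_)
    rw [h2]
    simp [h4]
  -- a basis of evaluation vectors
  let b := Module.Basis.ofSpan (K := ℝ) (le_of_eq hspan.symm)
  have hbS : ∀ i, b i ∈ S := fun i => Module.Basis.ofSpan_subset (le_of_eq hspan.symm) ⟨i, rfl⟩
  have : Finite _ := Module.Finite.finite_basis b
  have : Fintype _ := Fintype.ofFinite ((linearIndepOn_empty ℝ id).extend (Set.empty_subset S))
  have hcard : Fintype.card ((linearIndepOn_empty ℝ id).extend (Set.empty_subset S)) = k := by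
    rw [← Module.finrank_eq_card_basis b]
    simp
  let e := Fintype.equivFinOfCardEq hcard
  let b' := b.reindex e
  have hb' : ∀ i, b' i ∈ S := fun i => by
    rw [show b' i = b (e.symm i) from Module.Basis.reindex_apply _ _ _]
    exact hbS _
  rw [hS] at hb'
  choose x hx hxb using hb'
  obtain ⟨C, hC⟩ : ∃ C, C = ∑ i, L.ℓ (x i) := ⟨_, rfl⟩
  refine le_of_growth hp hw C fun n => ?_
  let f : (Fin k → Fin (n + 1)) → Γ ⧸ L.K := fun a => ((pw k x fun i => (a i : ℕ) : Γ) : Γ ⧸ L.K)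
  have hval : ∀ a : Fin k → Fin (n + 1), (fun i => (F i : Γ → ℝ) (pw k x fun i => (a i : ℕ))) =
      ∑ j, ((a j : ℕ) : ℝ) • b' j := by
    intro a
    funext i
    rw [pw_val (F i).2 (hadd i) hx, Finset.sum_apply]
    refine Finset.sum_congr rfl fun j _ => ?_
    rw [← hxb j]
    simp
  have hf : Function.Injective f := by
    intro a a' h
    have h2 : (pw k x fun i => (a i : ℕ))⁻¹ * (pw k x fun i => (a' i : ℕ)) ∈ L.K :=
      QuotientGroup.eq.1 h
    have h3 : ∀ i, (F i : Γ → ℝ) (pw k x fun i => (a i : ℕ)) =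
        (F i : Γ → ℝ) (pw k x fun i => (a' i : ℕ)) := by
      intro i
      have h4 := (F i).2.2.2 _ h2
      rw [hadd i _ (inv_mem (pw_mem hx _)) _ (pw_mem hx _), VH_inv (F i).2] at h4
      linarith
    have h4 : ∑ j, ((a j : ℕ) : ℝ) • b' j = ∑ j, ((a' j : ℕ) : ℝ) • b' j := by
      rw [← hval, ← hval]
      funext i
      exact h3 i
    have h5 : ∑ j, (((a j : ℕ) : ℝ) - ((a' j : ℕ) : ℝ)) • b' j = 0 := by
      simp only [sub_smul, Finset.sum_sub_distrib, h4, sub_self]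
    have h6 := Fintype.linearIndependent_iff.1 b'.linearIndependent _ h5
    funext j
    refine Fin.ext ?_
    have h7 := h6 j
    have h8 : ((a j : ℕ) : ℝ) = ((a' j : ℕ) : ℝ) := by linarith
    exact_mod_cast h8
  have h2 : Set.range f ⊆ L.ball (C * n) := by
    rintro _ ⟨a, rfl⟩
    rw [mem_ball]
    refine (pw_len k x _).trans ?_
    rw [hC, Finset.sum_mul]
    exact Finset.sum_le_sum fun i _ => Nat.mul_le_mul_left _ (Nat.lt_succ_iff.1 (a i).2)
  have h3 := Set.ncard_le_ncard h2 (hp _)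
  have h4 : (Set.range f).ncard = (n + 1) ^ k := by
    rw [← Set.image_univ, Set.ncard_image_of_injective _ hf, Set.ncard_univ]
    simp
  omega

/-- The space of virtual homomorphisms is finite-dimensional. -/
theorem VH_finite {D : ℕ} (hp : L.Proper) (hw : L.WG D) : Module.Finite ℝ L.VH := by
  by_contra hfin
  have h1 : Cardinal.aleph0 ≤ Module.rank ℝ L.VH := by
    by_contra h2
    exact hfin (Module.rank_lt_aleph0_iff.1 (not_le.1 h2))
  obtain ⟨f, hf⟩ := exists_linearIndependent_of_le_rank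
    ((Cardinal.natCast_lt_aleph0 (n := D + 1)).le.trans h1)
  have := card_le_of_linearIndependent hp hw f hf
  omega

variable (L) in
/-- The elements which act trivially on the virtual homomorphisms. -/
def N₁ : Subgroup Γ where
  carrier := {n | ∀ f ∈ L.VH, ∀ g, f (n * g * n⁻¹) = f g}
  one_mem' := fun f _ g => by simp
  mul_mem' := fun {a b} ha hb f hf g => by
    have e : a * b * g * (a * b)⁻¹ = a * (b * g * b⁻¹) * a⁻¹ := by group
    rw [e, ha f hf, hb f hf]
  inv_mem' := fun {a} ha f hf g => by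
    have h := ha f hf (a⁻¹ * g * a⁻¹⁻¹)
    rw [← h]
    congr 1
    group

theorem mem_N₁ {n : Γ} : n ∈ L.N₁ ↔ ∀ f ∈ L.VH, ∀ g, f (n * g * n⁻¹) = f g := Iff.rfl

theorem N₁_finiteIndex {D : ℕ} (hp : L.Proper) (hw : L.WG D) : L.N₁.FiniteIndex := by
  classical
  have := VH_finite hp hw
  obtain ⟨s, hs⟩ := (Module.finite_def (R := ℝ) (M := L.VH)).1 inferInstance
  choose M hM h1 using fun f : L.VH => f.2.1
  have h2 : (⨅ f : s, M f).FiniteIndex := Subgroup.finiteIndex_iInf fun f : s => hM f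
  refine Subgroup.finiteIndex_of_le (H := ⨅ f : s, M f) fun m hm => ?_
  rw [Subgroup.mem_iInf] at hm
  intro f hf g
  have h3 : (⟨f, hf⟩ : L.VH) ∈ Submodule.span ℝ (s : Set L.VH) := by rw [hs]; trivial
  suffices H : ∀ F : L.VH, F ∈ Submodule.span ℝ (s : Set L.VH) →
      (F : Γ → ℝ) (m * g * m⁻¹) = (F : Γ → ℝ) g from H _ h3
  intro F hF
  induction hF using Submodule.span_induction with
  | mem x hx => exact VH_conj x.2 (hM x) (h1 x) (hm ⟨x, hx⟩) g
  | zero => rfl
  | add x y _ _ hx hy =>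
    show (x : Γ → ℝ) _ + (y : Γ → ℝ) _ = (x : Γ → ℝ) g + (y : Γ → ℝ) g
    rw [hx, hy]
  | smul a x _ hx =>
    show a * (x : Γ → ℝ) _ = a * (x : Γ → ℝ) g
    rw [hx]

/-- The transfer formula. -/
theorem transfer_formula {G : Type u} [Group G] {H : Subgroup G} [H.FiniteIndex]
    (φ : H →* Multiplicative ℤ) (f : G → ℝ) (hf1 : ∀ (g : G) (n : ℕ), f (g ^ n) = n * f g)
    (hf2 : ∀ (x g : G), f (x * g * x⁻¹) = f g)
    (hf3 : ∀ h : H, f h = (Multiplicative.toAdd (φ h) : ℤ)) (g : G) :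
    ((Multiplicative.toAdd (MonoidHom.transfer φ g) : ℤ) : ℝ) = H.index * f g := by
  classical
  let := H.fintypeQuotientOfFiniteIndex
  rw [MonoidHom.transfer_eq_prod_quotient_orbitRel_zpowers_quot, toAdd_prod, Int.cast_sum,
    Subgroup.index_eq_sum_minimalPeriod H g, Nat.cast_sum, Finset.sum_mul]
  refine Finset.sum_congr rfl fun q _ => ?_
  rw [← hf3]
  show f (q.out.out⁻¹ * g ^ Function.minimalPeriod (g • ·) q.out * q.out.out) = _
  have h := hf2 (q.out.out)⁻¹ (g ^ Function.minimalPeriod (g • ·) q.out)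
  rw [inv_inv] at h
  rw [h, hf1]

/-- The virtual homomorphism given by a homomorphism on a finite index subgroup. -/
theorem exists_VH (H : Subgroup Γ) (hH : H.FiniteIndex) (χ : H →* Multiplicative ℤ)
    (hk : ∀ g : H, L.ℓ g = 0 → χ g = 1) :
    ∃ f ∈ L.VH, ∀ h : H, f h = (Multiplicative.toAdd (χ h) : ℤ) := by
  obtain ⟨q, hq⟩ : ∃ q, q = H.index.factorial := ⟨_, rfl⟩
  have hq0 : (q : ℝ) ≠ 0 := by
    rw [hq]
    exact_mod_cast Nat.factorial_ne_zero _
  have hmem : ∀ g : Γ, g ^ q ∈ H := fun g =>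
    Subgroup.pow_mem_of_index_ne_zero_of_dvd hH.index_ne_zero g fun m hm hm' => by
      rw [hq]
      exact Nat.dvd_factorial hm hm'
  have hval : ∀ h : H, ((Multiplicative.toAdd (χ ⟨(h : Γ) ^ q, hmem h⟩) : ℤ) : ℝ) / q =
      (Multiplicative.toAdd (χ h) : ℤ) := by
    intro h
    have e : (⟨(h : Γ) ^ q, hmem h⟩ : H) = h ^ q := rfl
    rw [e, map_pow, toAdd_pow]
    simp only [nsmul_eq_mul, Int.cast_mul, Int.cast_natCast]
    field_simp
  refine ⟨fun g => ((Multiplicative.toAdd (χ ⟨g ^ q, hmem g⟩) : ℤ) : ℝ) / q,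
    ⟨⟨H, hH, fun a ha b hb => ?_⟩, fun g n => ?_, fun g hg => ?_⟩, hval⟩
  · have h1 := hval ⟨a, ha⟩
    have h2 := hval ⟨b, hb⟩
    have h3 := hval ⟨a * b, mul_mem ha hb⟩
    simp only at h1 h2 h3 ⊢
    rw [h1, h2, h3, ← Int.cast_add, ← toAdd_mul, ← map_mul]
    rfl
  · have e : (⟨(g ^ n) ^ q, hmem _⟩ : H) = ⟨g ^ q, hmem g⟩ ^ n :=
      Subtype.ext (by
        show (g ^ n) ^ q = (g ^ q) ^ n
        rw [← pow_mul, ← pow_mul, mul_comm])
    simp only
    rw [e, map_pow, toAdd_pow]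
    simp only [nsmul_eq_mul, Int.cast_mul, Int.cast_natCast]
    ring
  · have h1 : L.ℓ ((⟨g ^ q, hmem g⟩ : H) : Γ) = 0 := L.K.pow_mem hg q
    simp only
    rw [hk _ h1]
    simp

/-- Virtual homomorphisms are preserved by automorphisms which are given by conjugation in a
larger group. -/
theorem VH_comp {Γ' : Type u} [Group Γ'] {L' : Len Γ'} (hp : L'.Proper) (N : Subgroup Γ')
    [hN : N.Normal] (t : Γ') {f : N → ℝ} (hf : f ∈ (L'.restrict N).VH) :
    (fun g : N => f (MulAut.conjNormal t g)) ∈ (L'.restrict N).VH := by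
  obtain ⟨⟨M, hM, h1⟩, h2, h3⟩ := hf
  have hM' : (M.comap (MulAut.conjNormal t : MulAut N).toMonoidHom).FiniteIndex := by
    refine ⟨?_⟩
    have hs : Function.Surjective (MulAut.conjNormal t : MulAut N).toMonoidHom :=
      (MulAut.conjNormal t : MulAut N).surjective
    rw [Subgroup.index_comap_of_surjective M hs]
    exact hM.index_ne_zero
  refine ⟨⟨M.comap (MulAut.conjNormal t : MulAut N).toMonoidHom, hM',
    fun a ha b hb => ?_⟩, fun g n => ?_, fun g hg => ?_⟩
  · simp only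
    rw [map_mul]
    exact h1 _ ha _ hb
  · simp only
    rw [map_pow]
    exact h2 _ n
  · simp only
    have h4 : L'.ℓ (t⁻¹ * ((MulAut.conjNormal t g : N) : Γ') * t) = 0 := by
      rw [MulAut.conjNormal_apply]
      have : t⁻¹ * (t * (g : Γ') * t⁻¹) * t = g := by group
      rw [this]
      exact hg
    obtain ⟨q, hq, h5⟩ := exists_pow_mem_K hp h4
    have h6 := h3 ((MulAut.conjNormal t g : N) ^ q) h5
    rw [h2] at h6
    have hq' : (q : ℝ) ≠ 0 := by exact_mod_cast hq.ne'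
    rcases mul_eq_zero.1 h6 with h | h
    · exact absurd h hq'
    · exact h

/-- `N₁` of a normal subgroup is invariant under conjugation. -/
theorem N₁_conj {Γ' : Type u} [Group Γ'] {L' : Len Γ'} (hp : L'.Proper) (N : Subgroup Γ')
    [hN : N.Normal] (t : Γ') (n : N) (hn : n ∈ (L'.restrict N).N₁) :
    MulAut.conjNormal t n ∈ (L'.restrict N).N₁ := by
  intro f hf g
  have h1 := hn _ (VH_comp hp N t hf) ((MulAut.conjNormal t : MulAut N).symm g)
  rw [map_mul, map_mul, map_inv, MulEquiv.apply_symm_apply] at h1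
  exact h1

/-- **The invariant finite index subgroup.** -/
theorem exists_hom_N₁ {D : ℕ} (hp : L.Proper) (hw : L.WG D) (H : Subgroup Γ)
    (hH : H.FiniteIndex) (χ : H →* Multiplicative ℤ) (hχ : χ ≠ 1)
    (hk : ∀ g : H, L.ℓ g = 0 → χ g = 1) :
    ∃ ψ : L.N₁ →* Multiplicative ℤ, ψ ≠ 1 ∧ ∀ g : L.N₁, L.ℓ g = 0 → ψ g = 1 := by
  classical
  have hN := N₁_finiteIndex hp hw
  obtain ⟨f, hf, hfχ⟩ := exists_VH H hH χ hk
  obtain ⟨H', hH'⟩ : ∃ H' : Subgroup L.N₁, H' = H.subgroupOf L.N₁ := ⟨_, rfl⟩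
  have hH'f : H'.FiniteIndex := by rw [hH']; infer_instance
  have hmem' : ∀ x : L.N₁, x ∈ H' → (x : Γ) ∈ H := fun x hx => by
    rw [hH'] at hx
    exact hx
  have hmem : ∀ h : H', ((h : L.N₁) : Γ) ∈ H := fun h => hmem' _ h.2
  let φ : H' →* Multiplicative ℤ :=
    { toFun := fun h => χ ⟨((h : L.N₁) : Γ), hmem h⟩
      map_one' := by
        have : (⟨(((1 : H') : L.N₁) : Γ), hmem 1⟩ : H) = 1 := rfl
        rw [this, map_one]
      map_mul' := fun a b => by
        rw [← map_mul]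
        rfl }
  have key := transfer_formula (G := L.N₁) φ (fun g : L.N₁ => f g)
    (fun g n => by
      rw [Subgroup.coe_pow]
      exact hf.2.1 g n)
    (fun x g => by
      have := x.2 f hf g
      simpa using this)
    (fun h => hfχ ⟨((h : L.N₁) : Γ), hmem h⟩)
  have hidx : (H'.index : ℝ) ≠ 0 := by exact_mod_cast hH'f.index_ne_zero
  refine ⟨MonoidHom.transfer φ, fun h0 => hχ ?_, fun g hg => ?_⟩
  · have h1 : ∀ g : L.N₁, f g = 0 := by
      intro g
      have h2 := key g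
      rw [h0] at h2
      simp only [MonoidHom.one_apply, toAdd_one, Int.cast_zero] at h2
      rcases mul_eq_zero.1 h2.symm with h | h
      · exact absurd h hidx
      · exact h
    have h2 : f = 0 := VH_eq_zero hf hN fun m hm => h1 ⟨m, hm⟩
    refine MonoidHom.ext fun h => ?_
    have h3 := hfχ h
    rw [h2] at h3
    have h4 : (Multiplicative.toAdd (χ h) : ℤ) = 0 := by
      have : ((Multiplicative.toAdd (χ h) : ℤ) : ℝ) = 0 := h3.symm
      exact_mod_cast this
    exact h4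
  · have h2 := key g
    rw [hf.2.2 _ hg, mul_zero] at h2
    have h4 : (Multiplicative.toAdd (MonoidHom.transfer φ g) : ℤ) = 0 := by exact_mod_cast h2
    exact h4

end Len

end Vale.Agent.P151.GB
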