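import Vale.Agent.P151.GB.Cg
import Vale.Agent.P151.GB.VH

/-!
# P151, part (B): from virtual maps onto `ℤ` to virtual maps of rank two
-/

universe u v

open Filter Topology

namespace Vale.Agent.P151.GB

/-- the statement B1: virtual maps onto `ℤ` -/
def HomThm : Prop := ∀ (Γ : Type u) [Group Γ] (L : Len Γ) (D : ℕ), L.Proper → L.WG D → L.CG →
  Infinite (Γ ⧸ L.K) → ∃ (H : Subgroup Γ) (χ : H →* Multiplicative ℤ), H.FiniteIndex ∧
    Function.Surjective χ ∧ ∀ g : H, L.ℓ g = 0 → χ g = 1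

/-- the statement B3b: invariant homomorphisms -/
def InvThm : Prop := ∀ (Γ : Type u) [Group Γ] (L : Len Γ) (D : ℕ), L.Proper → L.WG D →
  ∀ (t : Γ) (N : Subgroup Γ), (∀ g ∈ N, t * g * t⁻¹ ∈ N) → (∀ g ∈ N, t⁻¹ * g * t ∈ N) →
  (L.restrict N).CG → ∀ χ : N →* Multiplicative ℤ, χ ≠ 1 → (∀ g : N, L.ℓ g = 0 → χ g = 1) →
  ∃ m : ℕ, 0 < m ∧ ∃ ψ : N →* Multiplicative ℤ, ψ ≠ 1 ∧ (∀ g : N, L.ℓ g = 0 → ψ g = 1) ∧
    ∀ g g' : N, (g' : Γ) = t ^ m * g * (t ^ m)⁻¹ → ψ g' = ψ g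

namespace Len

variable {Γ : Type u} [Group Γ] {L : Len Γ}

theorem zpow_conj_mem {N : Subgroup Γ} {t : Γ} (h1 : ∀ g ∈ N, t * g * t⁻¹ ∈ N)
    (h2 : ∀ g ∈ N, t⁻¹ * g * t ∈ N) (k : ℤ) : ∀ x ∈ N, t ^ k * x * (t ^ k)⁻¹ ∈ N := by
  intro x hx
  induction k using Int.induction_on with
  | zero => simpa using hx
  | succ k ih =>
    have e : t ^ ((k : ℤ) + 1) * x * (t ^ ((k : ℤ) + 1))⁻¹ =
        t * (t ^ (k : ℤ) * x * (t ^ (k : ℤ))⁻¹) * t⁻¹ := by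
      rw [zpow_add_one, (Commute.self_zpow t _).eq.symm]; group
    rw [e]
    exact h1 _ ih
  | pred k ih =>
    have e : t ^ (-(k : ℤ) - 1) * x * (t ^ (-(k : ℤ) - 1))⁻¹ =
        t⁻¹ * (t ^ (-(k : ℤ)) * x * (t ^ (-(k : ℤ)))⁻¹) * t := by
      rw [zpow_sub_one, (Commute.inv_left (Commute.self_zpow t _)).eq.symm]; group
    rw [e]
    exact h2 _ ih

/-- The subgroup `N ⋊ ⟨t ^ m⟩`. -/
def semi (N : Subgroup Γ) (t : Γ) (χ : Γ →* Multiplicative ℤ) (m : ℕ)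
    (h1 : ∀ g ∈ N, t * g * t⁻¹ ∈ N) (h2 : ∀ g ∈ N, t⁻¹ * g * t ∈ N) : Subgroup Γ where
  carrier := {g | (m : ℤ) ∣ Multiplicative.toAdd (χ g) ∧
    g * (t ^ (Multiplicative.toAdd (χ g)))⁻¹ ∈ N}
  one_mem' := by simp [one_mem]
  mul_mem' := by
    rintro a b ⟨ha1, ha2⟩ ⟨hb1, hb2⟩
    refine ⟨?_, ?_⟩
    · rw [map_mul, toAdd_mul]
      exact dvd_add ha1 hb1
    · have e : a * b * (t ^ (Multiplicative.toAdd (χ (a * b))))⁻¹ =
          (a * (t ^ (Multiplicative.toAdd (χ a)))⁻¹) *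
          (t ^ (Multiplicative.toAdd (χ a)) * (b * (t ^ (Multiplicative.toAdd (χ b)))⁻¹) *
            (t ^ (Multiplicative.toAdd (χ a)))⁻¹) := by
        rw [map_mul, toAdd_mul, zpow_add]; group
      rw [e]
      exact mul_mem ha2 (zpow_conj_mem h1 h2 _ _ hb2)
  inv_mem' := by
    rintro a ⟨ha1, ha2⟩
    refine ⟨?_, ?_⟩
    · rw [map_inv, toAdd_inv]
      exact (dvd_neg).2 ha1
    · have e : a⁻¹ * (t ^ (Multiplicative.toAdd (χ a⁻¹)))⁻¹ =
          t ^ (-Multiplicative.toAdd (χ a)) * (a * (t ^ (Multiplicative.toAdd (χ a)))⁻¹)⁻¹ *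
            (t ^ (-Multiplicative.toAdd (χ a)))⁻¹ := by
        rw [map_inv, toAdd_inv, zpow_neg]; group
      rw [e]
      exact zpow_conj_mem h1 h2 _ _ (inv_mem ha2)

section Semi

variable {N : Subgroup Γ} {t : Γ} {χ : Γ →* Multiplicative ℤ} {m : ℕ}
  {h1 : ∀ g ∈ N, t * g * t⁻¹ ∈ N} {h2 : ∀ g ∈ N, t⁻¹ * g * t ∈ N}

theorem mem_semi {g : Γ} : g ∈ semi N t χ m h1 h2 ↔ (m : ℤ) ∣ Multiplicative.toAdd (χ g) ∧
    g * (t ^ (Multiplicative.toAdd (χ g)))⁻¹ ∈ N := Iff.rfl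

theorem chi_zpow (ht : χ t = Multiplicative.ofAdd 1) (k : ℤ) :
    χ (t ^ k) = Multiplicative.ofAdd k := by
  rw [map_zpow, ht, ← ofAdd_zsmul, smul_eq_mul, mul_one]

theorem semi_finiteIndex (ht : χ t = Multiplicative.ofAdd 1) (hm : 0 < m)
    (hN : N ≤ χ.ker) (hNf : (N.subgroupOf χ.ker).FiniteIndex) :
    (semi N t χ m h1 h2).FiniteIndex := by
  classical
  have : Finite (χ.ker ⧸ N.subgroupOf χ.ker) := Subgroup.finite_quotient_of_finiteIndex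
  let F : (χ.ker ⧸ N.subgroupOf χ.ker) × Fin m → Γ ⧸ semi N t χ m h1 h2 := fun p =>
    (((p.1.out : χ.ker) : Γ) * t ^ (p.2 : ℕ) : Γ)
  have hF : Function.Surjective F := by
    intro x
    induction x using QuotientGroup.induction_on with
    | H g =>
      obtain ⟨a, ha⟩ : ∃ a : ℤ, a = Multiplicative.toAdd (χ g) := ⟨_, rfl⟩
      have hm' : (0 : ℤ) < m := by exact_mod_cast hm
      obtain ⟨j, hj⟩ : ∃ j : ℕ, (j : ℤ) = a % m := ⟨(a % m).toNat,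
        Int.toNat_of_nonneg (Int.emod_nonneg _ hm'.ne')⟩
      have hjm : j < m := by
        have := Int.emod_lt_of_pos a hm'
        rw [← hj] at this
        exact_mod_cast this
      have hq : a = m * (a / m) + j := by rw [hj]; exact (Int.mul_ediv_add_emod a m).symm
      have hnk : g * (t ^ a)⁻¹ ∈ χ.ker := by
        rw [MonoidHom.mem_ker, map_mul, map_inv, chi_zpow ht, ha]
        simp
      refine ⟨(((⟨g * (t ^ a)⁻¹, hnk⟩ : χ.ker) : χ.ker ⧸ N.subgroupOf χ.ker), ⟨j, hjm⟩), ?_⟩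
      obtain ⟨r, hr⟩ : ∃ r : χ.ker, r =
        ((⟨g * (t ^ a)⁻¹, hnk⟩ : χ.ker) : χ.ker ⧸ N.subgroupOf χ.ker).out := ⟨_, rfl⟩
      show (((((⟨g * (t ^ a)⁻¹, hnk⟩ : χ.ker) : χ.ker ⧸ N.subgroupOf χ.ker).out : χ.ker) : Γ) *
        t ^ j : Γ) = (g : Γ ⧸ semi N t χ m h1 h2)
      rw [← hr, QuotientGroup.eq]
      have h3 : (r : Γ)⁻¹ * (g * (t ^ a)⁻¹) ∈ N := by
        have h4 : ((r : χ.ker) : χ.ker ⧸ N.subgroupOf χ.ker) =
            ((⟨g * (t ^ a)⁻¹, hnk⟩ : χ.ker) : χ.ker ⧸ N.subgroupOf χ.ker) := by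
          rw [hr]
          exact QuotientGroup.out_eq' _
        have h5 := QuotientGroup.eq.1 h4
        exact h5
      have hχr : χ (r : Γ) = 1 := r.2
      have hχ : Multiplicative.toAdd (χ (((r : Γ) * t ^ j)⁻¹ * g)) = m * (a / m) := by
        have h6 : χ (t ^ j) = Multiplicative.ofAdd (j : ℤ) := by
          rw [← zpow_natCast, chi_zpow ht]
        have h8 : χ (((r : Γ) * t ^ j)⁻¹ * g) = (χ r * χ (t ^ j))⁻¹ * χ g := by
          rw [map_mul, map_inv, map_mul]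
        rw [h8, hχr, h6, one_mul, toAdd_mul, toAdd_inv, ← ha, toAdd_ofAdd]
        linarith
      rw [mem_semi, hχ]
      refine ⟨dvd_mul_right _ _, ?_⟩
      have h7 := zpow_conj_mem h1 h2 (-(j : ℤ)) _ h3
      have e : ((r : Γ) * t ^ j)⁻¹ * g * (t ^ ((m : ℤ) * (a / m)))⁻¹ =
          t ^ (-(j : ℤ)) * ((r : Γ)⁻¹ * (g * (t ^ a)⁻¹)) * (t ^ (-(j : ℤ)))⁻¹ := by
        have e1 : t ^ a = t ^ ((m : ℤ) * (a / m)) * t ^ j := by
          rw [← zpow_natCast t j, ← zpow_add, ← hq]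
        rw [e1, zpow_neg, zpow_natCast]
        group
      rw [e]
      exact h7
  have := Finite.of_surjective F hF
  exact Subgroup.finiteIndex_of_finite_quotient

/-- the extension of an invariant homomorphism -/
theorem exists_semi_hom (ψ : N →* Multiplicative ℤ)
    (hψ : ∀ g g' : N, (g' : Γ) = t ^ m * g * (t ^ m)⁻¹ → ψ g' = ψ g) :
    ∃ Ψ : semi N t χ m h1 h2 →* Multiplicative ℤ, ∀ (g : semi N t χ m h1 h2) (n : N),
      (n : Γ) = (g : Γ) * (t ^ (Multiplicative.toAdd (χ g)))⁻¹ → Ψ g = ψ n := by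
  have hinv : ∀ k : ℕ, ∀ g g' : N, (g' : Γ) = t ^ (m * k) * g * (t ^ (m * k))⁻¹ → ψ g' = ψ g := by
    intro k
    induction k with
    | zero =>
      intro g g' h
      have : g' = g := Subtype.ext (by simpa using h)
      rw [this]
    | succ k ih =>
      intro g g' h
      have hmem : t ^ (m * k) * (g : Γ) * (t ^ (m * k))⁻¹ ∈ N := by
        have := zpow_conj_mem h1 h2 ((m * k : ℕ) : ℤ) g g.2
        rwa [zpow_natCast] at this
      have e1 := ih g ⟨_, hmem⟩ rfl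
      rw [← e1]
      refine hψ _ _ ?_
      rw [h]
      show _ = t ^ m * (t ^ (m * k) * (g : Γ) * (t ^ (m * k))⁻¹) * (t ^ m)⁻¹
      rw [mul_add, mul_one, add_comm, pow_add]
      group
  have hinvz : ∀ a : ℤ, (m : ℤ) ∣ a → ∀ g g' : N, (g' : Γ) = t ^ a * g * (t ^ a)⁻¹ →
      ψ g' = ψ g := by
    rintro _ ⟨k, rfl⟩ g g' h
    obtain ⟨n, rfl | rfl⟩ := k.eq_nat_or_neg
    · refine hinv n g g' ?_
      rw [h, ← Nat.cast_mul, zpow_natCast]
    · refine (hinv n g' g ?_).symm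
      rw [h, mul_neg, zpow_neg, ← Nat.cast_mul, zpow_natCast]
      group
  let P : semi N t χ m h1 h2 → N := fun g => ⟨_, g.2.2⟩
  refine ⟨{ toFun := fun g => ψ (P g)
            map_one' := ?_
            map_mul' := fun a b => ?_ }, fun g n hn => ?_⟩
  · have : P 1 = 1 := Subtype.ext (by
      show ((1 : semi N t χ m h1 h2) : Γ) *
        (t ^ (Multiplicative.toAdd (χ ((1 : semi N t χ m h1 h2) : Γ))))⁻¹ = ((1 : N) : Γ)
      simp)
    rw [this, map_one]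
  · have hmem : t ^ (Multiplicative.toAdd (χ (a : Γ))) * ((P b : N) : Γ) *
        (t ^ (Multiplicative.toAdd (χ (a : Γ))))⁻¹ ∈ N := zpow_conj_mem h1 h2 _ _ (P b).2
    have e1 : P (a * b) = P a * ⟨_, hmem⟩ := Subtype.ext (by
      show ((a * b : semi N t χ m h1 h2) : Γ) *
          (t ^ (Multiplicative.toAdd (χ ((a * b : semi N t χ m h1 h2) : Γ))))⁻¹ =
        ((a : Γ) * (t ^ (Multiplicative.toAdd (χ (a : Γ))))⁻¹) *
          (t ^ (Multiplicative.toAdd (χ (a : Γ))) *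
            ((b : Γ) * (t ^ (Multiplicative.toAdd (χ (b : Γ))))⁻¹) *
            (t ^ (Multiplicative.toAdd (χ (a : Γ))))⁻¹)
      rw [Subgroup.coe_mul, map_mul, toAdd_mul, zpow_add]
      group)
    rw [e1, map_mul, hinvz _ a.2.1 (P b) ⟨_, hmem⟩ rfl]
  · show ψ (P g) = ψ n
    congr 1
    exact Subtype.ext hn.symm

end Semi

/-- the rank two alternative for a group with a homomorphism onto `ℤ` -/
theorem rank2_aux (hB1 : HomThm.{u}) (hInv : InvThm.{u}) {D : ℕ} (hp : L.Proper) (hw : L.WG D)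
    (hc : L.CG) (χ : Γ →* Multiplicative ℤ) (hs : Function.Surjective χ)
    (hk : ∀ g, L.ℓ g = 0 → χ g = 1) (hinf : Infinite (χ.ker ⧸ (L.restrict χ.ker).K)) :
    ∃ (H : Subgroup Γ) (ψ : H →* Multiplicative ℤ), H.FiniteIndex ∧
      (∀ g : H, L.ℓ g = 0 → ψ g = 1) ∧ ∃ a b : H, Multiplicative.toAdd (χ a) *
        Multiplicative.toAdd (ψ b) - Multiplicative.toAdd (χ b) * Multiplicative.toAdd (ψ a) ≠ 0 := by
  obtain ⟨t, ht⟩ := hs (Multiplicative.ofAdd 1)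
  have hp' : (L.restrict χ.ker).Proper := hp.restrict _
  have hw' : (L.restrict χ.ker).WG D := hw.restrict hp _
  have hc' : (L.restrict χ.ker).CG := cg_ker hp hw hc χ hs hk
  obtain ⟨H₂, χ₂, hH₂, hs₂, hk₂⟩ := hB1 χ.ker (L.restrict χ.ker) D hp' hw' hc' hinf
  have hχ₂ : χ₂ ≠ 1 := by
    intro h
    obtain ⟨x, hx⟩ := hs₂ (Multiplicative.ofAdd 1)
    rw [h] at hx
    have h2 : (0 : ℤ) = 1 := congrArg Multiplicative.toAdd hx
    omega
  obtain ⟨ψ₀, hψ₀, hkψ₀⟩ := exists_hom_N₁ hp' hw' H₂ hH₂ χ₂ hχ₂ hk₂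
  have hN₁f : (L.restrict χ.ker).N₁.FiniteIndex := N₁_finiteIndex hp' hw'
  obtain ⟨N, hN⟩ : ∃ N : Subgroup Γ, N = (L.restrict χ.ker).N₁.map χ.ker.subtype := ⟨_, rfl⟩
  have hmemN : ∀ {g : Γ}, g ∈ N ↔ ∃ h : χ.ker, h ∈ (L.restrict χ.ker).N₁ ∧ (h : Γ) = g := by
    intro g
    rw [hN, Subgroup.mem_map]
    rfl
  have hNk : N ≤ χ.ker := by
    intro g hg
    obtain ⟨h, -, rfl⟩ := hmemN.1 hg
    exact h.2
  have h1 : ∀ g ∈ N, t * g * t⁻¹ ∈ N := by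
    intro g hg
    obtain ⟨h, hh, rfl⟩ := hmemN.1 hg
    refine hmemN.2 ⟨_, N₁_conj hp χ.ker t h hh, ?_⟩
    rw [MulAut.conjNormal_apply]
  have h2 : ∀ g ∈ N, t⁻¹ * g * t ∈ N := by
    intro g hg
    obtain ⟨h, hh, rfl⟩ := hmemN.1 hg
    refine hmemN.2 ⟨_, N₁_conj hp χ.ker t⁻¹ h hh, ?_⟩
    rw [MulAut.conjNormal_apply, inv_inv]
  have hcN : (L.restrict N).CG := by
    have h3 := CG.restrict hc' (L.restrict χ.ker).N₁
    rw [restrict_cg_iff] at h3 ⊢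
    obtain ⟨R, hR⟩ := h3
    refine ⟨R, ?_⟩
    have h4 : (Subgroup.closure {g : χ.ker | g ∈ (L.restrict χ.ker).N₁ ∧
        (L.restrict χ.ker).ℓ g ≤ R}).map χ.ker.subtype = N := by rw [hR, hN]
    rw [MonoidHom.map_closure] at h4
    rw [← h4]
    congr 1
    ext g
    constructor
    · rintro ⟨hg1, hg2⟩
      rw [h4] at hg1
      obtain ⟨h, hh, rfl⟩ := hmemN.1 hg1
      exact ⟨h, ⟨hh, hg2⟩, rfl⟩
    · rintro ⟨h, ⟨hh1, hh2⟩, rfl⟩
      refine ⟨?_, hh2⟩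
      rw [h4]
      exact hmemN.2 ⟨h, hh1, rfl⟩
  -- the homomorphism on `N`
  have hlift : ∀ g : N, ∃ h : (L.restrict χ.ker).N₁, ((h : χ.ker) : Γ) = g := by
    intro g
    obtain ⟨h, hh, he⟩ := hmemN.1 g.2
    exact ⟨⟨h, hh⟩, he⟩
  choose lf hlf using hlift
  let ψ₁ : N →* Multiplicative ℤ :=
    { toFun := fun g => ψ₀ (lf g)
      map_one' := by
        have : lf 1 = 1 := Subtype.ext (Subtype.ext (hlf 1))
        rw [this, map_one]
      map_mul' := fun a b => by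
        have : lf (a * b) = lf a * lf b := Subtype.ext (Subtype.ext (by
          rw [hlf]
          show (a : Γ) * b = ((lf a : χ.ker) : Γ) * ((lf b : χ.ker) : Γ)
          rw [hlf, hlf]))
        rw [this, map_mul] }
  have hψ₁ : ψ₁ ≠ 1 := by
    intro h
    refine hψ₀ (MonoidHom.ext fun x => ?_)
    have hx : ((x : χ.ker) : Γ) ∈ N := hmemN.2 ⟨_, x.2, rfl⟩
    have h3 : lf ⟨_, hx⟩ = x := Subtype.ext (Subtype.ext (hlf ⟨_, hx⟩))
    have h4 : ψ₁ ⟨_, hx⟩ = 1 := by rw [h]; rfl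
    have h5 : ψ₁ ⟨_, hx⟩ = ψ₀ (lf ⟨_, hx⟩) := rfl
    rw [h5, h3] at h4
    exact h4
  have hkψ₁ : ∀ g : N, L.ℓ g = 0 → ψ₁ g = 1 := by
    intro g hg
    refine hkψ₀ _ ?_
    show L.ℓ (((lf g : (L.restrict χ.ker).N₁) : χ.ker) : Γ) = 0
    rw [hlf]
    exact hg
  obtain ⟨m, hm, ψ, hψ, hkψ, hinvψ⟩ := hInv Γ L D hp hw t N h1 h2 hcN ψ₁ hψ₁ hkψ₁
  obtain ⟨Ψ, hΨ⟩ := exists_semi_hom (χ := χ) (h1 := h1) (h2 := h2) ψ hinvψ
  have hNf : (N.subgroupOf χ.ker).FiniteIndex := by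
    have : N.subgroupOf χ.ker = (L.restrict χ.ker).N₁ := by
      rw [hN]
      exact Subgroup.comap_map_eq_self_of_injective χ.ker.subtype_injective _
    rw [this]
    exact hN₁f
  have hNs : ∀ n : N, (n : Γ) ∈ semi N t χ m h1 h2 := by
    intro n
    have h3 : χ (n : Γ) = 1 := hNk n.2
    rw [mem_semi, h3]
    simp
  refine ⟨semi N t χ m h1 h2, Ψ, semi_finiteIndex ht hm hNk hNf, fun g hg => ?_, ?_⟩
  · have h3 : χ (g : Γ) = 1 := hk _ hg
    have hgN : (g : Γ) ∈ N := by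
      have := g.2.2
      rw [h3] at this
      simpa using this
    rw [hΨ g ⟨g, hgN⟩ (by rw [h3]; simp)]
    exact hkψ ⟨g, hgN⟩ hg
  · obtain ⟨n, hn⟩ : ∃ n : N, ψ n ≠ 1 := by
      by_contra hcon
      push Not at hcon
      exact hψ (MonoidHom.ext hcon)
    have htm : t ^ m ∈ semi N t χ m h1 h2 := by
      have h3 : χ (t ^ m) = Multiplicative.ofAdd (m : ℤ) := by
        rw [← zpow_natCast, chi_zpow ht]
      rw [mem_semi, h3, toAdd_ofAdd, zpow_natCast, mul_inv_cancel]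
      exact ⟨dvd_rfl, one_mem _⟩
    refine ⟨⟨t ^ m, htm⟩, ⟨n, hNs n⟩, ?_⟩
    have h3 : χ (t ^ m) = Multiplicative.ofAdd (m : ℤ) := by
      rw [← zpow_natCast, chi_zpow ht]
    have h4 : χ (n : Γ) = 1 := hNk n.2
    have h5 : Ψ ⟨n, hNs n⟩ = ψ n := hΨ _ n (by rw [h4]; simp)
    rw [h5]
    show Multiplicative.toAdd (χ (t ^ m)) * Multiplicative.toAdd (ψ n) -
      Multiplicative.toAdd (χ (n : Γ)) * _ ≠ 0
    rw [h3, h4, toAdd_one, zero_mul, sub_zero, toAdd_ofAdd]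
    refine mul_ne_zero (by exact_mod_cast hm.ne') ?_
    intro h6
    exact hn h6

/-- **The rank two alternative.** -/
theorem rank2 (hB1 : HomThm.{u}) (hInv : InvThm.{u}) {D : ℕ} (hp : L.Proper) (hw : L.WG D)
    (hc : L.CG) (hinf : Infinite (Γ ⧸ L.K)) :
    (∃ (H : Subgroup Γ) (χ : H →* Multiplicative ℤ), H.FiniteIndex ∧ Function.Surjective χ ∧
      (∀ g : H, L.ℓ g = 0 → χ g = 1) ∧
      {x : Γ ⧸ L.K | ∃ g : H, χ g = 1 ∧ ((g : Γ) : Γ ⧸ L.K) = x}.Finite) ∨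
    ∃ (H : Subgroup Γ) (χ ψ : H →* Multiplicative ℤ), H.FiniteIndex ∧
      (∀ g : H, L.ℓ g = 0 → χ g = 1) ∧ (∀ g : H, L.ℓ g = 0 → ψ g = 1) ∧
      ∃ a b : H, Multiplicative.toAdd (χ a) * Multiplicative.toAdd (ψ b) -
        Multiplicative.toAdd (χ b) * Multiplicative.toAdd (ψ a) ≠ 0 := by
  obtain ⟨H, χ, hH, hs, hk⟩ := hB1 Γ L D hp hw hc hinf
  by_cases hfin : Finite (χ.ker ⧸ ((L.restrict H).restrict χ.ker).K)
  · refine Or.inl ⟨H, χ, hH, hs, hk, ?_⟩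
    refine (Set.finite_range (fun x : χ.ker ⧸ ((L.restrict H).restrict χ.ker).K =>
      L.ιH H ((L.restrict H).ιH χ.ker x))).subset ?_
    rintro _ ⟨g, hg, rfl⟩
    exact ⟨((⟨g, hg⟩ : χ.ker) : χ.ker ⧸ ((L.restrict H).restrict χ.ker).K), rfl⟩
  · right
    have hinf' : Infinite (χ.ker ⧸ ((L.restrict H).restrict χ.ker).K) :=
      not_finite_iff_infinite.1 hfin
    obtain ⟨H', ψ, hH', hkψ, a, b, hab⟩ := rank2_aux hB1 hInv (hp.restrict H) (hw.restrict hp H)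
      (CG.restrict hc H) χ hs hk hinf'
    have hinj := H.subtype_injective
    let e := H'.equivMapOfInjective H.subtype hinj
    have he : ∀ x : H', ((e x : H'.map H.subtype) : Γ) = ((x : H) : Γ) := fun x => rfl
    have he' : ∀ x : H'.map H.subtype, (((e.symm x : H') : H) : Γ) = x := fun x => by
      rw [← he, MulEquiv.apply_symm_apply]
    refine ⟨H'.map H.subtype, (χ.comp H'.subtype).comp e.symm.toMonoidHom,
      ψ.comp e.symm.toMonoidHom, ?_, fun g hg => ?_, fun g hg => ?_, e a, e b, ?_⟩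
    · refine ⟨?_⟩
      have h3 : (H'.map H.subtype).subgroupOf H = H' :=
        Subgroup.comap_map_eq_self_of_injective hinj _
      have h4 : H'.map H.subtype ≤ H := Subgroup.map_subtype_le _
      rw [← Subgroup.relIndex_mul_index h4]
      refine mul_ne_zero ?_ hH.index_ne_zero
      rw [Subgroup.relIndex, h3]
      exact hH'.index_ne_zero
    · refine hk _ ?_
      show L.ℓ (((e.symm g : H') : H) : Γ) = 0
      rw [he']
      exact hg
    · refine hkψ _ ?_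
      show L.ℓ (((e.symm g : H') : H) : Γ) = 0
      rw [he']
      exact hg
    · simpa using hab

end Len

end Vale.Agent.P151.GB
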