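import Vale.Agent.P151.GB.W2b

/-!
P151, part (B), piece W2: on an infinite transitive graph of weak polynomial growth there is a
nonconstant harmonic map to a Hilbert space, equivariant for an affine isometric action of the
whole group.
-/

open Filter Topology

namespace Vale.Agent.P151.GB.W2

universe u v

section Completion

variable {Γ : Type u} [Group Γ] {X₀ : Type v}

/-- An isometric representation on a semi-inner product space extends to the completion. -/
theorem completion_rep [SeminormedAddCommGroup X₀] [InnerProductSpace ℝ X₀]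
    (ρ : Γ → X₀ →ₗᵢ[ℝ] X₀) (h1 : ∀ x, ρ 1 x = x)
    (hmul : ∀ g h x, ρ (g * h) x = ρ g (ρ h x)) :
    ∃ (E : Type v) (_ : NormedAddCommGroup E) (_ : InnerProductSpace ℝ E)
      (_ : CompleteSpace E) (π : Γ →* (E ≃ₗᵢ[ℝ] E)) (j : X₀ →ₗ[ℝ] E),
      (∀ g x, π g (j x) = j (ρ g x)) ∧ (∀ x, ‖j x‖ = ‖x‖) := by
  let C : Γ → UniformSpace.Completion X₀ →L[ℝ] UniformSpace.Completion X₀ :=
    fun h => (ρ h).toContinuousLinearMap.completion
  have hC : ∀ h (x : X₀), C h (x : UniformSpace.Completion X₀) = ((ρ h x : X₀) : _) := fun h x =>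
    ContinuousLinearMap.completion_apply_coe _ _
  have hC1 : ∀ x, C 1 x = x := fun x => by
    induction x using UniformSpace.Completion.induction_on with
    | hp => exact isClosed_eq (C 1).continuous continuous_id
    | ih x => rw [hC, h1]
  have hCmul : ∀ g h x, C (g * h) x = C g (C h x) := fun g h x => by
    induction x using UniformSpace.Completion.induction_on with
    | hp => exact isClosed_eq (C _).continuous ((C g).continuous.comp (C h).continuous)
    | ih x => rw [hC, hC, hC, hmul]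
  have hCn : ∀ h x, ‖C h x‖ = ‖x‖ := fun h x => by
    induction x using UniformSpace.Completion.induction_on with
    | hp => exact isClosed_eq (C h).continuous.norm continuous_norm
    | ih x => rw [hC, UniformSpace.Completion.norm_coe, UniformSpace.Completion.norm_coe,
        LinearIsometry.norm_map]
  have hinv1 : ∀ h x, C h (C h⁻¹ x) = x := fun h x => by
    rw [← hCmul, mul_inv_cancel, hC1]
  have hinv2 : ∀ h x, C h⁻¹ (C h x) = x := fun h x => by
    rw [← hCmul, inv_mul_cancel, hC1]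
  let E : Γ → UniformSpace.Completion X₀ ≃ₗᵢ[ℝ] UniformSpace.Completion X₀ := fun h =>
    { toLinearEquiv := LinearEquiv.ofLinearMap (C h).toLinearMap (C h⁻¹).toLinearMap
        (LinearMap.ext fun x => hinv1 h x) (LinearMap.ext fun x => hinv2 h x)
      norm_map' := fun x => hCn h x }
  have hE : ∀ h x, E h x = C h x := fun h x => rfl
  let π : Γ →* (UniformSpace.Completion X₀ ≃ₗᵢ[ℝ] UniformSpace.Completion X₀) :=
    { toFun := E
      map_one' := LinearIsometryEquiv.ext fun x => by rw [hE, hC1]; rfl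
      map_mul' := fun g h => LinearIsometryEquiv.ext fun x => by
        rw [hE, hCmul]; rfl }
  let j : X₀ →ₗ[ℝ] UniformSpace.Completion X₀ :=
    { toFun := fun x => (x : UniformSpace.Completion X₀)
      map_add' := fun x y => UniformSpace.Completion.coe_add _ _
      map_smul' := fun r x => UniformSpace.Completion.coe_smul r x }
  exact ⟨UniformSpace.Completion X₀, inferInstance, inferInstance, inferInstance, π, j,
    fun g x => hC g x, fun x => UniformSpace.Completion.norm_coe _⟩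

/-- The same for a positive semidefinite form. -/
theorem core_rep [AddCommGroup X₀] [Module ℝ X₀] (c : PreInnerProductSpace.Core ℝ X₀)
    (ρ : Γ → X₀ →ₗ[ℝ] X₀) (h1 : ∀ x, ρ 1 x = x)
    (hmul : ∀ g h x, ρ (g * h) x = ρ g (ρ h x))
    (hρ : ∀ h x, c.inner (ρ h x) (ρ h x) = c.inner x x) :
    ∃ (E : Type v) (_ : NormedAddCommGroup E) (_ : InnerProductSpace ℝ E)
      (_ : CompleteSpace E) (π : Γ →* (E ≃ₗᵢ[ℝ] E)) (j : X₀ →ₗ[ℝ] E),
      (∀ g x, π g (j x) = j (ρ g x)) ∧ (∀ x, ‖j x‖ ^ 2 = c.inner x x) := by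
  let i1 : SeminormedAddCommGroup X₀ :=
    @InnerProductSpace.Core.toSeminormedAddCommGroup ℝ X₀ _ _ _ c
  let i2 : InnerProductSpace ℝ X₀ := InnerProductSpace.ofCore c
  have hnorm : ∀ x : X₀, ‖x‖ ^ 2 = c.inner x x := fun x => by
    rw [← real_inner_self_eq_norm_sq]
  obtain ⟨E, j1, j2, j3, π, j, hj, hn⟩ := completion_rep (X₀ := X₀)
    (fun h => { toLinearMap := ρ h
                norm_map' := fun x => by
                  have h2 : ‖ρ h x‖ ^ 2 = ‖x‖ ^ 2 := by rw [hnorm, hnorm, hρ]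
                  exact (pow_left_inj₀ (norm_nonneg _) (norm_nonneg _) two_ne_zero).1 h2 })
    h1 hmul
  exact ⟨E, j1, j2, j3, π, j, fun g x => hj g x, fun x => by rw [hn, hnorm]⟩

end Completion

section Ulim

/-- Ultrafilter limit of a sequence. -/
noncomputable def ulim (a : ℕ → ℝ) : ℝ := limUnder (hyperfilter ℕ : Filter ℕ) a

theorem tendsto_ulim {a : ℕ → ℝ} {M : ℝ} (ha : ∀ n, |a n| ≤ M) :
    Tendsto a (hyperfilter ℕ : Filter ℕ) (𝓝 (ulim a)) := by
  have h1 : IsCompact (Set.Icc (-M) M) := isCompact_Icc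
  have h2 : ((hyperfilter ℕ).map a : Filter ℝ) ≤ 𝓟 (Set.Icc (-M) M) := by
    rw [le_principal_iff, Ultrafilter.coe_map, mem_map]
    exact Filter.univ_mem' fun n => abs_le.mp (ha n)
  obtain ⟨x, -, hx⟩ := h1.ultrafilter_le_nhds _ h2
  exact tendsto_nhds_limUnder ⟨x, hx⟩

theorem ulim_eq {a : ℕ → ℝ} {x : ℝ} (h : Tendsto a (hyperfilter ℕ : Filter ℕ) (𝓝 x)) :
    ulim a = x := h.limUnder_eq

end Ulim

section Main

variable {Γ : Type u} {V : Type v} [Group Γ] [MulAction Γ V] (T : TG Γ V)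

/-- the normalised forms -/
noncomputable def Qk (k : ℕ) : (V →₀ ℝ) →ₗ[ℝ] (V →₀ ℝ) →ₗ[ℝ] ℝ :=
  (Ak T k)⁻¹ • ip.compl₁₂ (P T.nb T.deg ^ k) (P T.nb T.deg ^ k)

theorem Qk_apply (k : ℕ) (f g : V →₀ ℝ) : Qk T k f g =
    (Ak T k)⁻¹ * ip ((P T.nb T.deg ^ k) f) ((P T.nb T.deg ^ k) g) := rfl

theorem Qk_comm (k : ℕ) (f g : V →₀ ℝ) : Qk T k f g = Qk T k g f := by
  rw [Qk_apply, Qk_apply, ip_comm]

theorem Qk_nonneg (k : ℕ) (f : V →₀ ℝ) : 0 ≤ Qk T k f f :=
  mul_nonneg (inv_nonneg.2 (Ak_nonneg T k)) (ip_nonneg _)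

theorem Qk_abs (k : ℕ) (f g : V →₀ ℝ) : |Qk T k f g| ≤ Qk T k f f + Qk T k g g := by
  have h1 := Qk_nonneg T k (f + g)
  have h2 := Qk_nonneg T k (f - g)
  have h3 := Qk_nonneg T k f
  have h4 := Qk_nonneg T k g
  simp only [map_add, map_sub, LinearMap.add_apply, LinearMap.sub_apply] at h1 h2
  rw [Qk_comm T k g f] at h1 h2
  rw [abs_le]
  constructor <;> linarith

theorem Qk_tr (k : ℕ) (g : Γ) (f f' : V →₀ ℝ) : Qk T k (tr g f) (tr g f') = Qk T k f f' := by
  rw [Qk_apply, Qk_apply, Pk_tr, Pk_tr, ip_tr]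

/-- functions with bounded normalised energy -/
noncomputable def X0 : Submodule ℝ (V →₀ ℝ) where
  carrier := {f | ∃ M : ℝ, ∀ k, Qk T k f f ≤ M}
  add_mem' := by
    rintro f g ⟨M, hM⟩ ⟨M', hM'⟩
    refine ⟨2 * M + 2 * M', fun k => ?_⟩
    have h1 := Qk_nonneg T k (f - g)
    have h2 := hM k
    have h3 := hM' k
    simp only [map_add, map_sub, LinearMap.add_apply, LinearMap.sub_apply] at h1 ⊢
    linarith
  zero_mem' := ⟨0, fun k => by simp⟩
  smul_mem' := by
    rintro a f ⟨M, hM⟩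
    refine ⟨a ^ 2 * M, fun k => ?_⟩
    simp only [map_smul, LinearMap.smul_apply, smul_eq_mul]
    have := mul_le_mul_of_nonneg_left (hM k) (sq_nonneg a)
    linarith

theorem X0_bdd {f g : V →₀ ℝ} (hf : f ∈ X0 T) (hg : g ∈ X0 T) :
    ∃ M : ℝ, ∀ k, |Qk T k f g| ≤ M := by
  obtain ⟨M, hM⟩ := hf
  obtain ⟨M', hM'⟩ := hg
  exact ⟨M + M', fun k => (Qk_abs T k f g).trans (add_le_add (hM k) (hM' k))⟩

theorem diff_Qk [Infinite V] {v z : V} {n : ℕ} (h : z ∈ T.ball v n) (k : ℕ) :
    Qk T k (Finsupp.single z 1 - Finsupp.single v 1)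
      (Finsupp.single z 1 - Finsupp.single v 1) ≤ n ^ 2 * (2 * T.deg) := by
  have h1 := pow_le_pow_left₀ (Real.sqrt_nonneg _) (path_le T k h) 2
  have hA := Ak_pos T k
  rw [Real.sq_sqrt (ip_nonneg _), mul_pow, Real.sq_sqrt (by positivity)] at h1
  rw [Qk_apply, map_sub, inv_mul_le_iff₀ hA]
  refine h1.trans (le_of_eq ?_)
  ring

theorem ball_any (v z : V) : ∃ n, z ∈ T.ball v n := by
  obtain ⟨m, hm⟩ := exists_mem_ball T v
  obtain ⟨n, hn⟩ := exists_mem_ball T z
  exact ⟨m + n, ball_trans T (ball_symm T hm) hn⟩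

theorem diff_mem [Infinite V] (v z : V) :
    (Finsupp.single z 1 - Finsupp.single v 1 : V →₀ ℝ) ∈ X0 T := by
  obtain ⟨n, hn⟩ := ball_any T v z
  exact ⟨_, fun k => diff_Qk T hn k⟩

/-- **A harmonic equivariant map.** -/
theorem exists_harmonic [Infinite V] {D : ℕ} (hG : T.WG D) :
    ∃ (E : Type v) (_ : NormedAddCommGroup E) (_ : InnerProductSpace ℝ E)
      (_ : CompleteSpace E) (π : Γ →* (E ≃ₗᵢ[ℝ] E)) (F : V → E),
      (∀ g x y, F (g • x) - F (g • y) = π g (F x - F y)) ∧ F T.o = 0 ∧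
      (∀ x, ∑ y ∈ T.nb x, (F y - F x) = 0) ∧ ∃ y ∈ T.nb T.o, F y ≠ 0 := by
  let c : PreInnerProductSpace.Core ℝ (X0 T) :=
    { inner := fun x y => ulim (fun k => Qk T k (x : V →₀ ℝ) (y : V →₀ ℝ))
      conj_inner_symm := fun x y => by
        show ulim _ = ulim _
        congr 1
        funext k
        exact Qk_comm T k _ _
      re_inner_nonneg := fun x => by
        obtain ⟨M, hM⟩ := X0_bdd T x.2 x.2
        exact ge_of_tendsto (tendsto_ulim hM) (Eventually.of_forall fun k => Qk_nonneg T k _)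
      add_left := fun x y z => by
        obtain ⟨M, hM⟩ := X0_bdd T x.2 z.2
        obtain ⟨M', hM'⟩ := X0_bdd T y.2 z.2
        refine ulim_eq ?_
        have h := (tendsto_ulim hM).add (tendsto_ulim hM')
        refine h.congr fun k => ?_
        rw [Submodule.coe_add, map_add, LinearMap.add_apply]
      smul_left := fun x y r => by
        show ulim _ = r * ulim _
        obtain ⟨M, hM⟩ := X0_bdd T x.2 y.2
        refine ulim_eq ?_
        refine ((tendsto_ulim hM).const_mul r).congr fun k => ?_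
        rw [Submodule.coe_smul, map_smul, LinearMap.smul_apply, smul_eq_mul] }
  have htr : ∀ (g : Γ) (f : V →₀ ℝ), f ∈ X0 T → tr g f ∈ X0 T := by
    rintro g f ⟨M, hM⟩
    exact ⟨M, fun k => by rw [Qk_tr]; exact hM k⟩
  let ρ : Γ → X0 T →ₗ[ℝ] X0 T := fun g => (tr g).restrict (htr g)
  obtain ⟨E, j1, j2, j3, π, j, hj, hn⟩ := core_rep c ρ
    (fun x => Subtype.ext (tr_one _))
    (fun g h x => Subtype.ext (tr_mul g h _))
    (fun g x => by
      show ulim _ = ulim _
      congr 1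
      funext k
      exact Qk_tr T k g _ _)
  let F : V → E := fun v => j ⟨Finsupp.single v 1 - Finsupp.single T.o 1, diff_mem T T.o v⟩
  have hF : ∀ x y, F x - F y = j ⟨Finsupp.single x 1 - Finsupp.single y 1, diff_mem T y x⟩ := by
    intro x y
    show j _ - j _ = _
    rw [← map_sub]
    congr 1
    refine Subtype.ext ?_
    show (Finsupp.single x 1 - Finsupp.single T.o 1 : V →₀ ℝ) -
      (Finsupp.single y 1 - Finsupp.single T.o 1) = _
    exact sub_sub_sub_cancel_right _ _ _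
  refine ⟨E, j1, j2, j3, π, F, ?_, ?_, ?_, ?_⟩
  · intro g x y
    rw [hF, hF, hj]
    congr 1
    refine Subtype.ext ?_
    show (Finsupp.single (g • x) 1 - Finsupp.single (g • y) 1 : V →₀ ℝ) =
      tr g (Finsupp.single x 1 - Finsupp.single y 1)
    rw [map_sub, tr_single, tr_single]
  · have h := hF T.o T.o
    rw [sub_self] at h
    have h0 : F T.o = j ⟨Finsupp.single T.o 1 - Finsupp.single T.o 1, diff_mem T T.o T.o⟩ := rfl
    rw [h0, ← h]
  · intro x
    simp only [hF]
    rw [← map_sum, ← norm_eq_zero, ← sq_eq_zero_iff, hn]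
    have e1 : ((∑ y ∈ T.nb x, (⟨Finsupp.single y 1 - Finsupp.single x 1, diff_mem T x y⟩ : X0 T) :
        X0 T) : V →₀ ℝ) = ∑ y ∈ T.nb x, (Finsupp.single y 1 - Finsupp.single x 1) := by
      rw [Submodule.coe_sum]
    show ulim (fun k => Qk T k ((∑ y ∈ T.nb x, (⟨Finsupp.single y 1 - Finsupp.single x 1,
      diff_mem T x y⟩ : X0 T) : X0 T) : V →₀ ℝ) ((∑ y ∈ T.nb x, (⟨Finsupp.single y 1 -
      Finsupp.single x 1, diff_mem T x y⟩ : X0 T) : X0 T) : V →₀ ℝ)) = 0
    rw [e1]
    refine ulim_eq ?_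
    have hm : (0 : ℝ) < T.deg := by exact_mod_cast deg_pos T
    have e2 : ∀ k, (P T.nb T.deg ^ k) (∑ y ∈ T.nb x, (Finsupp.single y 1 - Finsupp.single x 1)) =
        (-(T.deg : ℝ)) • gk T k x := by
      intro k
      rw [map_sum]
      simp only [map_sub]
      rw [Finset.sum_sub_distrib, Finset.sum_const, (ns T).card]
      have h1 := sum_fk T k x
      unfold fk at h1
      rw [h1, gk, ← Nat.cast_smul_eq_nsmul ℝ, smul_sub, neg_smul, neg_smul]
      unfold fk
      abel
    have e3 : ∀ k, Qk T k (∑ y ∈ T.nb x, (Finsupp.single y 1 - Finsupp.single x 1))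
        (∑ y ∈ T.nb x, (Finsupp.single y 1 - Finsupp.single x 1)) =
        (T.deg : ℝ) ^ 2 * ((Ak T k)⁻¹ * ip (gk T k x) (gk T k x)) := by
      intro k
      rw [Qk_apply, e2, map_smul, map_smul, LinearMap.smul_apply, smul_eq_mul, smul_eq_mul]
      ring
    have h3 : Tendsto (fun k => (T.deg : ℝ) ^ 2 * ((Ak T k)⁻¹ * ip (gk T k x) (gk T k x)))
        atTop (𝓝 0) := by
      rw [Metric.tendsto_atTop]
      intro ε hε
      obtain ⟨η, hη⟩ : ∃ η : ℝ, η = ε / (T.deg : ℝ) ^ 3 := ⟨_, rfl⟩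
      have hη0 : 0 < η := by rw [hη]; positivity
      obtain ⟨k0, hk0⟩ := eventually_atTop.1 (Ak_ratio T hG hη0)
      refine ⟨k0, fun k hk => ?_⟩
      have h4 := hk0 k hk
      have h5 := gk_le T k x
      have hA := Ak_pos T k
      have h6 : 0 ≤ ip (gk T k x) (gk T k x) := ip_nonneg _
      rw [Real.dist_0_eq_abs, abs_of_nonneg (by positivity)]
      have h7 : 2 * (T.deg : ℝ)⁻¹ * ip (gk T k x) (gk T k x) ≤ η * Ak T k := by linarith
      have h8 : ip (gk T k x) (gk T k x) ≤ T.deg / 2 * (η * Ak T k) := by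
        have := mul_le_mul_of_nonneg_left h7 (by positivity : (0 : ℝ) ≤ T.deg / 2)
        refine le_trans (le_of_eq ?_) this
        field_simp
      have h9 : (Ak T k)⁻¹ * ip (gk T k x) (gk T k x) ≤ T.deg / 2 * η := by
        rw [inv_mul_le_iff₀ hA]
        linarith
      calc (T.deg : ℝ) ^ 2 * ((Ak T k)⁻¹ * ip (gk T k x) (gk T k x)) ≤
          (T.deg : ℝ) ^ 2 * (T.deg / 2 * η) := mul_le_mul_of_nonneg_left h9 (by positivity)
        _ = ε / 2 := by rw [hη]; field_simp
        _ < ε := by linarith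
    exact ((tendsto_congr e3).2 h3).mono_left Nat.hyperfilter_le_atTop
  · by_contra hcon
    push Not at hcon
    have hm : (0 : ℝ) < T.deg := by exact_mod_cast deg_pos T
    have h2 : ∀ y ∈ T.nb T.o, Tendsto (fun k => Qk T k (Finsupp.single y 1 -
        Finsupp.single T.o 1) (Finsupp.single y 1 - Finsupp.single T.o 1))
        (hyperfilter ℕ : Filter ℕ) (𝓝 0) := by
      intro y hy
      have h3 := hn ⟨Finsupp.single y 1 - Finsupp.single T.o 1, diff_mem T T.o y⟩
      have h4 : j ⟨Finsupp.single y 1 - Finsupp.single T.o 1, diff_mem T T.o y⟩ = 0 := hcon y hy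
      rw [h4, norm_zero] at h3
      obtain ⟨M, hM⟩ := X0_bdd T (diff_mem T T.o y) (diff_mem T T.o y)
      have h5 := tendsto_ulim hM
      have h6 : ulim (fun k => Qk T k (Finsupp.single y 1 - Finsupp.single T.o 1)
          (Finsupp.single y 1 - Finsupp.single T.o 1)) = 0 := by
        rw [← show (0 : ℝ) ^ 2 = 0 by norm_num]
        exact h3.symm
      rw [h6] at h5
      exact h5
    have h3 := tendsto_finsetSum (T.nb T.o) h2
    have h4 : ∀ k, ∑ y ∈ T.nb T.o, Qk T k (Finsupp.single y 1 - Finsupp.single T.o 1)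
        (Finsupp.single y 1 - Finsupp.single T.o 1) = 2 * T.deg := by
      intro k
      have hA := Ak_pos T k
      have h5 := sum_diff T k T.o
      simp only [Qk_apply, map_sub (P T.nb T.deg ^ k)]
      rw [← Finset.mul_sum]
      unfold fk at h5
      rw [h5]
      field_simp
    simp only [h4, Finset.sum_const_zero] at h3
    have h5 := tendsto_nhds_unique h3 tendsto_const_nhds
    linarith

end Main

end Vale.Agent.P151.GB.W2
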