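import Mathlib

/-!
P151, part (B), piece W2: finitely supported functions, the Markov operator of a neighbourhood
system, its Dirichlet form.
-/

open Filter Topology

namespace Vale.Agent.P151.GB.W2

universe u v

section Bil

variable {E : Type*} [AddCommGroup E] [Module ℝ E]

/-- Cauchy-Schwarz for positive semidefinite symmetric bilinear forms. -/
theorem bil_cs (Q : E →ₗ[ℝ] E →ₗ[ℝ] ℝ) (hs : ∀ x y, Q x y = Q y x) (hp : ∀ x, 0 ≤ Q x x)
    (x y : E) : Q x y ^ 2 ≤ Q x x * Q y y := by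
  have key : ∀ t : ℝ, 0 ≤ Q y y * (t * t) + (2 * Q x y) * t + Q x x := by
    intro t
    have h := hp (x + t • y)
    simp only [map_add, map_smul, LinearMap.add_apply, LinearMap.smul_apply, smul_eq_mul] at h
    rw [hs y x] at h
    nlinarith
  have h := discrim_le_zero key
  unfold discrim at h
  nlinarith

/-- The triangle inequality for the square root of a form. -/
theorem bil_tri (Q : E →ₗ[ℝ] E →ₗ[ℝ] ℝ) (hs : ∀ x y, Q x y = Q y x) (hp : ∀ x, 0 ≤ Q x x)
    (x y : E) : Real.sqrt (Q (x + y) (x + y)) ≤ Real.sqrt (Q x x) + Real.sqrt (Q y y) := by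
  refine Real.sqrt_le_iff.2 ⟨add_nonneg (Real.sqrt_nonneg _) (Real.sqrt_nonneg _), ?_⟩
  have h1 := bil_cs Q hs hp x y
  have h2 : Q x y ≤ Real.sqrt (Q x x) * Real.sqrt (Q y y) := by
    rw [← Real.sqrt_mul (hp x)]
    exact Real.le_sqrt_of_sq_le h1
  have h3 := Real.sq_sqrt (hp x)
  have h4 := Real.sq_sqrt (hp y)
  simp only [map_add, LinearMap.add_apply]
  rw [hs y x]
  nlinarith

end Bil

section Form

variable {V : Type v}

/-- the scalar product of finitely supported functions -/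
noncomputable def ip : (V →₀ ℝ) →ₗ[ℝ] (V →₀ ℝ) →ₗ[ℝ] ℝ :=
  Finsupp.linearCombination ℝ (fun v => (Finsupp.lapply v : (V →₀ ℝ) →ₗ[ℝ] ℝ))

theorem ip_single (v : V) (a : ℝ) (g : V →₀ ℝ) : ip (Finsupp.single v a) g = a * g v := by
  simp [ip]

theorem ip_eq_sum (f g : V →₀ ℝ) : ip f g = ∑ v ∈ f.support, f v * g v := by
  rw [ip, Finsupp.linearCombination_apply, Finsupp.sum, LinearMap.sum_apply]
  exact Finset.sum_congr rfl fun v _ => by simp

theorem ip_single_right (v : V) (f : V →₀ ℝ) : ip f (Finsupp.single v 1) = f v := by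
  classical
  rw [ip_eq_sum]
  by_cases h : v ∈ f.support
  · rw [Finset.sum_eq_single v]
    · simp
    · intro w _ hw
      rw [Finsupp.single_eq_of_ne hw, mul_zero]
    · exact fun h' => absurd h h'
  · rw [Finsupp.notMem_support_iff.1 h]
    refine Finset.sum_eq_zero fun w hw => ?_
    have : w ≠ v := fun e => h (e ▸ hw)
    rw [Finsupp.single_eq_of_ne this, mul_zero]

theorem ip_comm (f g : V →₀ ℝ) : ip f g = ip g f := by
  have h : (ip : (V →₀ ℝ) →ₗ[ℝ] (V →₀ ℝ) →ₗ[ℝ] ℝ) = ip.flip := by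
    refine Finsupp.lhom_ext' fun v => LinearMap.ext_ring ?_
    refine LinearMap.ext fun g => ?_
    show ip (Finsupp.single v 1) g = ip g (Finsupp.single v 1)
    rw [ip_single, ip_single_right, one_mul]
  exact congrArg (fun l => l f g) h

theorem ip_nonneg (f : V →₀ ℝ) : 0 ≤ ip f f := by
  rw [ip_eq_sum]
  exact Finset.sum_nonneg fun v _ => mul_self_nonneg _

/-- a neighbourhood system: closed neighbourhoods of constant size of a symmetric relation -/
structure NS (N : V → Finset V) (m : ℕ) : Prop where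
  self : ∀ v, v ∈ N v
  symm : ∀ v w, w ∈ N v → v ∈ N w
  card : ∀ v, (N v).card = m

variable {N : V → Finset V} {m : ℕ}

theorem NS.pos [Nonempty V] (h : NS N m) : 0 < m := by
  obtain ⟨v⟩ := (inferInstance : Nonempty V)
  rw [← h.card v]
  exact Finset.card_pos.2 ⟨v, h.self v⟩

/-- the Markov operator -/
noncomputable def P (N : V → Finset V) (m : ℕ) : (V →₀ ℝ) →ₗ[ℝ] (V →₀ ℝ) :=
  Finsupp.linearCombination ℝ (fun v => (m : ℝ)⁻¹ • ∑ w ∈ N v, Finsupp.single w (1 : ℝ))

theorem P_single (v : V) (a : ℝ) : P N m (Finsupp.single v a) =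
    (a * (m : ℝ)⁻¹) • ∑ w ∈ N v, Finsupp.single w (1 : ℝ) := by
  simp [P, smul_smul]

theorem P_apply (hN : NS N m) (f : V →₀ ℝ) (v : V) : P N m f v = (m : ℝ)⁻¹ * ∑ w ∈ N v, f w := by
  classical
  have h : (Finsupp.lapply v : (V →₀ ℝ) →ₗ[ℝ] ℝ) ∘ₗ P N m =
      (m : ℝ)⁻¹ • ∑ w ∈ N v, (Finsupp.lapply w : (V →₀ ℝ) →ₗ[ℝ] ℝ) := by
    refine Finsupp.lhom_ext' fun u => LinearMap.ext_ring ?_
    simp only [LinearMap.coe_comp, Function.comp_apply, Finsupp.lsingle_apply,
      Finsupp.lapply_apply, LinearMap.smul_apply, LinearMap.sum_apply, P_single, one_mul,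
      Finsupp.smul_apply, Finsupp.finsetSum_apply, smul_eq_mul]
    congr 1
    by_cases hv : v ∈ N u
    · rw [Finset.sum_eq_single v (fun w _ hw => Finsupp.single_eq_of_ne (Ne.symm hw))
        (fun h => absurd hv h), Finset.sum_eq_single u (fun w _ hw => Finsupp.single_eq_of_ne hw)
        (fun h => absurd (hN.symm _ _ hv) h)]
      simp
    · rw [Finset.sum_eq_zero, Finset.sum_eq_zero]
      · intro w hw
        refine Finsupp.single_eq_of_ne fun e => hv ?_
        subst e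
        exact hN.symm _ _ hw
      · intro w hw
        refine Finsupp.single_eq_of_ne fun e => hv ?_
        rw [e]
        exact hw
  have := congrArg (fun l => l f) h
  simpa using this

theorem ip_P_symm (hN : NS N m) (f g : V →₀ ℝ) : ip (P N m f) g = ip f (P N m g) := by
  have h : ip.comp (P N m) = ip.compl₂ (P N m) := by
    refine Finsupp.lhom_ext' fun u => LinearMap.ext_ring (LinearMap.ext fun g => ?_)
    show ip (P N m (Finsupp.single u 1)) g = ip (Finsupp.single u 1) (P N m g)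
    rw [P_single, ip_single, one_mul, one_mul, P_apply hN, map_smul, LinearMap.smul_apply,
      smul_eq_mul, map_sum, LinearMap.sum_apply]
    congr 1
    exact Finset.sum_congr rfl fun w _ => by rw [ip_single, one_mul]
  exact congrArg (fun l => l f g) h

theorem ip_pow_symm (hN : NS N m) (k : ℕ) (f g : V →₀ ℝ) :
    ip ((P N m ^ k) f) g = ip f ((P N m ^ k) g) := by
  induction k generalizing f with
  | zero => rfl
  | succ k ih =>
    rw [pow_succ, Module.End.mul_apply, ih, ip_P_symm hN, ← Module.End.mul_apply, ← pow_succ',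
      pow_succ]

/-- a support bound -/
theorem ip_eq_sum_of {f g : V →₀ ℝ} {F : Finset V} (hF : ∀ v, v ∉ F → f v = 0) :
    ip f g = ∑ v ∈ F, f v * g v := by
  rw [ip_eq_sum]
  refine Finset.sum_subset (fun v hv => ?_) (fun v _ hv => ?_)
  · by_contra h
    exact (Finsupp.mem_support_iff.1 hv) (hF v h)
  · rw [Finsupp.notMem_support_iff.1 hv, zero_mul]

theorem sum_pairs (hN : NS N m) (f : V →₀ ℝ) :
    ∃ F : Finset V, (∀ v, v ∉ F → f v = 0) ∧ (∑ v ∈ F, ∑ w ∈ N v, f w ^ 2 = m * ip f f) ∧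
      (∑ v ∈ F, ∑ _w ∈ N v, f v ^ 2 = m * ip f f) ∧
      (∑ v ∈ F, ∑ w ∈ N v, f w * f v = m * ip (P N m f) f) ∧ True := by
  classical
  rcases isEmpty_or_nonempty V with hV | hV
  · refine ⟨∅, fun v => hV.elim v, ?_, ?_, ?_, trivial⟩
    all_goals
      have : f = 0 := Finsupp.ext fun v => hV.elim v
      simp [this]
  have hm : (m : ℝ) ≠ 0 := by exact_mod_cast hN.pos.ne'
  obtain ⟨F, hF⟩ : ∃ F : Finset V, F = f.support.biUnion N := ⟨_, rfl⟩
  have hF0 : ∀ v, v ∉ F → f v = 0 := by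
    intro v hv
    by_contra h
    exact hv (hF ▸ Finset.mem_biUnion.2 ⟨v, Finsupp.mem_support_iff.2 h, hN.self v⟩)
  have hF1 : ∀ v ∈ f.support, N v ⊆ F := fun v hv w hw =>
    hF ▸ Finset.mem_biUnion.2 ⟨v, hv, hw⟩
  have e2 : ∑ v ∈ F, ∑ w ∈ N v, f v ^ 2 = m * ip f f := by
    rw [ip_eq_sum_of hF0, Finset.mul_sum]
    refine Finset.sum_congr rfl fun v _ => ?_
    rw [Finset.sum_const, hN.card, nsmul_eq_mul, sq]
  refine ⟨F, hF0, ?_, e2, ?_, trivial⟩
  · rw [← e2]
    have h1 : ∀ v : V, ∑ w ∈ N v, f w ^ 2 = ∑ w ∈ f.support, if w ∈ N v then f w ^ 2 else 0 := by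
      intro v
      rw [← Finset.sum_filter]
      refine (Finset.sum_subset_zero_on_sdiff (fun w hw => (Finset.mem_filter.1 hw).2) ?_
        fun w _ => rfl).symm
      intro w hw
      rw [Finset.mem_sdiff, Finset.mem_filter, not_and'] at hw
      have := hw.2 hw.1
      rw [Finsupp.notMem_support_iff] at this
      rw [this]
      norm_num
    simp only [h1]
    rw [Finset.sum_comm]
    have h2 : ∀ w ∈ f.support, (∑ v ∈ F, if w ∈ N v then f w ^ 2 else 0) =
        ∑ v ∈ N w, f w ^ 2 := by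
      intro w hw
      rw [← Finset.sum_filter]
      refine Finset.sum_congr ?_ fun _ _ => rfl
      ext v
      rw [Finset.mem_filter]
      exact ⟨fun h => hN.symm _ _ h.2, fun h => ⟨hF1 w hw h, hN.symm _ _ h⟩⟩
    rw [Finset.sum_congr rfl h2]
    refine Finset.sum_subset (fun v hv => hF1 v hv (hN.self v)) fun v _ hv => ?_
    rw [Finsupp.notMem_support_iff.1 hv]
    simp
  · rw [ip_comm, ip_eq_sum_of hF0, Finset.mul_sum]
    refine Finset.sum_congr rfl fun v _ => ?_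
    rw [P_apply hN, ← Finset.sum_mul]
    field_simp

/-- the Dirichlet form -/
noncomputable def En (N : V → Finset V) (m : ℕ) : (V →₀ ℝ) →ₗ[ℝ] (V →₀ ℝ) →ₗ[ℝ] ℝ :=
  ip - ip.comp (P N m)

theorem En_apply (f g : V →₀ ℝ) : En N m f g = ip f g - ip (P N m f) g := rfl

theorem En_comm (hN : NS N m) (f g : V →₀ ℝ) : En N m f g = En N m g f := by
  rw [En_apply, En_apply, ip_P_symm hN, ip_comm f g, ip_comm f]

theorem En_nonneg (hN : NS N m) (f : V →₀ ℝ) : 0 ≤ En N m f f := by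
  rcases isEmpty_or_nonempty V with hV | hV
  · have : f = 0 := Finsupp.ext fun v => hV.elim v
    simp [this]
  have hm : (0 : ℝ) < m := by exact_mod_cast hN.pos
  obtain ⟨F, -, h1, h2, h3, -⟩ := sum_pairs hN f
  have h4 : 0 ≤ ∑ v ∈ F, ∑ w ∈ N v, (f w - f v) ^ 2 :=
    Finset.sum_nonneg fun v _ => Finset.sum_nonneg fun w _ => sq_nonneg _
  have h5 : ∑ v ∈ F, ∑ w ∈ N v, (f w - f v) ^ 2 = ∑ v ∈ F, ∑ w ∈ N v, f w ^ 2 +
      ∑ v ∈ F, ∑ w ∈ N v, f v ^ 2 - 2 * ∑ v ∈ F, ∑ w ∈ N v, f w * f v := by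
    simp only [Finset.mul_sum, ← Finset.sum_add_distrib, ← Finset.sum_sub_distrib]
    exact Finset.sum_congr rfl fun v _ => Finset.sum_congr rfl fun w _ => by ring
  rw [h5, h1, h2, h3] at h4
  rw [En_apply]
  nlinarith

theorem ip_P_ge (hN : NS N m) (f : V →₀ ℝ) : (2 * (m : ℝ)⁻¹ - 1) * ip f f ≤ ip (P N m f) f := by
  classical
  rcases isEmpty_or_nonempty V with hV | hV
  · have : f = 0 := Finsupp.ext fun v => hV.elim v
    simp [this]
  have hm : (0 : ℝ) < m := by exact_mod_cast hN.pos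
  obtain ⟨F, hF, h1, h2, h3, -⟩ := sum_pairs hN f
  have h4 : ∑ v ∈ F, (2 * f v) ^ 2 ≤ ∑ v ∈ F, ∑ w ∈ N v, (f w + f v) ^ 2 := by
    refine Finset.sum_le_sum fun v _ => ?_
    have := Finset.single_le_sum (f := fun w => (f w + f v) ^ 2) (fun w _ => sq_nonneg _)
      (hN.self v)
    refine le_trans (le_of_eq ?_) this
    ring
  have h5 : ∑ v ∈ F, ∑ w ∈ N v, (f w + f v) ^ 2 = ∑ v ∈ F, ∑ w ∈ N v, f w ^ 2 +
      ∑ v ∈ F, ∑ w ∈ N v, f v ^ 2 + 2 * ∑ v ∈ F, ∑ w ∈ N v, f w * f v := by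
    simp only [Finset.mul_sum, ← Finset.sum_add_distrib]
    exact Finset.sum_congr rfl fun v _ => Finset.sum_congr rfl fun w _ => by ring
  have h6 : ∑ v ∈ F, (2 * f v) ^ 2 = 4 * ip f f := by
    rw [ip_eq_sum_of hF, Finset.mul_sum]
    exact Finset.sum_congr rfl fun v _ => by ring
  rw [h5, h1, h2, h3, h6] at h4
  have h7 : (2 * (m : ℝ)⁻¹ - 1) * ip f f = (m : ℝ)⁻¹ * (2 * ip f f - m * ip f f) := by
    field_simp
  rw [h7, inv_mul_le_iff₀ hm]
  linarith

end Form

end Vale.Agent.P151.GB.W2
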