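import Vale.Agent.P151.GB.Base
import Vale.Agent.P151.GB.W2a

/-!
P151, part (B), piece W2: on an infinite transitive graph of weak polynomial growth the functions
`P ^ k δ` are almost harmonic compared with their Dirichlet energy.
-/

open Filter Topology

namespace Vale.Agent.P151.GB.W2

universe u v

variable {Γ : Type u} {V : Type v} [Group Γ] [MulAction Γ V] (T : TG Γ V)

/-! ### balls -/

theorem mem_ball_self (x : V) (n : ℕ) : x ∈ T.ball x n := by
  classical
  induction n with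
  | zero => simp [TG.ball]
  | succ n ih =>
    rw [TG.ball, Finset.mem_biUnion]
    exact ⟨x, ih, T.self_mem x⟩

theorem mem_ball_succ {x y : V} {n : ℕ} : y ∈ T.ball x (n + 1) ↔ ∃ z ∈ T.ball x n, y ∈ T.nb z := by
  classical
  rw [TG.ball, Finset.mem_biUnion]

theorem ball_mono_succ (x : V) (n : ℕ) : T.ball x n ⊆ T.ball x (n + 1) := fun y hy =>
  (mem_ball_succ T).2 ⟨y, hy, T.self_mem y⟩

theorem ball_trans {x y z : V} {m n : ℕ} (h1 : y ∈ T.ball x m) (h2 : z ∈ T.ball y n) :
    z ∈ T.ball x (m + n) := by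
  induction n generalizing z with
  | zero =>
    simp only [TG.ball, Finset.mem_singleton] at h2
    rw [h2]
    exact h1
  | succ n ih =>
    obtain ⟨w, hw, hz⟩ := (mem_ball_succ T).1 h2
    rw [← add_assoc]
    exact (mem_ball_succ T).2 ⟨w, ih hw, hz⟩

theorem ball_symm {x y : V} {n : ℕ} (h : y ∈ T.ball x n) : x ∈ T.ball y n := by
  induction n generalizing y with
  | zero =>
    simp only [TG.ball, Finset.mem_singleton] at h ⊢
    exact h.symm
  | succ n ih =>
    obtain ⟨w, hw, hy⟩ := (mem_ball_succ T).1 h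
    have h1 : w ∈ T.ball y 1 := (mem_ball_succ T).2 ⟨y, by simp [TG.ball], T.symm _ _ hy⟩
    have h2 := ball_trans T h1 (ih hw)
    rwa [add_comm] at h2

theorem exists_mem_ball (x : V) : ∃ n, x ∈ T.ball T.o n := by
  have h := T.conn x
  induction h with
  | refl => exact ⟨0, by simp [TG.ball]⟩
  | tail _ h ih =>
    obtain ⟨n, hn⟩ := ih
    exact ⟨n + 1, (mem_ball_succ T).2 ⟨_, hn, h⟩⟩

theorem exists_far [Infinite V] (n : ℕ) : ∃ z, z ∈ T.ball T.o (n + 1) ∧ z ∉ T.ball T.o n := by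
  by_contra hcon
  push Not at hcon
  have h1 : ∀ k, T.ball T.o k ⊆ T.ball T.o n := by
    intro k
    induction k with
    | zero =>
      intro z hz
      simp only [TG.ball, Finset.mem_singleton] at hz
      rw [hz]
      exact mem_ball_self T _ _
    | succ k ih =>
      intro z hz
      obtain ⟨w, hw, hz⟩ := (mem_ball_succ T).1 hz
      exact hcon _ ((mem_ball_succ T).2 ⟨w, ih hw, hz⟩)
  have h2 : (Set.univ : Set V) ⊆ (T.ball T.o n : Set V) := fun z _ => by
    obtain ⟨k, hk⟩ := exists_mem_ball T z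
    exact h1 k hk
  exact Set.infinite_univ ((Finset.finite_toSet _).subset h2)

/-! ### translations -/

/-- translation of finitely supported functions -/
noncomputable def tr (g : Γ) : (V →₀ ℝ) →ₗ[ℝ] (V →₀ ℝ) := Finsupp.lmapDomain ℝ ℝ (fun v => g • v)

theorem tr_single (g : Γ) (v : V) (a : ℝ) :
    tr g (Finsupp.single v a) = Finsupp.single (g • v) a := by
  simp [tr, Finsupp.mapDomain_single]

theorem tr_one (f : V →₀ ℝ) : tr (1 : Γ) f = f := by
  have h : (tr (1 : Γ) : (V →₀ ℝ) →ₗ[ℝ] (V →₀ ℝ)) = LinearMap.id := by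
    refine Finsupp.lhom_ext' fun v => LinearMap.ext_ring ?_
    show tr (1 : Γ) (Finsupp.single v 1) = Finsupp.single v 1
    rw [tr_single, one_smul]
  rw [h, LinearMap.id_apply]

theorem tr_mul (g h : Γ) (f : V →₀ ℝ) : tr (g * h) f = tr g (tr h f) := by
  have h : (tr (g * h) : (V →₀ ℝ) →ₗ[ℝ] (V →₀ ℝ)) = (tr g).comp (tr h) := by
    refine Finsupp.lhom_ext' fun v => LinearMap.ext_ring ?_
    show tr (g * h) (Finsupp.single v 1) = tr g (tr h (Finsupp.single v 1))
    rw [tr_single, tr_single, tr_single, mul_smul]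
  rw [h, LinearMap.comp_apply]

theorem ip_tr (g : Γ) (f f' : V →₀ ℝ) : ip (tr g f) (tr g f') = ip f f' := by
  have h : (ip : (V →₀ ℝ) →ₗ[ℝ] (V →₀ ℝ) →ₗ[ℝ] ℝ).compl₁₂ (tr g) (tr g) = ip := by
    refine Finsupp.lhom_ext' fun v => LinearMap.ext_ring ?_
    refine Finsupp.lhom_ext' fun w => LinearMap.ext_ring ?_
    show ip (tr g (Finsupp.single v 1)) (tr g (Finsupp.single w 1)) =
      ip (Finsupp.single v 1) (Finsupp.single w 1)
    rw [tr_single, tr_single, ip_single, ip_single]
    by_cases hvw : v = w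
    · rw [hvw]; simp
    · rw [Finsupp.single_eq_of_ne hvw, Finsupp.single_eq_of_ne]
      exact fun e => hvw (MulAction.injective g e)
  exact congrArg (fun l => l f f') h

open Classical in
theorem nb_smul (g : Γ) (x : V) : T.nb (g • x) = (T.nb x).image (fun y => g • y) := by
  ext y
  rw [Finset.mem_image]
  constructor
  · intro h
    refine ⟨g⁻¹ • y, ?_, by simp⟩
    have := T.smul_mem g⁻¹ _ _ h
    rwa [inv_smul_smul] at this
  · rintro ⟨z, hz, rfl⟩
    exact T.smul_mem g _ _ hz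

theorem ns : NS T.nb T.deg where
  self := T.self_mem
  symm := T.symm
  card := by
    classical
    intro v
    obtain ⟨g, rfl⟩ := T.trans v
    rw [nb_smul, Finset.card_image_of_injective _ (MulAction.injective g)]
    rfl

theorem deg_pos : 0 < T.deg := Finset.card_pos.2 ⟨_, T.self_mem _⟩

theorem P_tr (g : Γ) (f : V →₀ ℝ) : P T.nb T.deg (tr g f) = tr g (P T.nb T.deg f) := by
  classical
  have h : (P T.nb T.deg).comp (tr g) = (tr g).comp (P T.nb T.deg) := by
    refine Finsupp.lhom_ext' fun v => LinearMap.ext_ring ?_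
    show P T.nb T.deg (tr g (Finsupp.single v 1)) = tr g (P T.nb T.deg (Finsupp.single v 1))
    rw [tr_single, P_single, P_single, map_smul, map_sum, nb_smul,
      Finset.sum_image (fun _ _ _ _ h => MulAction.injective g h)]
    simp only [tr_single]
  exact congrArg (fun l => l f) h

theorem Pk_tr (k : ℕ) (g : Γ) (f : V →₀ ℝ) :
    (P T.nb T.deg ^ k) (tr g f) = tr g ((P T.nb T.deg ^ k) f) := by
  induction k with
  | zero => rfl
  | succ k ih => rw [pow_succ', Module.End.mul_apply, Module.End.mul_apply, ih, P_tr]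

/-! ### the heat kernel -/

/-- the distribution of the random walk at time `k` started at `v` -/
noncomputable def fk (k : ℕ) (v : V) : V →₀ ℝ := (P T.nb T.deg ^ k) (Finsupp.single v 1)

theorem fk_zero (v : V) : fk T 0 v = Finsupp.single v 1 := rfl

theorem fk_succ (k : ℕ) (v : V) : fk T (k + 1) v = P T.nb T.deg (fk T k v) := by
  rw [fk, pow_succ', Module.End.mul_apply]
  rfl

theorem tr_fk (g : Γ) (k : ℕ) (v : V) : tr g (fk T k v) = fk T k (g • v) := by
  rw [fk, ← Pk_tr, tr_single]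
  rfl

theorem fk_nonneg (k : ℕ) (v z : V) : 0 ≤ fk T k v z := by
  induction k generalizing z with
  | zero =>
    rw [fk_zero]
    classical
    rw [Finsupp.single_apply]
    split_ifs <;> norm_num
  | succ k ih =>
    rw [fk_succ, P_apply (ns T)]
    exact mul_nonneg (by positivity) (Finset.sum_nonneg fun s _ => ih _)

theorem fk_supp (k : ℕ) (v z : V) (h : fk T k v z ≠ 0) : z ∈ T.ball v k := by
  induction k generalizing z with
  | zero =>
    rw [fk_zero] at h
    by_contra hz
    refine h (Finsupp.single_eq_of_ne ?_)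
    intro e
    exact hz (by simp [TG.ball, e])
  | succ k ih =>
    rw [fk_succ, P_apply (ns T)] at h
    have h1 : ∃ w ∈ T.nb z, fk T k v w ≠ 0 := by
      by_contra hcon
      push Not at hcon
      exact h (by rw [Finset.sum_eq_zero hcon, mul_zero])
    obtain ⟨w, hw, h2⟩ := h1
    exact (mem_ball_succ T).2 ⟨w, ih _ h2, T.symm _ _ hw⟩

/-- the total mass -/
noncomputable def mass : (V →₀ ℝ) →ₗ[ℝ] ℝ := Finsupp.linearCombination ℝ (fun _ => (1 : ℝ))

theorem mass_P (f : V →₀ ℝ) : mass (P T.nb T.deg f) = mass f := by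
  have hm : (T.deg : ℝ) ≠ 0 := by exact_mod_cast (deg_pos T).ne'
  have h : (mass : (V →₀ ℝ) →ₗ[ℝ] ℝ).comp (P T.nb T.deg) = mass := by
    refine Finsupp.lhom_ext' fun v => LinearMap.ext_ring ?_
    show mass (P T.nb T.deg (Finsupp.single v 1)) = mass (Finsupp.single v 1)
    rw [P_single, map_smul, map_sum]
    simp only [mass, Finsupp.linearCombination_single, smul_eq_mul, mul_one, Finset.sum_const,
      nsmul_eq_mul, (ns T).card, one_mul]
    exact inv_mul_cancel₀ hm
  exact congrArg (fun l => l f) h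

theorem mass_fk (k : ℕ) (v : V) : mass (fk T k v) = 1 := by
  induction k with
  | zero => simp [fk_zero, mass]
  | succ k ih => rw [fk_succ, mass_P, ih]

theorem mass_eq_sum {f : V →₀ ℝ} {F : Finset V} (hF : ∀ v, v ∉ F → f v = 0) :
    mass f = ∑ v ∈ F, f v := by
  rw [mass, Finsupp.linearCombination_apply, Finsupp.sum]
  simp only [smul_eq_mul, mul_one]
  refine Finset.sum_subset (fun v hv => ?_) (fun v _ hv => ?_)
  · by_contra h
    exact (Finsupp.mem_support_iff.1 hv) (hF v h)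
  · exact Finsupp.notMem_support_iff.1 hv

theorem fk_norm (k : ℕ) (v : V) :
    1 ≤ ((T.ball v k).card : ℝ) * ip (fk T k v) (fk T k v) := by
  have hF : ∀ z, z ∉ T.ball v k → fk T k v z = 0 := by
    intro z hz
    by_contra h
    exact hz (fk_supp T k v z h)
  have h1 := mass_fk T k v
  rw [mass_eq_sum hF] at h1
  have h2 := Finset.sum_mul_sq_le_sq_mul_sq (T.ball v k) (fun _ => (1 : ℝ)) (fk T k v)
  simp only [one_mul, one_pow, Finset.sum_const, nsmul_eq_mul, mul_one] at h2
  rw [h1, one_pow] at h2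
  rw [ip_eq_sum_of hF]
  simpa only [sq] using h2

theorem ip_fk (k : ℕ) (v : V) : ip (fk T k v) (fk T k v) = ip (fk T k T.o) (fk T k T.o) := by
  obtain ⟨g, rfl⟩ := T.trans v
  rw [← tr_fk, ip_tr]

/-- the energy of `P ^ k δ` -/
noncomputable def Ak (k : ℕ) : ℝ := En T.nb T.deg (fk T k T.o) (fk T k T.o)

theorem En_fk (k : ℕ) (v : V) : En T.nb T.deg (fk T k v) (fk T k v) = Ak T k := by
  obtain ⟨g, rfl⟩ := T.trans v
  rw [← tr_fk, En_apply, P_tr, ip_tr, ip_tr]
  rfl

theorem Ak_nonneg (k : ℕ) : 0 ≤ Ak T k := En_nonneg (ns T) _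

theorem sum_fk (k : ℕ) (v : V) :
    ∑ w ∈ T.nb v, fk T k w = (T.deg : ℝ) • fk T (k + 1) v := by
  have hm : (T.deg : ℝ) ≠ 0 := by exact_mod_cast (deg_pos T).ne'
  have h : fk T (k + 1) v = (T.deg : ℝ)⁻¹ • ∑ w ∈ T.nb v, fk T k w := by
    rw [fk, pow_succ, Module.End.mul_apply, P_single, one_mul, map_smul, map_sum]
    rfl
  rw [h, smul_smul, mul_inv_cancel₀ hm, one_smul]

theorem sum_diff (k : ℕ) (v : V) :
    ∑ w ∈ T.nb v, ip (fk T k w - fk T k v) (fk T k w - fk T k v) = 2 * T.deg * Ak T k := by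
  have h1 : ∀ w ∈ T.nb v, ip (fk T k w - fk T k v) (fk T k w - fk T k v) =
      2 * ip (fk T k v) (fk T k v) - 2 * ip (fk T k w) (fk T k v) := by
    intro w _
    simp only [map_sub, LinearMap.sub_apply]
    rw [ip_comm (fk T k v) (fk T k w), ip_fk T k w, ip_fk T k v]
    ring
  rw [Finset.sum_congr rfl h1, Finset.sum_sub_distrib, Finset.sum_const, (ns T).card,
    nsmul_eq_mul, ← Finset.mul_sum, ← LinearMap.sum_apply, ← map_sum, sum_fk, map_smul,
    LinearMap.smul_apply, smul_eq_mul, ← En_fk T k v, En_apply, fk_succ]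
  ring

theorem step_le (k : ℕ) {v w : V} (h : w ∈ T.nb v) :
    ip (fk T k w - fk T k v) (fk T k w - fk T k v) ≤ 2 * T.deg * Ak T k := by
  rw [← sum_diff T k v]
  exact Finset.single_le_sum (f := fun w => ip (fk T k w - fk T k v) (fk T k w - fk T k v))
    (fun _ _ => ip_nonneg _) h

theorem path_le (k : ℕ) {v z : V} {n : ℕ} (h : z ∈ T.ball v n) :
    Real.sqrt (ip (fk T k z - fk T k v) (fk T k z - fk T k v)) ≤
      n * Real.sqrt (2 * T.deg * Ak T k) := by
  induction n generalizing z with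
  | zero =>
    simp only [TG.ball, Finset.mem_singleton] at h
    simp [h]
  | succ n ih =>
    obtain ⟨w, hw, hz⟩ := (mem_ball_succ T).1 h
    have h1 := ih hw
    have h2 := Real.sqrt_le_sqrt (step_le T k hz)
    have h3 := bil_tri ip ip_comm ip_nonneg (fk T k z - fk T k w) (fk T k w - fk T k v)
    rw [sub_add_sub_cancel] at h3
    push_cast
    linarith

theorem Ak_lower [Infinite V] (k : ℕ) :
    1 ≤ ((T.ball T.o k).card : ℝ) * ((2 * k + 1) ^ 2 * (T.deg * Ak T k)) := by
  obtain ⟨z, hz1, hz2⟩ := exists_far T (2 * k)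
  have h1 : ip (fk T k z - fk T k T.o) (fk T k z - fk T k T.o) =
      2 * ip (fk T k T.o) (fk T k T.o) := by
    have h0 : ip (fk T k z) (fk T k T.o) = 0 := by
      rw [ip_eq_sum]
      refine Finset.sum_eq_zero fun x _ => ?_
      by_contra hcon
      have h2 := fk_supp T k z x (left_ne_zero_of_mul hcon)
      have h3 := fk_supp T k T.o x (right_ne_zero_of_mul hcon)
      have h4 := ball_trans T h3 (ball_symm T h2)
      rw [← two_mul] at h4
      exact hz2 h4
    simp only [map_sub, LinearMap.sub_apply]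
    rw [ip_comm (fk T k T.o) (fk T k z), h0, ip_fk T k z]
    ring
  have h2 := path_le T k hz1
  rw [h1] at h2
  have h3 := pow_le_pow_left₀ (Real.sqrt_nonneg _) h2 2
  have hA := Ak_nonneg T k
  have hi := ip_nonneg (fk T k T.o)
  rw [Real.sq_sqrt (by positivity), mul_pow, Real.sq_sqrt (by positivity)] at h3
  push_cast at h3
  have h4 : ip (fk T k T.o) (fk T k T.o) ≤ (2 * k + 1) ^ 2 * (T.deg * Ak T k) := by nlinarith
  exact (fk_norm T k T.o).trans (mul_le_mul_of_nonneg_left h4 (by positivity))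

theorem Ak_pos [Infinite V] (k : ℕ) : 0 < Ak T k := by
  have h1 := Ak_lower T k
  rcases (Ak_nonneg T k).eq_or_lt with h | h
  · rw [← h] at h1
    norm_num at h1
  · exact h

theorem Ak_logconv (k : ℕ) : Ak T (k + 1) ^ 2 ≤ Ak T k * Ak T (k + 2) := by
  have h := bil_cs (En T.nb T.deg) (En_comm (ns T)) (En_nonneg (ns T)) (fk T k T.o)
    (fk T (k + 2) T.o)
  have e : En T.nb T.deg (fk T k T.o) (fk T (k + 2) T.o) = Ak T (k + 1) := by
    unfold Ak
    rw [En_apply, En_apply, fk_succ T (k + 1), fk_succ T k, ← ip_P_symm (ns T),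
      ← ip_P_symm (ns T) (P T.nb T.deg (fk T k T.o)), ip_comm (P T.nb T.deg (fk T k T.o))]
  rw [e] at h
  exact h

/-- `(1 - P) f_k` -/
noncomputable def gk (k : ℕ) (v : V) : V →₀ ℝ := fk T k v - fk T (k + 1) v

theorem gk_le (k : ℕ) (v : V) :
    2 * (T.deg : ℝ)⁻¹ * ip (gk T k v) (gk T k v) ≤ Ak T k - Ak T (k + 1) := by
  have h2 := ip_P_ge (ns T) (gk T k v)
  have e : ip (gk T k v) (gk T k v) + ip (P T.nb T.deg (gk T k v)) (gk T k v) =
      Ak T k - Ak T (k + 1) := by
    rw [← En_fk T k v, ← En_fk T (k + 1) v, gk, En_apply, En_apply]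
    simp only [map_sub, LinearMap.sub_apply, ← fk_succ]
    have s1 := ip_P_symm (ns T) (fk T k v) (fk T (k + 1) v)
    rw [← fk_succ, ← fk_succ] at s1
    have s3 := ip_comm (fk T (k + 1 + 1) v) (fk T k v)
    have s4 := ip_comm (fk T (k + 1) v) (fk T k v)
    linarith
  linarith

theorem Ak_ratio [Infinite V] {D : ℕ} (hG : T.WG D) {ε : ℝ} (hε : 0 < ε) :
    ∀ᶠ k in atTop, (1 - ε) * Ak T k ≤ Ak T (k + 1) := by
  rcases le_or_gt 1 ε with hε1 | hε1
  · refine Eventually.of_forall fun k => ?_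
    have h1 := Ak_pos T k
    have h2 := Ak_pos T (k + 1)
    nlinarith
  by_cases hex : ∃ k0, (1 - ε) * Ak T k0 ≤ Ak T (k0 + 1)
  · obtain ⟨k0, hk0⟩ := hex
    rw [eventually_atTop]
    refine ⟨k0, fun k hk => ?_⟩
    induction k, hk using Nat.le_induction with
    | base => exact hk0
    | succ k hk ih =>
      have h1 := Ak_logconv T k
      have h2 := Ak_pos T k
      have h3 := Ak_pos T (k + 1)
      have h4 : (1 - ε) * Ak T (k + 1) * Ak T k ≤ Ak T (k + 2) * Ak T k := by
        calc (1 - ε) * Ak T (k + 1) * Ak T k = (1 - ε) * Ak T k * Ak T (k + 1) := by ring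
          _ ≤ Ak T (k + 1) * Ak T (k + 1) := mul_le_mul_of_nonneg_right ih h3.le
          _ ≤ Ak T (k + 2) * Ak T k := by nlinarith
      exact le_of_mul_le_mul_right h4 h2
  · exfalso
    push Not at hex
    have h1 : ∀ k, Ak T k ≤ (1 - ε) ^ k * Ak T 0 := by
      intro k
      induction k with
      | zero => simp
      | succ k ih =>
        rw [pow_succ]
        have := (hex k).le
        nlinarith
    have h2 : ∃ᶠ k : ℕ in atTop, 1 ≤ ((k : ℝ) ^ D) * ((2 * k + 1) ^ 2 *
        (T.deg * ((1 - ε) ^ k * Ak T 0))) := by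
      refine hG.mono fun k hk => ?_
      refine (Ak_lower T k).trans ?_
      have h3 : ((T.ball T.o k).card : ℝ) ≤ (k : ℝ) ^ D := by exact_mod_cast hk
      have h4 : (0 : ℝ) ≤ Ak T k := (Ak_pos T k).le
      have h5 := h1 k
      gcongr
    have h3 : Tendsto (fun k : ℕ => ((k : ℝ) ^ D) * ((2 * k + 1) ^ 2 *
        (T.deg * ((1 - ε) ^ k * Ak T 0)))) atTop (𝓝 0) := by
      have h4 : Tendsto (fun k : ℕ => ((k : ℝ) ^ (D + 2) * (1 - ε) ^ k)) atTop (𝓝 0) :=
        tendsto_pow_const_mul_const_pow_of_lt_one (D + 2) (by linarith) (by linarith)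
      have h5 := h4.const_mul (9 * T.deg * Ak T 0 : ℝ)
      rw [mul_zero] at h5
      refine squeeze_zero' ?_ ?_ h5
      · refine Eventually.of_forall fun k => ?_
        have h6 := Ak_nonneg T 0
        have h7 : (0 : ℝ) ≤ (1 - ε) ^ k := pow_nonneg (by linarith) _
        positivity
      · filter_upwards [eventually_ge_atTop 1] with k hk
        have hk' : (1 : ℝ) ≤ k := by exact_mod_cast hk
        have h6 := Ak_nonneg T 0
        have h7 : (0 : ℝ) ≤ (1 - ε) ^ k := pow_nonneg (by linarith) _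
        have h9 : (2 * (k : ℝ) + 1) ^ 2 ≤ 9 * (k : ℝ) ^ 2 := by nlinarith
        calc ((k : ℝ) ^ D) * ((2 * k + 1) ^ 2 * (T.deg * ((1 - ε) ^ k * Ak T 0))) ≤
            ((k : ℝ) ^ D) * ((9 * (k : ℝ) ^ 2) * (T.deg * ((1 - ε) ^ k * Ak T 0))) := by
              gcongr
          _ = 9 * T.deg * Ak T 0 * ((k : ℝ) ^ (D + 2) * (1 - ε) ^ k) := by
            rw [pow_add]; ring
    have h4 : ∀ᶠ k : ℕ in atTop, ((k : ℝ) ^ D) * ((2 * k + 1) ^ 2 *
        (T.deg * ((1 - ε) ^ k * Ak T 0))) < 1 := h3.eventually (gt_mem_nhds one_pos)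
    obtain ⟨k, hk1, hk2⟩ := (h2.and_eventually h4).exists
    linarith

end Vale.Agent.P151.GB.W2
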